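import Vale.Agent.P219.Main
import Vale.Agent.P219.Var.AAveraged
import Vale.Agent.P219.Lines.AChordBound

/-!
# P219 module AMain: assembly for anisotropic calibrations

The argument of `Main.lean` with the anisotropic variation and chord bounds (no interior term).
-/

open MeasureTheory Set Filter Topology

namespace Vale.Agent.P219

variable {n : ℕ} {G : EE n → Form n}

/-- the boundary constant is nonnegative, and the cost in parts -/
theorem ACalib.cost_parts [NeZero n] (C : ACalib n) :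
    0 ≤ C.α + 2 * (ballMoment n (fun c => c * C.φ c) / omega n) ∧
      C.cost = n * (C.α + 2 * (ballMoment n (fun c => c * C.φ c) / omega n)) := by
  have hmu : 0 ≤ ballMoment n (fun c => c * C.φ c) / omega n := by
    refine div_nonneg (integral_nonneg fun v => ?_) omega_pos.le
    exact mul_nonneg (le_max_left _ _) (C.φ_nonneg _ (le_max_left _ _))
  refine ⟨by have := C.α_nonneg; positivity, ?_⟩
  unfold ACalib.cost
  ring

/-- the estimate for one band -/
theorem band_algebra_aniso [NeZero n] (hn : 2 ≤ n) (C : ACalib n)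
    {P A Amax r lo hi d κ₀ err e : ℝ}
    (hA0 : 0 ≤ A) (hAm : A ≤ Amax) (hlo0 : 0 < lo) (hrlo : lo ≤ r) (hrhi : r ≤ hi) (hd0 : 0 < d)
    (hκ₀ : κ₀ = d / (n * omega n * hi ^ (n - 1) + d)) (hCc : C.cost ≤ 1 + κ₀)
    (hA : A ≤ n * omega n * r ^ (n - 1) - d) (he0 : 0 ≤ e) (herr : err ≤ e)
    (hP : P ≤ C.α * A ^ 2 + err * A) :
    P / (n * r ^ (n - 2)) + 2 * (ballMoment n (fun c => c * C.φ c) / omega n) * omega n * r * A ≤
      omega n ^ 2 * r ^ n * (1 - κ₀ ^ 2) + e * (Amax / (n * lo ^ (n - 2))) := by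
  obtain ⟨hc, hcost⟩ := C.cost_parts
  set mu := ballMoment n (fun c => c * C.φ c) / omega n
  have hw : 0 < omega n := omega_pos
  have hnR : (0 : ℝ) < n := Nat.cast_pos.2 (NeZero.pos n)
  have hr0 : 0 < r := hlo0.trans_le hrlo
  have hhi0 : 0 < hi := hr0.trans_le hrhi
  have hκ1 : κ₀ ≤ 1 := by
    rw [hκ₀]
    refine (div_le_one (by positivity)).2 ?_
    have : 0 ≤ n * omega n * hi ^ (n - 1) := by positivity
    linarith
  have hR1 : r ^ n = r ^ (n - 1) * r := by rw [← pow_succ]; congr 1; omega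
  have hR2 : r ^ (n - 1) = r ^ (n - 2) * r := by rw [← pow_succ]; congr 1; omega
  have hA1 : A ≤ n * omega n * r ^ (n - 1) * (1 - κ₀) := by
    have h1 : n * omega n * r ^ (n - 1) * κ₀ ≤ d := by
      rw [hκ₀, mul_div_assoc', div_le_iff₀ (by positivity), mul_comm]
      refine mul_le_mul_of_nonneg_left ?_ hd0.le
      have : n * omega n * r ^ (n - 1) ≤ n * omega n * hi ^ (n - 1) :=
        mul_le_mul_of_nonneg_left (pow_le_pow_left₀ hr0.le hrhi _) (by positivity)
      linarith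
    linarith
  have h1 : C.α * A ^ 2 / (n * r ^ (n - 2)) ≤ omega n * r * A * C.α := by
    rw [div_le_iff₀ (by positivity), sq]
    calc C.α * (A * A) = C.α * A * A := by ring
      _ ≤ C.α * A * (n * omega n * r ^ (n - 1)) :=
          mul_le_mul_of_nonneg_left (by linarith) (mul_nonneg C.α_nonneg hA0)
      _ = _ := by rw [hR2]; ring
  have h2 : err * A / (n * r ^ (n - 2)) ≤ e * (Amax / (n * lo ^ (n - 2))) := by
    have he : err * A ≤ e * Amax :=
      (mul_le_mul_of_nonneg_right herr hA0).trans (mul_le_mul_of_nonneg_left hAm he0)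
    refine (div_le_div_of_nonneg_right he (by positivity)).trans ?_
    rw [mul_div_assoc e]
    exact mul_le_mul_of_nonneg_left (div_le_div_of_nonneg_left (hA0.trans hAm) (by positivity)
      (mul_le_mul_of_nonneg_left (pow_le_pow_left₀ hlo0.le hrlo _) hnR.le)) he0
  have h3 : P / (n * r ^ (n - 2)) ≤
      C.α * A ^ 2 / (n * r ^ (n - 2)) + err * A / (n * r ^ (n - 2)) := by
    rw [← add_div]
    exact div_le_div_of_nonneg_right hP (by positivity)
  have h4 : omega n * r * A * (C.α + 2 * mu) ≤ omega n ^ 2 * r ^ n * (1 - κ₀ ^ 2) := by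
    calc omega n * r * A * (C.α + 2 * mu)
        ≤ omega n * r * (n * omega n * r ^ (n - 1) * (1 - κ₀)) * (C.α + 2 * mu) :=
          mul_le_mul_of_nonneg_right (mul_le_mul_of_nonneg_left hA1 (by positivity)) hc
      _ = omega n ^ 2 * r ^ n * ((1 - κ₀) * C.cost) := by rw [hR1, hcost]; ring
      _ ≤ _ := mul_le_mul_of_nonneg_left
          (by nlinarith [mul_le_mul_of_nonneg_left hCc (sub_nonneg.2 hκ1)]) (by positivity)
  have h5 : omega n * r * A * (C.α + 2 * mu)
      = omega n * r * A * C.α + 2 * mu * omega n * r * A := by ring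
  linarith

/-- letting `k → ∞` in the band estimate -/
theorem limit_absurd_aniso [NeZero n] (_hn : 2 ≤ n) {lo R κ₀ e₀ Amax c₁ : ℝ} {Rs D X : ℕ → ℝ}
    (hlo0 : 0 < lo) (hR : lo ≤ R) (hκ0 : 0 < κ₀) (hRlim : Tendsto Rs atTop (𝓝 R))
    (hD : Tendsto D atTop (𝓝 0))
    (hbound : ∀ k, X k ≤ omega n ^ 2 * Rs k ^ n * (1 - κ₀ ^ 2)
      + (e₀ + c₁ * D k) * (Amax / (n * lo ^ (n - 2))))
    (hfin : ∀ M : ℝ, (∀ᶠ k in atTop, X k ≤ M) → omega n * (omega n * R ^ n) ≤ M)
    (hsmall : e₀ * (Amax / (n * lo ^ (n - 2))) ≤ omega n ^ 2 * lo ^ n * κ₀ ^ 2 / 4) : False := by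
  have hw : 0 < omega n := omega_pos
  set E₀ := omega n ^ 2 * lo ^ n * κ₀ ^ 2 / 4 with hE
  have hE0 : 0 < E₀ := by positivity
  have h1 := ((hRlim.pow n).const_mul (omega n ^ 2)).mul_const (1 - κ₀ ^ 2)
  have h2 := ((tendsto_const_nhds (x := e₀)).add (hD.const_mul c₁)).mul_const
    (Amax / (n * lo ^ (n - 2)))
  have hl := h1.add h2
  simp only [mul_zero, add_zero] at hl
  have hM := hfin _ (((hl.eventually (ge_mem_nhds (lt_add_of_pos_right _ hE0)))).mono
    fun k hk => (hbound k).trans hk)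
  have hlow : omega n ^ 2 * lo ^ n * κ₀ ^ 2 ≤ omega n ^ 2 * R ^ n * κ₀ ^ 2 :=
    mul_le_mul_of_nonneg_right (mul_le_mul_of_nonneg_left
      (pow_le_pow_left₀ hlo0.le hR n) (sq_nonneg _)) (sq_nonneg _)
  nlinarith

/-- anisotropic calibrations of cost arbitrarily close to one give the sharp Sobolev inequality -/
theorem sharp_sobolev_aniso [NeZero n] (hn : 2 ≤ n)
    (hC : ∀ δ > (0 : ℝ), ∃ C : ACalib n, C.cost ≤ 1 + δ)
    (hG : IsCH G) {u : EE n → ℝ} (hu : ContDiff ℝ 1 u) (hc : HasCompactSupport u) :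
    gI n (pMass G u) ≤ TV G u := by
  by_contra hcon
  obtain ⟨o, R₀, v, hv, hv0⟩ := exists_adm_neg hn hG hu hc (not_le.1 hcon)
  have hw : 0 < omega n := omega_pos
  have hnR : (0 : ℝ) < n := Nat.cast_pos.2 (NeZero.pos n)
  set VB := (rVol G (gball hG o R₀)).toReal with hVB
  have hVB0 : 0 ≤ VB := ENNReal.toReal_nonneg
  -- the infimum
  set S := deficit G '' {w | Adm hG o R₀ w} with hS
  have hSb : BddBelow S := ⟨-gI n VB, by
    rintro _ ⟨w, hw', rfl⟩
    have := gI_mono hn (pMass_nonneg (G := G) w) (pMass_le_ball hn hG hw')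
    have := TV_nonneg (G := G) w
    rw [deficit]; linarith⟩
  set m := sInf S with hmdef
  have hm : ∀ w, Adm hG o R₀ w → m ≤ deficit G w := fun w hw' => csInf_le hSb ⟨w, hw', rfl⟩
  have hm0 : m < 0 := (hm v hv).trans_lt hv0
  set d := -m / 2 with hd
  have hd0 : 0 < d := by rw [hd]; linarith
  -- radii
  set hi := modelRad n VB with hhi
  set Amax := gI n VB with hAmax
  set lo := min 1 (d / (n * omega n * (hi ^ (n - 2) + 1))) with hlo
  have hhi0 : 0 ≤ hi := Real.rpow_nonneg (div_nonneg hVB0 hw.le) _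
  have hlo0 : 0 < lo := lt_min one_pos (by positivity)
  have radius : ∀ w, Adm hG o R₀ w → deficit G w ≤ -d →
      modelRad n (pMass G w) ∈ Icc lo hi ∧
        TV G w ≤ n * omega n * modelRad n (pMass G w) ^ (n - 1) - d ∧ TV G w ≤ Amax :=
    fun w hw' hwd => radius_bound hn hG hd0 hw' hwd
  -- the calibration
  set κ₀ := d / (n * omega n * hi ^ (n - 1) + d) with hκ₀
  have hκ0 : 0 < κ₀ := by positivity
  have hκ1 : κ₀ ≤ 1 := (div_le_one (by positivity)).2 (by
    have : 0 ≤ n * omega n * hi ^ (n - 1) := by positivity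
    linarith)
  obtain ⟨C, hCc⟩ := hC κ₀ hκ0
  obtain ⟨C₁, hC₁⟩ := exists_averaged_bound_aniso hn hG C o R₀ lo hi hlo0
  -- small parameters
  set E₀ := omega n ^ 2 * lo ^ n * κ₀ ^ 2 / 4 with hE₀
  have hE0 : 0 < E₀ := by positivity
  set B := Amax / (n * lo ^ (n - 2)) + 1 with hB
  have hAmax0 : 0 ≤ Amax := mul_nonneg (mul_nonneg hnR.le (Real.rpow_nonneg hw.le _))
    (Real.rpow_nonneg hVB0 _)
  have hB0 : 0 < B := by positivity
  set θ := E₀ / (4 * B * (1 + Amax)) with hθ
  obtain ⟨τ, hτ0, hτ⟩ := hC₁ θ (by positivity)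
  set ε := min (d / 3) (τ * E₀ / (12 * B)) with hε
  have hε0 : 0 < ε := lt_min (by positivity) (by positivity)
  obtain ⟨-, ⟨u₀, hu₀, rfl⟩, hu₀m⟩ := Real.lt_sInf_add_pos
    (show S.Nonempty from ⟨_, v, hv, rfl⟩) hε0
  obtain ⟨s, hs, htr, κ, hκ, hκd⟩ := exists_good_level hn hG hu₀ hm hε0 hu₀m.le
  set b := fun k => band (κ k) s u₀ with hbdef
  have hb : ∀ k, Adm hG o R₀ (b k) := fun k => band_adm hG hu₀ hs.1 (hκd k).1
  have hbd : ∀ k, deficit G (b k) ≤ -d := fun k => by
    have := (hκd k).2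
    have := min_le_left (d / 3) (τ * E₀ / (12 * B))
    rw [hd] at *; linarith
  obtain ⟨hlimV, hlimD⟩ := tendsto_pMass_band hn hG hu₀ hs.1 hκ
  set V := (rVol G {x | s < u₀ x}).toReal with hV
  set R := modelRad n V with hR
  set Rs := fun k => modelRad n (pMass G (b k)) with hRs
  have hRlim : Tendsto Rs atTop (𝓝 R) :=
    ((Real.continuous_rpow_const (by positivity)).tendsto _).comp (hlimV.div_const _)
  have hRmem : R ∈ Icc lo hi :=
    isClosed_Icc.mem_of_tendsto hRlim (Eventually.of_forall fun k => (radius _ (hb k) (hbd k)).1)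
  have hR0 : 0 < R := hlo0.trans_le hRmem.1
  -- the bound for the bands
  set D := fun k => ∫ x, |b k x ^ sobExp n - b k x| ∂rVol G with hD
  have hbound : ∀ k, API hG C (b k) (Rs k) / (n * Rs k ^ (n - 2))
      + 2 * (ballMoment n (fun c => c * C.φ c) / omega n) * omega n * Rs k * TV G (b k) ≤
        omega n ^ 2 * Rs k ^ n * (1 - κ₀ ^ 2) + (3 * ε / τ + θ * (1 + Amax) + |C₁| * D k)
          * (Amax / (n * lo ^ (n - 2))) := by
    intro k
    obtain ⟨⟨hrlo, hrhi⟩, hA, hAm⟩ := radius _ (hb k) (hbd k)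
    set A := TV G (b k)
    set r := Rs k with hrdef
    have hA0 : 0 ≤ A := TV_nonneg _
    have hr0 : 0 < r := hlo0.trans_le hrlo
    have hmass : pMass G (b k) = omega n * r ^ n := (omega_modelRad (pMass_nonneg _)).symm
    have hP := hτ τ hτ0 le_rfl m hm (b k) (hb k) r ⟨hrlo, hrhi⟩ hmass _ rfl
    set err := (deficit G (b k) - m) / τ + θ * (1 + A) + C₁ * D k
    have hD0 : 0 ≤ D k := integral_nonneg fun x => abs_nonneg _
    set e := 3 * ε / τ + θ * (1 + Amax) + |C₁| * D k with he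
    have hθ0 : 0 ≤ θ := by positivity
    have he0 : 0 ≤ e := by positivity
    have herr : err ≤ e := by
      refine add_le_add (add_le_add ((div_le_div_iff_of_pos_right hτ0).2 ?_)
        (mul_le_mul_of_nonneg_left (by linarith) hθ0))
        (mul_le_mul_of_nonneg_right (le_abs_self _) hD0)
      linarith [(hκd k).2]
    exact band_algebra_aniso hn C hA0 hAm hlo0 hrlo hrhi hd0 hκ₀ hCc hA he0 herr hP
  have hsmall : (3 * ε / τ + θ * (1 + Amax)) * (Amax / (n * lo ^ (n - 2))) ≤ E₀ := by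
    have h1 : 3 * ε / τ ≤ E₀ / (4 * B) := by
      rw [div_le_iff₀ hτ0]
      calc 3 * ε ≤ 3 * (τ * E₀ / (12 * B)) := by
            linarith [min_le_right (d / 3) (τ * E₀ / (12 * B))]
        _ = _ := by ring_nf
    have h2 : θ * (1 + Amax) = E₀ / (4 * B) := by rw [hθ]; field_simp
    have h3 : Amax / (n * lo ^ (n - 2)) ≤ B := by rw [hB]; linarith
    calc _ ≤ (E₀ / (4 * B) + E₀ / (4 * B)) * B :=
          mul_le_mul (by linarith) h3 (by positivity) (by positivity)
      _ = E₀ / 2 := by field_simp; ring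
      _ ≤ E₀ := by linarith
  exact limit_absurd_aniso hn hlo0 hRmem.1 hκ0 hRlim hlimD hbound (fun M hM => by
    rw [hR, omega_modelRad (n := n) (V := V) ENNReal.toReal_nonneg]
    exact chord_bound_aniso hn hG C hu₀ hs.1 htr hκ (fun k => (hκd k).1) hR0 hRlim hM) hsmall

end Vale.Agent.P219
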