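import Vale.Agent.P219.Final
import Vale.Agent.P219.AMain

/-!
# P219: the profile from anisotropic calibrations
-/

namespace Vale.Agent.P219

variable {n : ℕ} [NeZero n] {G : EE n → Form n}

/-- Anisotropic calibrations of cost arbitrarily close to one give the profile of `ℝⁿ`. -/
theorem euclidProfile_aniso (hn : 2 ≤ n)
    (hC : ∀ δ > (0 : ℝ), ∃ C : ACalib n, C.cost ≤ 1 + δ) (hG : IsCH G) : EuclidProfile G :=
  euclidProfile_of_sobolev hn hG fun _ hu hc => sharp_sobolev_aniso hn hC hG hu hc

end Vale.Agent.P219
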