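import Vale.Agent.P219.Core

/-!
# P219: anisotropic radial weights

`F(t,u) = t f(t,u)` where `u` is the cosine at the centre `y` between the geodesic and a fixed
covector at `y`. Rauch makes the angle `1/t`-Lipschitz, so the divergence of `F grad d_y` loses at
most `|F_u| |c| √((1-u²)(1-c²)) / t`; near `t = 0` the weight does not depend on `u`.
-/

open Set

namespace Vale.Agent.P219

/-- An anisotropic radial weight, given by `f = F/t` and its partial derivatives. -/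
structure Aniso where
  f : ℝ → ℝ → ℝ
  ft : ℝ → ℝ → ℝ
  fu : ℝ → ℝ → ℝ
  hasDeriv : ∀ t u, HasFDerivAt (fun p : ℝ × ℝ => f p.1 p.2)
    (ft t u • ContinuousLinearMap.fst ℝ ℝ ℝ + fu t u • ContinuousLinearMap.snd ℝ ℝ ℝ) (t, u)
  cont_ft : Continuous fun p : ℝ × ℝ => ft p.1 p.2
  cont_fu : Continuous fun p : ℝ × ℝ => fu p.1 p.2
  f_nonneg : ∀ t u, 0 ≤ t → u ∈ Icc (-1 : ℝ) 1 → 0 ≤ f t u
  flat : ∃ ε > 0, ∀ t u, t < ε → fu t u = 0
  bdd : ∃ C, ∀ t u, 0 ≤ t → u ∈ Icc (-1 : ℝ) 1 →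
    |f t u| ≤ C ∧ |t * f t u| ≤ C ∧ |t * ft t u| ≤ C ∧ |fu t u| ≤ C

/-- The first variation kernel at unit radius: `c` is the cosine at the moving point, `u` the one
at the centre. -/
noncomputable def Aniso.K (A : Aniso) (n : ℕ) (t c u : ℝ) : ℝ :=
  (A.f t u + t * A.ft t u) * (1 - c ^ 2) + ((n : ℝ) - 2 + c ^ 2) * A.f t u
    - ((n : ℝ) - 1) * (t * A.f t u) * c
    - |A.fu t u| * |c| * Real.sqrt ((1 - u ^ 2) * (1 - c ^ 2))

/-- A calibration with an anisotropic weight for centres on the boundary and no interior weight. -/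
structure ACalib (n : ℕ) where
  α : ℝ
  bdry : Aniso
  φ : ℝ → ℝ
  cont_φ : Continuous φ
  α_nonneg : 0 ≤ α
  φ_nonneg : ∀ c, 0 ≤ c → 0 ≤ φ c
  nonneg : ∀ t a b, 0 ≤ t → a ∈ Icc (-1 : ℝ) 1 → b ∈ Icc (-1 : ℝ) 1 →
    0 ≤ α + (bdry.K n t a b + bdry.K n t b a) / 2
  cert : ∀ t a b, 0 < t → a ∈ Ioc (0 : ℝ) 1 → b ∈ Ioc (0 : ℝ) 1 →
    t ≤ t ^ (n - 1) / (a * b) * (α + (bdry.K n t a b + bdry.K n t b a) / 2) + φ a + φ b

/-- The pair kernel. -/
noncomputable def ACalib.Q {n : ℕ} (C : ACalib n) (t a b : ℝ) : ℝ :=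
  C.α + (C.bdry.K n t a b + C.bdry.K n t b a) / 2

/-- The cost: `1` means that the ball is an equality case. -/
noncomputable def ACalib.cost {n : ℕ} [NeZero n] (C : ACalib n) : ℝ :=
  n * C.α + 2 * n * (ballMoment n (fun c => c * C.φ c) / omega n)

end Vale.Agent.P219
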