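import Vale.Agent.P219.Geo.Dist

/-!
# P219 module Minkowski: from functions to sets

Competitors: the Euclidean mollification of an affine cut-off of the distance to the set. The
distance to a set is short for `gdist`, and `gdist` along a short segment is at most the supremum
of the speed, so mollification costs only a factor tending to one.
-/

open MeasureTheory Set Filter Topology Metric
open scoped ContDiff Convolution Pointwise

namespace Vale.Agent.P219

variable {n : ℕ} {G : EE n → Form n}

/-- The closed `δ`-neighbourhood. -/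
def nbhd (hG : IsCH G) (Ω : Set (EE n)) (δ : ℝ) : Set (EE n) :=
  {x | ∃ y ∈ Ω, gdist hG x y ≤ δ}

private lemma gdist_self (hG : IsCH G) (x : EE n) : gdist hG x x = 0 := by
  have h := gdist_expG hG x 0
  rw [expG_zero hG] at h
  rw [h, (gnorm_eq_zero hG).2 rfl]

private lemma gdist_tri (hG : IsCH G) (a b c : EE n) :
    gdist hG a c ≤ gdist hG a b + gdist hG b c := by
  have h1 := gnorm_add_le hG a (logG hG a b) (logG hG a c - logG hG a b)
  rw [add_sub_cancel] at h1
  have h2 := gnorm_logG_sub_le hG a c b
  rw [gdist_comm hG c b] at h2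
  simp only [gdist] at h2 ⊢
  linarith

/-- The distance along a line has the speed as right derivative. -/
private lemma tendsto_gdist_div (hG : IsCH G) (p v : EE n) :
    Tendsto (fun s : ℝ => gdist hG p (p + s • v) / s) (𝓝[>] 0) (𝓝 (gnorm G p v)) := by
  have h0 : logG hG p p = 0 := by
    have := logG_expG hG p 0
    rwa [expG_zero hG] at this
  set L := fderiv ℝ (logG hG p) p with hL
  have hd : HasFDerivAt (logG hG p) L p :=
    ((contDiff_logG hG p).differentiable one_ne_zero p).hasFDerivAt
  have he : HasFDerivAt (expG hG p) (fderiv ℝ (expG hG p) 0) (logG hG p p) := by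
    rw [h0]
    exact ((contDiff_expG_at hG p).differentiable (by norm_num) 0).hasFDerivAt
  have hid : (fderiv ℝ (expG hG p) 0).comp L = ContinuousLinearMap.id ℝ (EE n) := by
    have h1 := he.comp p hd
    rw [show expG hG p ∘ logG hG p = id from funext (expG_logG hG p)] at h1
    exact h1.unique (hasFDerivAt_id p)
  have hg : gnorm G p (L v) = gnorm G p v := by
    have h1 := pullG_zero hG p (L v) (L v)
    have h2 : fderiv ℝ (expG hG p) 0 (L v) = v := by
      have := congrArg (fun A : EE n →L[ℝ] EE n => A v) hid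
      simpa using this
    simp only [pullG, h2, expG_zero hG] at h1
    rw [gnorm, gnorm, h1]
  have hline : HasDerivAt (fun s : ℝ => logG hG p (p + s • v)) (L v) 0 := by
    have h1 : HasDerivAt (fun s : ℝ => p + s • v) v 0 := by
      simpa using ((hasDerivAt_id (0 : ℝ)).smul_const v).const_add p
    exact HasFDerivAt.comp_hasDerivAt (0 : ℝ) (by rw [zero_smul, add_zero]; exact hd) h1
  have hs := hasDerivAt_iff_tendsto_slope.1 hline
  have hcn : Continuous fun w : EE n => gnorm G p w :=
    (continuous_gnorm hG).comp (continuous_const.prodMk continuous_id)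
  have ht := (hcn.tendsto (L v)).comp
    (hs.mono_left (nhdsWithin_mono _ fun s (hs : (0 : ℝ) < s) => hs.ne'))
  rw [hg] at ht
  refine ht.congr' ?_
  filter_upwards [self_mem_nhdsWithin] with s (hs : (0 : ℝ) < s)
  simp only [Function.comp_apply, slope_def_module, zero_smul, add_zero, h0, sub_zero,
    gnorm_smul hG, gdist, abs_inv, abs_of_pos hs]
  rw [div_eq_inv_mul]

/-- Along a segment the distance is at most time times the speed. -/
private lemma gdist_segment_le (hG : IsCH G) {p v : EE n} {s M : ℝ} (hs : 0 ≤ s)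
    (hM : ∀ r ∈ Ico 0 s, gnorm G (p + r • v) v ≤ M) : gdist hG p (p + s • v) ≤ M * s := by
  refine image_le_of_liminf_slope_right_le_deriv_boundary
    (f := fun r => gdist hG p (p + r • v)) (B := fun r => M * r) (B' := fun _ => M)
    ((continuous_gdist hG).comp (continuous_const.prodMk
      (continuous_const.add (continuous_id.smul continuous_const)))).continuousOn
    (by simp [gdist_self hG]) (by fun_prop)
    (fun r _ => by simpa using ((hasDerivAt_id r).const_mul M).hasDerivWithinAt)
    (fun r hr t ht => Eventually.frequently ?_) ⟨hs, le_rfl⟩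
  have hlim := tendsto_gdist_div hG (p + r • v) v
  have hev : ∀ᶠ σ in 𝓝[>] (0 : ℝ), gdist hG (p + r • v) (p + r • v + σ • v) / σ < t :=
    hlim.eventually (gt_mem_nhds ((hM r hr).trans_lt ht))
  have hsh : Tendsto (fun z : ℝ => z - r) (𝓝[>] r) (𝓝[>] 0) := by
    refine tendsto_nhdsWithin_iff.2 ⟨?_, ?_⟩
    · simpa using ((continuous_id.sub continuous_const).tendsto (f := fun z : ℝ => z - r) r).mono_left
        nhdsWithin_le_nhds
    · filter_upwards [self_mem_nhdsWithin] with z (hz : r < z)
      exact sub_pos.2 hz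
  filter_upwards [hsh.eventually hev, self_mem_nhdsWithin] with z hz (hrz : r < z)
  rw [show p + r • v + (z - r) • v = p + z • v by rw [sub_smul]; abel] at hz
  refine lt_of_le_of_lt ?_ hz
  rw [slope_def_field]
  refine div_le_div_of_nonneg_right ?_ (sub_pos.2 hrz).le
  linarith [gdist_tri hG p (p + r • v) (p + z • v)]

/-- The distance to a set. -/
private noncomputable def sdist (hG : IsCH G) (Ω : Set (EE n)) (x : EE n) : ℝ :=
  ⨅ y : Ω, gdist hG x y

private lemma gdist_nonneg' (hG : IsCH G) (x y : EE n) : 0 ≤ gdist hG x y := gnorm_nonneg _ _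

private lemma sdist_le (hG : IsCH G) {Ω : Set (EE n)} {y : EE n} (hy : y ∈ Ω) (x : EE n) :
    sdist hG Ω x ≤ gdist hG x y :=
  ciInf_le (f := fun z : Ω => gdist hG x z) ⟨0, by rintro _ ⟨z, rfl⟩; exact gdist_nonneg' hG _ _⟩
    ⟨y, hy⟩

private lemma sdist_le_add (hG : IsCH G) {Ω : Set (EE n)} (hne : Ω.Nonempty) (p q : EE n) :
    sdist hG Ω p ≤ sdist hG Ω q + gdist hG p q := by
  have : Nonempty Ω := hne.to_subtype
  rw [← sub_le_iff_le_add]
  refine le_ciInf fun y => ?_
  linarith [sdist_le hG y.2 p, gdist_tri hG p q y]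

private lemma continuous_sdist (hG : IsCH G) {Ω : Set (EE n)} (hne : Ω.Nonempty) :
    Continuous (sdist hG Ω) := by
  refine continuous_iff_continuousAt.2 fun q => ?_
  have h1 : Tendsto (fun p => gdist hG p q) (𝓝 q) (𝓝 0) := by
    have := ((continuous_gdist hG).comp (continuous_id.prodMk continuous_const)).tendsto
      (f := fun p : EE n => gdist hG p q) q
    simpa [gdist_self hG] using this
  refine tendsto_iff_dist_tendsto_zero.2 (squeeze_zero (fun p => dist_nonneg) (fun p => ?_) h1)
  rw [Real.dist_eq, abs_sub_le_iff]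
  constructor
  · linarith [sdist_le_add hG hne p q]
  · linarith [sdist_le_add hG hne q p, gdist_comm hG p q]

/-- The competitor for given margins. -/
private lemma exists_competitor (hG : IsCH G) {Ω : Set (EE n)} (hΩ : Bornology.IsBounded Ω)
    (hΩm : MeasurableSet Ω) (hne : Ω.Nonempty) {δ θ η : ℝ} (hθ : 0 < θ) (hη : 0 < η)
    (hηδ : 2 * η < δ) :
    ∃ u : EE n → ℝ, ContDiff ℝ 1 u ∧ HasCompactSupport u ∧ (∀ x ∈ Ω, u x = 1) ∧
      TV G u ≤ (1 + θ) / (δ - 2 * η) * (rVol G (nbhd hG Ω δ \ Ω)).toReal := by
  have : IsFiniteMeasureOnCompacts (rVol G) := isFiniteMeasureOnCompacts_rVol hG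
  have hδη : 0 < δ - 2 * η := by linarith
  -- a compact region
  obtain ⟨M, hM⟩ : ∃ M, ∀ y ∈ Ω, gdist hG 0 y ≤ M := by
    obtain ⟨M, hM⟩ := hΩ.isCompact_closure.exists_bound_of_continuousOn
      ((continuous_gdist hG).comp (continuous_const.prodMk continuous_id)
        : Continuous fun y : EE n => gdist hG 0 y).continuousOn
    exact ⟨M, fun y hy => (le_abs_self _).trans (hM y (subset_closure hy))⟩
  set K₀ := gball hG (0 : EE n) (M + δ) with hK₀
  have hK₀c : IsCompact K₀ := isCompact_gball hG _ _
  have hnear : ∀ p, sdist hG Ω p < δ → p ∈ nbhd hG Ω δ := by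
    intro p hp
    have : Nonempty Ω := hne.to_subtype
    obtain ⟨y, hy⟩ := exists_lt_of_ciInf_lt hp
    exact ⟨y, y.2, hy.le⟩
  have hnbK : nbhd hG Ω δ ⊆ K₀ := by
    rintro p ⟨y, hy, hpy⟩
    show gdist hG 0 p ≤ M + δ
    linarith [gdist_tri hG 0 y p, hM y hy, gdist_comm hG y p]
  set K := K₀ + closedBall (0 : EE n) 1 with hK
  have hKc : IsCompact K := hK₀c.add (isCompact_closedBall _ _)
  have hK₀K : K₀ ⊆ K := fun p hp => ⟨p, hp, 0, by simp, add_zero p⟩
  -- short steps are short
  have hev1 : ∀ᶠ h in 𝓝 (0 : EE n), ∀ x ∈ K, gdist hG x (x + h) < η :=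
    hKc.eventually_forall_of_forall_eventually fun x _ =>
      (((continuous_gdist hG).comp (continuous_snd.prodMk (continuous_snd.add continuous_fst)))
        |>.tendsto ((0 : EE n), x)).eventually (gt_mem_nhds (by simpa [gdist_self hG] using hη))
  have hev2 : ∀ᶠ h in 𝓝 (0 : EE n), ∀ q ∈ K ×ˢ sphere (0 : EE n) 1,
      gnorm G (q.1 + h) q.2 < (1 + θ) * gnorm G q.1 q.2 := by
    refine (hKc.prod (isCompact_sphere _ _)).eventually_forall_of_forall_eventually fun q hq => ?_
    have hc1 : Continuous fun z : EE n × (EE n × EE n) => gnorm G (z.2.1 + z.1) z.2.2 :=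
      (continuous_gnorm hG).comp (((continuous_fst.comp continuous_snd).add continuous_fst).prodMk
        (continuous_snd.comp continuous_snd))
    have hc2 : Continuous fun z : EE n × (EE n × EE n) => (1 + θ) * gnorm G z.2.1 z.2.2 :=
      continuous_const.mul ((continuous_gnorm hG).comp continuous_snd)
    refine (hc1.tendsto ((0 : EE n), q)).eventually_lt (hc2.tendsto _) ?_
    have hpos : 0 < gnorm G q.1 q.2 := (gnorm_nonneg _ _).lt_of_ne fun e => by
      have := (gnorm_eq_zero hG).1 e.symm
      simp [this] at hq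
    simp only [add_zero]
    nlinarith
  obtain ⟨r₀, hr₀, hr₀'⟩ := Metric.eventually_nhds_iff.1 (hev1.and hev2)
  have hspeed : ∀ x ∈ K, ∀ h : EE n, ‖h‖ < r₀ → ∀ v,
      gnorm G (x + h) v ≤ (1 + θ) * gnorm G x v := by
    intro x hx h hh v
    rcases eq_or_ne v 0 with rfl | hv
    · simp [(gnorm_eq_zero hG).2 rfl]
    have hv' : 0 < ‖v‖ := norm_pos_iff.2 hv
    have h2 := ((hr₀' (by simpa using hh)).2 (x, ‖v‖⁻¹ • v)
      ⟨hx, by simp [norm_smul, hv'.ne']⟩).le
    simp only [gnorm_smul hG, abs_inv, abs_of_pos hv'] at h2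
    field_simp at h2
    linarith
  -- the cut-off and its mollification
  set r := min r₀ 1 / 4 with hr
  have hr0 : 0 < r := by positivity
  have hr1 : r ≤ r₀ / 4 := by rw [hr]; linarith [min_le_left r₀ 1]
  have hr2 : r ≤ 1 / 4 := by rw [hr]; linarith [min_le_right r₀ 1]
  set w : EE n → ℝ := fun p => max 0 (min 1 ((δ - η - sdist hG Ω p) / (δ - 2 * η))) with hw
  have hwc : Continuous w :=
    continuous_const.max (continuous_const.min
      ((continuous_const.sub (continuous_sdist hG hne)).div_const _))
  have hw0 : ∀ p, δ - η ≤ sdist hG Ω p → w p = 0 := fun p hp => by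
    refine max_eq_left (le_trans (min_le_right _ _) ?_)
    exact div_nonpos_of_nonpos_of_nonneg (by linarith) hδη.le
  have hw1 : ∀ p, sdist hG Ω p ≤ η → w p = 1 := fun p hp => by
    have : 1 ≤ (δ - η - sdist hG Ω p) / (δ - 2 * η) := by rw [le_div_iff₀ hδη]; linarith
    simp [hw, min_eq_left this]
  have hwK : ∀ p, p ∉ K₀ → w p = 0 := fun p hp => hw0 p (not_lt.1 fun h =>
    hp (hnbK (hnear p (by linarith))))
  have hwlip : ∀ p q, |w p - w q| ≤ gdist hG p q / (δ - 2 * η) := by
    intro p q
    refine ((abs_max_sub_max_le_max _ _ _ _).trans (max_le ?_ le_rfl)).trans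
      ((abs_min_sub_min_le_max _ _ _ _).trans (max_le ?_ le_rfl) |>.trans ?_)
    · simp
    · simp
    rw [← sub_div, abs_div, abs_of_pos hδη]
    refine div_le_div_of_nonneg_right ?_ hδη.le
    rw [abs_sub_le_iff]
    constructor
    · linarith [sdist_le_add hG hne q p, gdist_comm hG p q]
    · linarith [sdist_le_add hG hne p q]
  set φ : ContDiffBump (0 : EE n) := ⟨r / 2, r, by positivity, by linarith⟩ with hφ
  set f := φ.normed (volume : Measure (EE n)) with hf
  have hfs : ∀ t, f t ≠ 0 → ‖t‖ < r := fun t ht => by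
    have : t ∈ Function.support f := ht
    rw [hf, φ.support_normed_eq] at this
    simpa [hφ] using this
  set u : EE n → ℝ := f ⋆[ContinuousLinearMap.lsmul ℝ ℝ, volume] w with hu
  have hux : ∀ x, u x = ∫ t, f t * w (x - t) := fun x => by
    simp [hu, convolution_def]
  have hint : ∀ x, Integrable fun t => f t * w (x - t) := fun x =>
    (φ.continuous_normed.mul (hwc.comp (continuous_const.sub continuous_id)))
      |>.integrable_of_hasCompactSupport φ.hasCompactSupport_normed.mul_right
  have hu1 : ContDiff ℝ 1 u :=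
    φ.hasCompactSupport_normed.contDiff_convolution_left _ φ.contDiff_normed
      hwc.locallyIntegrable
  have huconst : ∀ x a, (∀ t, ‖t‖ < r → w (x - t) = a) → u x = a := by
    intro x a ha
    rw [hux, show (fun t => f t * w (x - t)) = fun t => f t * a from funext fun t => by
      by_cases ht : f t = 0
      · simp [ht]
      · rw [ha t (hfs t ht)], integral_mul_const, φ.integral_normed, one_mul]
  have hucs : HasCompactSupport u :=
    HasCompactSupport.intro hKc fun x hx => huconst x 0 fun t ht => hwK _ fun hp =>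
      hx ⟨x - t, hp, t, by rw [mem_closedBall_zero_iff]; linarith, sub_add_cancel x t⟩
  have hzero : ∀ x, (x ∈ Ω ∨ δ ≤ sdist hG Ω x) → fderiv ℝ u x = 0 := by
    intro x hx
    obtain ⟨a, ha⟩ : ∃ a, ∀ h : EE n, ‖h‖ < 2 * r → w (x + h) = a := by
      by_cases hxK : x ∈ K
      · have hstep : ∀ h : EE n, ‖h‖ < 2 * r → gdist hG x (x + h) < η := fun h hh =>
          (hr₀' (y := h) (by rw [dist_zero_right]; linarith)).1 x hxK
        rcases hx with hx | hx
        · refine ⟨1, fun h hh => hw1 _ ?_⟩
          have := sdist_le hG hx (x + h)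
          linarith [gdist_comm hG x (x + h), hstep h hh]
        · refine ⟨0, fun h hh => hw0 _ ?_⟩
          linarith [sdist_le_add hG hne x (x + h), hstep h hh]
      · refine ⟨0, fun h hh => hwK _ fun hp => hxK ⟨x + h, hp, -h, ?_, add_neg_cancel_right x h⟩⟩
        rw [mem_closedBall_zero_iff, norm_neg]
        linarith
    have he : u =ᶠ[𝓝 x] fun _ => a := by
      filter_upwards [ball_mem_nhds x hr0] with y hy
      refine huconst y a fun t ht => ?_
      rw [show y - t = x + (y - x - t) by abel]
      refine ha _ ((norm_sub_le _ _).trans_lt ?_)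
      rw [mem_ball_iff_norm] at hy
      linarith
    rw [he.fderiv_eq]
    simp
  have hbound : ∀ x ∈ K, conorm G x (fderiv ℝ u x) ≤ (1 + θ) / (δ - 2 * η) := by
    intro x hx
    refine conorm_le_of_forall hG (by positivity) fun v => ?_
    have hd : HasDerivAt (fun s : ℝ => u (x + s • v)) (fderiv ℝ u x v) 0 := by
      have h1 : HasDerivAt (fun s : ℝ => x + s • v) v 0 := by
        simpa using ((hasDerivAt_id (0 : ℝ)).smul_const v).const_add x
      exact HasFDerivAt.comp_hasDerivAt (0 : ℝ)
        (by simpa using ((hu1.differentiable one_ne_zero) x).hasFDerivAt) h1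
    have hlim := (hasDerivAt_iff_tendsto_slope.1 hd).mono_left
      (nhdsWithin_mono (0 : ℝ) (s := Ioi (0 : ℝ)) fun s (hs : (0 : ℝ) < s) => hs.ne')
    refine le_of_tendsto hlim ?_
    have hsmall : ∀ᶠ s in 𝓝[>] (0 : ℝ), |s| * ‖v‖ < r :=
      nhdsWithin_le_nhds ((continuous_abs.mul continuous_const).tendsto' 0 0 (by simp)
        |>.eventually (gt_mem_nhds hr0))
    filter_upwards [hsmall, self_mem_nhdsWithin] with s hsv (hs : (0 : ℝ) < s)
    rw [slope_def_field, sub_zero, zero_smul, add_zero, div_le_iff₀ hs, hux, hux,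
      ← integral_sub (hint _) (hint _)]
    calc (∫ t, (f t * w (x + s • v - t) - f t * w (x - t)))
        ≤ ∫ t, f t * ((1 + θ) / (δ - 2 * η) * gnorm G x v * s) := by
          refine integral_mono ((hint _).sub (hint _))
            ((φ.continuous_normed.integrable_of_hasCompactSupport
              φ.hasCompactSupport_normed).mul_const _) fun t => ?_
          simp only [← mul_sub]
          by_cases ht : f t = 0
          · simp [ht]
          refine mul_le_mul_of_nonneg_left ?_ (φ.nonneg_normed t)
          have hseg : gdist hG (x - t) (x - t + s • v) ≤ (1 + θ) * gnorm G x v * s := by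
            refine gdist_segment_le hG hs.le fun ρ hρ => ?_
            rw [show x - t + ρ • v = x + (ρ • v - t) by abel]
            refine hspeed x hx _ ((norm_sub_le _ _).trans_lt ?_) v
            have : ‖ρ • v‖ ≤ |s| * ‖v‖ := by
              rw [norm_smul, Real.norm_eq_abs]
              refine mul_le_mul_of_nonneg_right ?_ (norm_nonneg _)
              rw [abs_of_nonneg hρ.1, abs_of_pos hs]
              exact hρ.2.le
            linarith [hfs t ht]
          rw [show x + s • v - t = x - t + s • v by abel]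
          refine (le_abs_self _).trans ((hwlip _ _).trans ?_)
          rw [gdist_comm hG, div_mul_eq_mul_div, div_mul_eq_mul_div]
          exact div_le_div_of_nonneg_right hseg hδη.le
      _ = (1 + θ) / (δ - 2 * η) * gnorm G x v * s := by
          rw [integral_mul_const, φ.integral_normed, one_mul]
  refine ⟨u, hu1, hucs, fun x hx => huconst x 1 fun t ht => hw1 _ ?_, ?_⟩
  · have h1 := (hr₀' (y := -t) (by rw [dist_zero_right, norm_neg]; linarith)).1 x
      (hK₀K (hnbK ⟨x, hx, by rw [gdist_self hG]; linarith⟩))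
    rw [← sub_eq_add_neg] at h1
    linarith [sdist_le hG hx (x - t), gdist_comm hG x (x - t)]
  -- total variation
  set V := {x | sdist hG Ω x < δ} \ Ω with hV
  have hVm : MeasurableSet V :=
    ((isOpen_lt (continuous_sdist hG hne) continuous_const).measurableSet).diff hΩm
  have hVsub : V ⊆ nbhd hG Ω δ \ Ω := fun x hx => ⟨hnear x hx.1, hx.2⟩
  have hNfin : rVol G (nbhd hG Ω δ \ Ω) ≠ ⊤ :=
    ne_top_of_le_ne_top hK₀c.measure_lt_top.ne (measure_mono (sdiff_subset.trans hnbK))
  have hVfin : rVol G V ≠ ⊤ := ne_top_of_le_ne_top hNfin (measure_mono hVsub)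
  have hci : Integrable (fun x => conorm G x (fderiv ℝ u x)) (rVol G) :=
    ((continuous_conorm hG).comp (continuous_id.prodMk (hu1.continuous_fderiv one_ne_zero))
      ).integrable_of_hasCompactSupport
      ((hucs.fderiv (𝕜 := ℝ)).mono fun x hx => by
        rw [Function.mem_support] at hx ⊢
        exact fun h0 => hx ((conorm_eq_zero hG).2 h0))
  calc TV G u ≤ ∫ x, V.indicator (fun _ => (1 + θ) / (δ - 2 * η)) x ∂rVol G := by
        refine integral_mono hci
          ((integrable_indicator_iff hVm).2 (integrableOn_const hVfin)) fun x => ?_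
        by_cases hx : x ∈ V
        · rw [indicator_of_mem hx]
          exact hbound x (hK₀K (hnbK (hVsub hx).1))
        · rw [indicator_of_notMem hx, hzero x, (conorm_eq_zero hG).2 rfl]
          by_cases hxΩ : x ∈ Ω
          · exact Or.inl hxΩ
          · exact Or.inr (not_lt.1 fun h => hx ⟨h, hxΩ⟩)
    _ = (1 + θ) / (δ - 2 * η) * (rVol G V).toReal := by
        rw [integral_indicator hVm, setIntegral_const, measureReal_def, smul_eq_mul, mul_comm]
    _ ≤ _ := mul_le_mul_of_nonneg_left
        (ENNReal.toReal_mono hNfin (measure_mono hVsub)) (by positivity)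

/-- If `TV` controls `pMass`, then the outer Minkowski content controls the volume. -/
theorem minkowski_of_sobolev (hn : 2 ≤ n) (hG : IsCH G) (c : ℝ) (hc : 0 ≤ c)
    (hsob : ∀ u : EE n → ℝ, ContDiff ℝ 1 u → HasCompactSupport u →
      c * pMass G u ^ (((n : ℝ) - 1) / n) ≤ TV G u)
    {Ω : Set (EE n)} (hΩ : Bornology.IsBounded Ω) (hΩm : MeasurableSet Ω) {δ : ℝ} (hδ : 0 < δ) :
    c * (rVol G Ω).toReal ^ (((n : ℝ) - 1) / n)
      ≤ (rVol G (nbhd hG Ω δ \ Ω)).toReal / δ := by
  have hn' : (2 : ℝ) ≤ n := by exact_mod_cast hn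
  have ha : 0 < ((n : ℝ) - 1) / n := div_pos (by linarith) (by linarith)
  rcases Ω.eq_empty_or_nonempty with rfl | hne
  · rw [measure_empty, ENNReal.toReal_zero, Real.zero_rpow ha.ne', mul_zero]
    positivity
  have : IsFiniteMeasureOnCompacts (rVol G) := isFiniteMeasureOnCompacts_rVol hG
  set W := (rVol G (nbhd hG Ω δ \ Ω)).toReal with hW
  have hev : ∀ᶠ θ in 𝓝[>] (0 : ℝ),
      c * (rVol G Ω).toReal ^ (((n : ℝ) - 1) / n) ≤ (1 + θ) / (δ - 2 * θ) * W := by
    filter_upwards [self_mem_nhdsWithin, nhdsWithin_le_nhds (gt_mem_nhds (half_pos hδ))]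
      with θ (hθ : (0 : ℝ) < θ) hθδ
    obtain ⟨u, hu, hus, hu1, hTV⟩ :=
      exists_competitor hG hΩ hΩm hne hθ hθ (δ := δ) (by linarith)
    have hp : 0 < sobExp n := div_pos (by linarith) (by linarith)
    have hi : Integrable (fun x => |u x| ^ sobExp n) (rVol G) :=
      (hu.continuous.abs.rpow_const fun x => Or.inr hp.le).integrable_of_hasCompactSupport
        (hus.mono fun x hx => by
          rw [Function.mem_support] at hx ⊢
          exact fun h0 => hx (by rw [h0, abs_zero, Real.zero_rpow hp.ne']))
    have hm : (rVol G Ω).toReal ≤ pMass G u := by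
      have hfin : rVol G Ω ≠ ⊤ := ne_top_of_le_ne_top hΩ.isCompact_closure.measure_lt_top.ne
        (measure_mono subset_closure)
      calc (rVol G Ω).toReal = ∫ x, Ω.indicator (fun _ => (1 : ℝ)) x ∂rVol G := by
            rw [integral_indicator hΩm, setIntegral_const, measureReal_def]
            simp
        _ ≤ pMass G u := integral_mono ((integrable_indicator_iff hΩm).2 (integrableOn_const hfin))
            hi fun x => by
              by_cases hx : x ∈ Ω
              · simp [indicator_of_mem hx, hu1 x hx]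
              · rw [indicator_of_notMem hx]
                positivity
    calc c * (rVol G Ω).toReal ^ (((n : ℝ) - 1) / n)
        ≤ c * pMass G u ^ (((n : ℝ) - 1) / n) :=
          mul_le_mul_of_nonneg_left (Real.rpow_le_rpow ENNReal.toReal_nonneg hm ha.le) hc
      _ ≤ TV G u := hsob u hu hus
      _ ≤ _ := hTV
  have hlim : Tendsto (fun θ : ℝ => (1 + θ) / (δ - 2 * θ) * W) (𝓝[>] 0) (𝓝 (W / δ)) := by
    have h : ContinuousAt (fun θ : ℝ => (1 + θ) / (δ - 2 * θ) * W) 0 :=
      ((continuousAt_const.add continuousAt_id).div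
        (continuousAt_const.sub (continuousAt_const.mul continuousAt_id)) (by simp [hδ.ne'])
        ).mul continuousAt_const
    convert h.tendsto.mono_left nhdsWithin_le_nhds using 2
    simp [mul_comm, div_eq_mul_inv]
  exact ge_of_tendsto hlim hev

end Vale.Agent.P219
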