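import Vale.Agent.P219.Defs

/-!
# P219: the collar of a set in the Riemannian distance, for the statements
-/

open MeasureTheory

namespace Vale.Agent.P219

variable {n : ℕ}

/-- The points outside `Ω` joined to a point of `Ω` by a `C¹` curve of length at most `δ`. -/
def collar (G : EE n → Form n) (Ω : Set (EE n)) (δ : ℝ) : Set (EE n) :=
  {x | x ∉ Ω ∧ ∃ γ : ℝ → EE n, ContDiff ℝ 1 γ ∧ γ 0 = x ∧ γ 1 ∈ Ω ∧
    (∫ t in (0 : ℝ)..1, Real.sqrt (G (γ t) (deriv γ t) (deriv γ t))) ≤ δ}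

/-- The isoperimetric inequality of `ℝⁿ` holds in `(ℝⁿ, G)`: in Sobolev form for `C¹` functions of
compact support, and for bounded measurable sets with the collar in place of the boundary. -/
def EuclidProfile (G : EE n → Form n) : Prop :=
  (∀ u : EE n → ℝ, ContDiff ℝ 1 u → HasCompactSupport u →
      (n : ℝ) * (volume (Metric.closedBall (0 : EE n) 1)).toReal ^ (1 / n : ℝ)
          * (∫ x, |u x| ^ ((n : ℝ) / ((n : ℝ) - 1)) ∂rVol G) ^ (((n : ℝ) - 1) / n)
        ≤ TV G u) ∧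
  ∀ (Ω : Set (EE n)), Bornology.IsBounded Ω → MeasurableSet Ω → ∀ δ : ℝ, 0 < δ →
    ENNReal.ofReal ((n : ℝ) * (volume (Metric.closedBall (0 : EE n) 1)).toReal ^ (1 / n : ℝ)
        * (rVol G Ω).toReal ^ (((n : ℝ) - 1) / n) * δ)
      ≤ rVol G (collar G Ω δ)

end Vale.Agent.P219
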