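import Vale.Agent.P219.Main
import Vale.Agent.P219.Minkowski
import Vale.Agent.P219.StmtDefs

/-!
# P219: from the Sobolev inequality to the stated form
-/

open MeasureTheory Set Filter Topology

namespace Vale.Agent.P219

variable {n : ℕ} [NeZero n] {G : EE n → Form n}

omit [NeZero n] in
theorem nbhd_diff_subset_collar (hG : IsCH G) (Ω : Set (EE n)) (δ : ℝ) :
    nbhd hG Ω δ \ Ω ⊆ collar G Ω δ := by
  rintro x ⟨⟨y, hy, hd⟩, hx⟩
  set q : EE n × EE n := (x, logG hG x y) with hq
  have hder : ∀ t, HasDerivAt (fun r => geoPt hG q r) (flowG hG t q).2 t := fun t =>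
    (ContinuousLinearMap.fst ℝ (EE n) (EE n)).hasFDerivAt.comp_hasDerivAt t
      (hasDerivAt_flowG hG q t)
  have hcont : Continuous fun t => (flowG hG t q).2 :=
    continuous_snd.comp ((continuous_flowG hG).comp (continuous_id.prodMk continuous_const))
  have hdf : deriv (fun r => geoPt hG q r) = fun t => (flowG hG t q).2 :=
    funext fun t => (hder t).deriv
  refine ⟨hx, fun r => geoPt hG q r, ?_, ?_, ?_, ?_⟩
  · rw [contDiff_one_iff_deriv]
    exact ⟨fun t => (hder t).differentiableAt, hdf ▸ hcont⟩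
  · simp [geoPt, flowG_zero, hq]
  · have h1 : geoPt hG q 1 = y := by
      rw [hq, geoPt_eq_expG, one_smul, expG_logG]
    show geoPt hG q 1 ∈ Ω
    rw [h1]; exact hy
  · have : (fun t => Real.sqrt (G (geoPt hG q t) (deriv (fun r => geoPt hG q r) t)
        (deriv (fun r => geoPt hG q r) t))) = fun _ => gdist hG x y := by
      funext t
      rw [(hder t).deriv]
      exact flowG_speed hG q t
    rw [this]
    simpa using hd

/-- The sharp Sobolev inequality gives the profile of `ℝⁿ`. -/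
theorem euclidProfile_of_sobolev (hn : 2 ≤ n) (hG : IsCH G)
    (hs : ∀ u : EE n → ℝ, ContDiff ℝ 1 u → HasCompactSupport u →
      (n : ℝ) * omega n ^ (1 / n : ℝ) * pMass G u ^ (((n : ℝ) - 1) / n) ≤ TV G u) :
    EuclidProfile G := by
  refine ⟨hs, fun Ω hΩ hm δ hδ => ?_⟩
  have hc : (0 : ℝ) ≤ (n : ℝ) * omega n ^ (1 / n : ℝ) := by
    unfold omega; positivity
  have h := minkowski_of_sobolev hn hG _ hc hs hΩ hm hδ
  rw [le_div_iff₀ hδ] at h
  calc ENNReal.ofReal _ ≤ ENNReal.ofReal (rVol G (nbhd hG Ω δ \ Ω)).toReal :=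
        ENNReal.ofReal_le_ofReal h
    _ ≤ rVol G (nbhd hG Ω δ \ Ω) := ENNReal.ofReal_toReal_le
    _ ≤ rVol G (collar G Ω δ) := measure_mono (nbhd_diff_subset_collar hG Ω δ)

/-- Calibrations of cost arbitrarily close to one give the profile of `ℝⁿ`. -/
theorem euclidProfile (hn : 2 ≤ n) (hC : ∀ δ > (0 : ℝ), ∃ C : Calib n, C.cost ≤ 1 + δ)
    (hG : IsCH G) : EuclidProfile G :=
  euclidProfile_of_sobolev hn hG fun _ hu hc => sharp_sobolev hn hC hG hu hc

end Vale.Agent.P219
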