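import Vale.Agent.P219.StmtDefs

/-!
# P219: the Euclidean metric is a Cartan-Hadamard metric (the hypothesis is satisfiable)
-/

open scoped ContDiff

namespace Vale.Agent.P219

variable {n : ℕ}

/-- The Euclidean inner product as a field of forms. -/
noncomputable def flatForm (n : ℕ) : EE n → Form n := fun _ => innerSL ℝ

theorem christoffel_flat (y u v : EE n) : christoffel (flatForm n) y u v = 0 := by
  have h : fderiv ℝ (flatForm n) y = 0 := fderiv_const_apply _
  simp [christoffel, h]

theorem isCH_flat (n : ℕ) : IsCH (flatForm n) where
  smooth := contDiff_const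
  symm x a b := by
    show (inner ℝ a b : ℝ) = inner ℝ b a
    exact real_inner_comm b a
  pos x a ha := by
    show (0 : ℝ) < inner ℝ a a
    exact real_inner_self_pos.2 ha
  complete q := ⟨fun t => (q.1 + t • q.2, q.2), by simp, fun t => by
    have h1 : HasDerivAt (fun s : ℝ => q.1 + s • q.2) q.2 t := by
      simpa using ((hasDerivAt_id t).smul_const q.2).const_add q.1
    simpa [spray, christoffel_flat] using h1.prodMk (hasDerivAt_const t q.2)⟩
  sec x a b := by
    have h : curv (flatForm n) x a b b = 0 := by
      simp [curv, christoffel_flat]
    simp [h]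

end Vale.Agent.P219
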