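import Vale.Agent.P219.Statement
import Vale.Agent.P219.Final
import Vale.Agent.P219.Flat

/-!
# P219: the statement definitions agree with the working ones
-/

open MeasureTheory

namespace Vale.Agent.P219

variable {n : ℕ} {G : EE n → Form n}

theorem isCH_of_statement (h : Statement.IsCartanHadamard G) : IsCH G :=
  ⟨h.smooth, h.symm, h.pos, h.complete, h.sec⟩

/-- The hypothesis of the hand-in is satisfiable. -/
theorem isCartanHadamard_flat (n : ℕ) : Statement.IsCartanHadamard (flatForm n) :=
  ⟨(isCH_flat n).smooth, (isCH_flat n).symm, (isCH_flat n).pos, (isCH_flat n).complete,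
    (isCH_flat n).sec⟩

theorem isoIneq_of_profile (h : EuclidProfile G) :
    Statement.IsoIneq n (Statement.isoConst n) (Statement.riemVolume G) G :=
  ⟨h.1, h.2⟩

end Vale.Agent.P219
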