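import Vale.Agent.P219.Core

/-!
# P219 module Cert: the calibration in dimension six

`36 F = 1/t` for `t ≥ η`, `2t/η² - t³/η⁴` below; `α = 17/360`; `φ = 2c/3 + 2c³/15 + η/2`.
-/

open Set MeasureTheory

namespace Vale.Agent.P219

theorem omega_six : omega 6 = Real.pi ^ 3 / 6 := by
  have hs : Real.sqrt Real.pi ^ 6 = Real.pi ^ 3 := by
    rw [show (6 : ℕ) = 2 * 3 from rfl, pow_mul, Real.sq_sqrt Real.pi_pos.le]
  have hg : Real.Gamma (((6 : ℕ) : ℝ) / 2 + 1) = 6 := by
    rw [show ((6 : ℕ) : ℝ) / 2 + 1 = ((3 : ℕ) : ℝ) + 1 by norm_num, Real.Gamma_nat_eq_factorial]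
    norm_num [Nat.factorial]
  rw [omega, EuclideanSpace.volume_closedBall]
  simp only [ENNReal.ofReal_one, one_pow, one_mul, Fintype.card_fin, hg, hs]
  rw [ENNReal.toReal_ofReal (by positivity)]

/-! ### Moments of the first direction cosine on the unit ball -/

section moments

variable {n : ℕ} [NeZero n]

/-- Cosines against any unit vector have the moments of the first coordinate. -/
theorem integral_cos_pow_eq (k : ℕ) {a : EE n} (ha : ‖a‖ = 1) :
    ∫ v in Metric.closedBall (0 : EE n) 1, (inner ℝ a v / ‖v‖) ^ k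
      = ∫ v in Metric.closedBall (0 : EE n) 1, (v 0 / ‖v‖) ^ k := by
  set e₀ : EE n := EuclideanSpace.single 0 (1 : ℝ)
  set R : EE n ≃ₗᵢ[ℝ] EE n := (ℝ ∙ (a - e₀))ᗮ.reflection
  have hR : R a = e₀ := Submodule.reflection_sub (by simp [e₀, ha])
  have key : ∀ v, inner ℝ a v / ‖v‖ = R v 0 / ‖R v‖ := by
    intro v
    rw [← R.inner_map_map a v, hR, R.norm_map]
    simp [e₀, EuclideanSpace.inner_single_left]
  simp only [key]
  have h := R.measurePreserving.setIntegral_preimage_emb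
    R.toHomeomorph.measurableEmbedding (fun w => (w 0 / ‖w‖) ^ k)
    (Metric.closedBall (0 : EE n) 1)
  rw [R.preimage_closedBall, map_zero] at h
  exact h

omit [NeZero n] in
theorem abs_coord_div_le (v : EE n) (i : Fin n) : |v i / ‖v‖| ≤ 1 := by
  rw [abs_div, abs_norm]
  exact div_le_one_of_le₀ (by simpa using PiLp.norm_apply_le v i) (norm_nonneg _)

omit [NeZero n] in
theorem integrableOn_ball_of_bound {f : EE n → ℝ} (hm : Measurable f) (C : ℝ)
    (hb : ∀ v, |f v| ≤ C) : IntegrableOn f (Metric.closedBall (0 : EE n) 1) :=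
  Measure.integrableOn_of_bounded measure_closedBall_lt_top.ne hm.aestronglyMeasurable
    (ae_restrict_of_ae (ae_of_all _ fun v => by simpa [Real.norm_eq_abs] using hb v))

omit [NeZero n] in
theorem measurable_cos (i : Fin n) : Measurable fun v : EE n => v i / ‖v‖ :=
  ((PiLp.continuous_apply 2 _ i).measurable).div measurable_norm

omit [NeZero n] in
theorem integrableOn_cos_pow (i : Fin n) (k : ℕ) :
    IntegrableOn (fun v : EE n => (v i / ‖v‖) ^ k) (Metric.closedBall (0 : EE n) 1) :=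
  integrableOn_ball_of_bound ((measurable_cos i).pow_const k) 1 fun v => by
    rw [abs_pow]; exact pow_le_one₀ (abs_nonneg _) (abs_coord_div_le v i)

theorem integral_coord_pow_eq (k : ℕ) (i : Fin n) :
    ∫ v in Metric.closedBall (0 : EE n) 1, (v i / ‖v‖) ^ k
      = ∫ v in Metric.closedBall (0 : EE n) 1, (v 0 / ‖v‖) ^ k := by
  rw [← integral_cos_pow_eq (n := n) k (a := EuclideanSpace.single i (1 : ℝ)) (by simp)]
  simp [EuclideanSpace.inner_single_left]

theorem ae_sum_cos_sq : ∀ᵐ v : EE n, ∑ i, (v i / ‖v‖) ^ 2 = 1 := by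
  have h0 : ∀ᵐ v : EE n, v ≠ 0 := by
    rw [ae_iff]; simp
  filter_upwards [h0] with v hv
  have hn : ‖v‖ ≠ 0 := norm_ne_zero_iff.2 hv
  simp only [div_pow, ← Finset.sum_div]
  rw [← EuclideanSpace.real_norm_sq_eq, div_self (pow_ne_zero _ hn)]

theorem integral_cos_sq :
    ∫ v in Metric.closedBall (0 : EE n) 1, (v 0 / ‖v‖) ^ 2 = omega n / n := by
  have h1 : ∫ v in Metric.closedBall (0 : EE n) 1, ∑ i, (v i / ‖v‖) ^ 2 = omega n := by
    rw [setIntegral_congr_ae measurableSet_closedBall (g := fun _ => (1 : ℝ))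
      ((ae_sum_cos_sq (n := n)).mono fun v hv _ => hv)]
    simp [omega, measureReal_def]
  rw [integral_finsetSum _ fun i _ => integrableOn_cos_pow i 2] at h1
  simp only [integral_coord_pow_eq 2, Finset.sum_const, Finset.card_univ, Fintype.card_fin,
    nsmul_eq_mul] at h1
  rw [← h1, mul_div_cancel_left₀ _ (NeZero.ne _)]

/-- Even moments of the positive part are half of the full ones. -/
theorem integral_max_cos_pow {k : ℕ} (hk : Even k) (hk0 : k ≠ 0) :
    ∫ v in Metric.closedBall (0 : EE n) 1, (max 0 (v 0 / ‖v‖)) ^ k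
      = (∫ v in Metric.closedBall (0 : EE n) 1, (v 0 / ‖v‖) ^ k) / 2 := by
  have hm : IntegrableOn (fun v : EE n => (max 0 (v 0 / ‖v‖)) ^ k)
      (Metric.closedBall (0 : EE n) 1) :=
    integrableOn_ball_of_bound ((measurable_const.max (measurable_cos 0)).pow_const k) 1 fun v => by
      have := abs_le.1 (abs_coord_div_le v 0)
      rw [abs_pow, abs_of_nonneg (le_max_left _ _)]
      exact pow_le_one₀ (le_max_left _ _) (max_le zero_le_one this.2)
  set N : EE n ≃ₗᵢ[ℝ] EE n := LinearIsometryEquiv.neg ℝ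
  have h := N.measurePreserving.setIntegral_preimage_emb
    N.toHomeomorph.measurableEmbedding (fun w => (max 0 (w 0 / ‖w‖)) ^ k)
    (Metric.closedBall (0 : EE n) 1)
  rw [N.preimage_closedBall, map_zero] at h
  simp only [N, LinearIsometryEquiv.coe_neg, norm_neg, PiLp.neg_apply, neg_div] at h
  have hm' : IntegrableOn (fun v : EE n => (max 0 (-(v 0 / ‖v‖))) ^ k)
      (Metric.closedBall (0 : EE n) 1) :=
    integrableOn_ball_of_bound ((measurable_const.max (measurable_cos 0).neg).pow_const k) 1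
      fun v => by
        have := abs_le.1 (abs_coord_div_le v 0)
        rw [abs_pow, abs_of_nonneg (le_max_left _ _)]
        exact pow_le_one₀ (le_max_left _ _) (max_le zero_le_one (by linarith))
  have e : ∀ c : ℝ, (max 0 c) ^ k + (max 0 (-c)) ^ k = c ^ k := by
    intro c
    rcases le_total 0 c with hc | hc
    · rw [max_eq_right hc, max_eq_left (neg_nonpos.2 hc), zero_pow hk0, add_zero]
    · rw [max_eq_left hc, max_eq_right (neg_nonneg.2 hc), zero_pow hk0, zero_add, hk.neg_pow]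
  rw [show (fun v : EE n => (v 0 / ‖v‖) ^ k)
      = fun v => (max 0 (v 0 / ‖v‖)) ^ k + (max 0 (-(v 0 / ‖v‖))) ^ k from
        funext fun v => (e _).symm, integral_add hm hm', h]
  ring

end moments

theorem integral_cos_four :
    ∫ v in Metric.closedBall (0 : EE 6) 1, (v 0 / ‖v‖) ^ 4 = omega 6 / 16 := by
  set A := ∫ v in Metric.closedBall (0 : EE 6) 1, (v 0 / ‖v‖) ^ 4 with hA
  set B : Fin 6 → Fin 6 → ℝ := fun i j =>
    ∫ v in Metric.closedBall (0 : EE 6) 1, (v i / ‖v‖) ^ 2 * (v j / ‖v‖) ^ 2 with hB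
  have hint : ∀ i j : Fin 6, IntegrableOn
      (fun v : EE 6 => (v i / ‖v‖) ^ 2 * (v j / ‖v‖) ^ 2) (Metric.closedBall (0 : EE 6) 1) :=
    fun i j => integrableOn_ball_of_bound
      (((measurable_cos i).pow_const 2).mul ((measurable_cos j).pow_const 2)) 1 fun v => by
      rw [abs_mul, abs_pow, abs_pow]
      exact mul_le_one₀ (pow_le_one₀ (abs_nonneg _) (abs_coord_div_le v i)) (by positivity)
        (pow_le_one₀ (abs_nonneg _) (abs_coord_div_le v j))
  have hd : ∀ i, B i i = A := fun i => by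
    simp only [hB, hA, ← integral_coord_pow_eq 4 i]
    congr 1; funext v; ring
  have ho : ∀ i j, i ≠ j → B i j = A / 3 := by
    intro i j hij
    set s : ℝ := (Real.sqrt 2)⁻¹ with hsdef
    have hs : s ^ 2 = 1 / 2 := by simp [hsdef]
    have hs0 : 0 ≤ s := by positivity
    set a : EE 6 := EuclideanSpace.single i s + EuclideanSpace.single j s with ha
    set b : EE 6 := EuclideanSpace.single i s - EuclideanSpace.single j s with hb
    have hperp : inner ℝ (EuclideanSpace.single i s) (EuclideanSpace.single j s) = (0 : ℝ) := by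
      simp [EuclideanSpace.inner_single_left, hij]
    have hna : ‖a‖ = 1 := by
      rw [← sq_eq_sq₀ (norm_nonneg _) zero_le_one, ha, norm_add_sq_real, hperp]
      simp [hs0, abs_of_nonneg]; linarith
    have hnb : ‖b‖ = 1 := by
      rw [← sq_eq_sq₀ (norm_nonneg _) zero_le_one, hb, norm_sub_sq_real, hperp]
      simp [hs0, abs_of_nonneg]; linarith
    have hbd : ∀ {c : EE 6}, ‖c‖ = 1 → IntegrableOn
        (fun v : EE 6 => (inner ℝ c v / ‖v‖) ^ 4) (Metric.closedBall (0 : EE 6) 1) := by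
      intro c hc
      refine integrableOn_ball_of_bound
        (((continuous_const.inner continuous_id).measurable.div measurable_norm).pow_const 4) 1
        fun v => ?_
      rw [abs_pow, abs_div, abs_norm]
      exact pow_le_one₀ (by positivity)
        (div_le_one_of_le₀ (by simpa [hc] using abs_real_inner_le_norm c v) (norm_nonneg _))
    have hf : ∀ v : EE 6, (inner ℝ a v / ‖v‖) ^ 4 + (inner ℝ b v / ‖v‖) ^ 4
        = (1 / 2) * (v i / ‖v‖) ^ 4 + (1 / 2) * (v j / ‖v‖) ^ 4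
          + 3 * ((v i / ‖v‖) ^ 2 * (v j / ‖v‖) ^ 2) := by
      intro v
      have hs4 : s ^ 4 = 1 / 4 := by rw [show (4 : ℕ) = 2 * 2 from rfl, pow_mul, hs]; norm_num
      rw [ha, hb, inner_add_left, inner_sub_left]
      simp only [EuclideanSpace.inner_single_left, conj_trivial]
      linear_combination (2 * (v i / ‖v‖) ^ 4 + 2 * (v j / ‖v‖) ^ 4
        + 12 * ((v i / ‖v‖) ^ 2 * (v j / ‖v‖) ^ 2)) * hs4
    have e3 : ∫ v in Metric.closedBall (0 : EE 6) 1,
        ((inner ℝ a v / ‖v‖) ^ 4 + (inner ℝ b v / ‖v‖) ^ 4) = A + A := by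
      rw [integral_add (hbd hna) (hbd hnb), integral_cos_pow_eq 4 hna, integral_cos_pow_eq 4 hnb]
    simp only [hf] at e3
    have h0 : IntegrableOn (fun v : EE 6 => (1 / 2) * (v i / ‖v‖) ^ 4 + (1 / 2) * (v j / ‖v‖) ^ 4)
        (Metric.closedBall (0 : EE 6) 1) :=
      ((integrableOn_cos_pow i 4).const_mul _).add ((integrableOn_cos_pow j 4).const_mul _)
    rw [integral_add h0 ((hint i j).const_mul 3),
      integral_add ((integrableOn_cos_pow i 4).const_mul _)
        ((integrableOn_cos_pow j 4).const_mul _),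
      integral_const_mul, integral_const_mul, integral_const_mul, integral_coord_pow_eq 4 i,
      integral_coord_pow_eq 4 j] at e3
    simp only [hB, hA] at e3 ⊢
    linarith
  have hsum : ∫ v in Metric.closedBall (0 : EE 6) 1,
      ∑ i, ∑ j, (v i / ‖v‖) ^ 2 * (v j / ‖v‖) ^ 2 = omega 6 := by
    rw [setIntegral_congr_ae measurableSet_closedBall (g := fun _ => (1 : ℝ))
      ((ae_sum_cos_sq (n := 6)).mono fun v hv _ => by rw [← Finset.sum_mul_sum, hv, one_mul])]
    simp [omega, measureReal_def]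
  rw [integral_finsetSum _ fun i _ => integrable_finsetSum _ fun j _ => hint i j] at hsum
  have hrow : ∀ i, ∫ v in Metric.closedBall (0 : EE 6) 1,
      ∑ j, (v i / ‖v‖) ^ 2 * (v j / ‖v‖) ^ 2 = A + 5 * (A / 3) := by
    intro i
    rw [integral_finsetSum _ fun j _ => hint i j]
    show ∑ j, B i j = _
    rw [← Finset.add_sum_erase _ _ (Finset.mem_univ i), hd i,
      Finset.sum_congr rfl fun j hj => ho i j (Finset.ne_of_mem_erase hj).symm]
    simp [Finset.card_erase_of_mem]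
  simp only [hrow, Finset.sum_const, Finset.card_univ, Fintype.card_fin, nsmul_eq_mul] at hsum
  push_cast at hsum
  linarith

/-! ### The calibration -/

/-- The zero weight. -/
noncomputable def Radial.null : Radial where
  F := fun _ => 0
  dF := fun _ => 0
  f := fun _ => 0
  hasDeriv := fun t => hasDerivAt_const t 0
  cont_dF := continuous_const
  cont_f := continuous_const
  F_eq := fun t => (mul_zero t).symm
  f_nonneg := fun _ _ => le_rfl
  bdd := ⟨0, fun t _ => by simp⟩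

/-- `36 F / t` of the six-dimensional weight. -/
noncomputable def sixf (η t : ℝ) : ℝ :=
  if t ≤ η then 2 / η ^ 2 - t ^ 2 / η ^ 4 else 1 / (max t η) ^ 2

/-- `36 F'` of the six-dimensional weight. -/
noncomputable def sixd (η t : ℝ) : ℝ :=
  if t ≤ η then 2 / η ^ 2 - 3 * t ^ 2 / η ^ 4 else -1 / (max t η) ^ 2

theorem continuous_sixf {η : ℝ} (h : 0 < η) : Continuous (sixf η) := by
  refine Continuous.if_le (by fun_prop) (continuous_const.div (by fun_prop) fun t => ?_)
    continuous_id continuous_const fun t ht => ?_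
  · exact pow_ne_zero _ (lt_max_of_lt_right h).ne'
  · subst ht; rw [max_self]; field_simp; ring

theorem continuous_sixd {η : ℝ} (h : 0 < η) : Continuous (sixd η) := by
  refine Continuous.if_le (by fun_prop) (continuous_const.div (by fun_prop) fun t => ?_)
    continuous_id continuous_const fun t ht => ?_
  · exact pow_ne_zero _ (lt_max_of_lt_right h).ne'
  · subst ht; rw [max_self]; field_simp; ring

theorem sixf_le {η t : ℝ} (h : t ≤ η) : sixf η t = 2 / η ^ 2 - t ^ 2 / η ^ 4 := by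
  rw [sixf, if_pos h]

theorem sixf_ge {η t : ℝ} (h0 : 0 < η) (h : η ≤ t) : sixf η t = 1 / t ^ 2 := by
  rcases h.eq_or_lt with rfl | h'
  · rw [sixf, if_pos le_rfl]; field_simp; ring
  · rw [sixf, if_neg h'.not_ge, max_eq_left h]

theorem sixd_ge {η t : ℝ} (h0 : 0 < η) (h : η ≤ t) : sixd η t = -1 / t ^ 2 := by
  rcases h.eq_or_lt with rfl | h'
  · rw [sixd, if_pos le_rfl]; field_simp; ring
  · rw [sixd, if_neg h'.not_ge, max_eq_left h]

theorem hasDerivAt_sixF {η : ℝ} (h : 0 < η) (t : ℝ) :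
    HasDerivAt (fun s => s * sixf η s / 36) (sixd η t / 36) t := by
  have hlow : HasDerivAt (fun s => (2 / η ^ 2 * s - s ^ 3 / η ^ 4) / 36)
      ((2 / η ^ 2 - 3 * t ^ 2 / η ^ 4) / 36) t := by
    have := (((hasDerivAt_id' t).const_mul (2 / η ^ 2)).sub
      ((hasDerivAt_pow 3 t).div_const (η ^ 4))).div_const 36
    simpa using this
  have elow : ∀ s, s ≤ η → s * sixf η s / 36 = (2 / η ^ 2 * s - s ^ 3 / η ^ 4) / 36 := by
    intro s hs; rw [sixf_le hs]; ring
  have ehigh : ∀ s, η ≤ s → s * sixf η s / 36 = s⁻¹ / 36 := by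
    intro s hs
    have : s ≠ 0 := (h.trans_le hs).ne'
    rw [sixf_ge h hs]; field_simp
  have hA : t ≤ η → HasDerivWithinAt (fun s => s * sixf η s / 36) (sixd η t / 36) (Iic η) t := by
    intro ht
    rw [sixd, if_pos ht]
    exact hlow.hasDerivWithinAt.congr (fun s hs => elow s hs) (elow t ht)
  have hB : η ≤ t → HasDerivWithinAt (fun s => s * sixf η s / 36) (sixd η t / 36) (Ici η) t := by
    intro ht
    have h2 : HasDerivAt (fun s : ℝ => s⁻¹ / 36) (sixd η t / 36) t := by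
      rw [sixd_ge h ht, show (-1 : ℝ) / t ^ 2 = -(t ^ 2)⁻¹ by ring]
      exact (hasDerivAt_inv (h.trans_le ht).ne').div_const 36
    exact h2.hasDerivWithinAt.congr (fun s hs => ehigh s hs) (ehigh t ht)
  rcases lt_trichotomy t η with ht | ht | ht
  · exact (hA ht.le).hasDerivAt (Iic_mem_nhds ht)
  · subst ht
    have := (hA le_rfl).union (hB le_rfl)
    rw [Iic_union_Ici] at this
    exact this.hasDerivAt Filter.univ_mem
  · exact (hB ht.le).hasDerivAt (Ici_mem_nhds ht)

theorem six_bounds {η t : ℝ} (h : 0 < η) (ht : 0 ≤ t) :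
    0 ≤ sixf η t ∧ sixf η t ≤ 2 / η ^ 2 ∧ |sixd η t| ≤ 2 / η ^ 2 ∧ t * sixf η t ≤ 2 / η := by
  rcases le_total t η with hle | hle
  · obtain ⟨u, hu0, hu1, rfl⟩ : ∃ u, 0 ≤ u ∧ u ≤ 1 ∧ t = u * η :=
      ⟨t / η, by positivity, (div_le_one h).2 hle, by field_simp⟩
    have hu2 : u ^ 2 ≤ 1 := pow_le_one₀ hu0 hu1
    rw [sixf_le hle, sixd, if_pos hle,
      show 2 / η ^ 2 - (u * η) ^ 2 / η ^ 4 = (2 - u ^ 2) / η ^ 2 by field_simp,
      show 2 / η ^ 2 - 3 * (u * η) ^ 2 / η ^ 4 = (2 - 3 * u ^ 2) / η ^ 2 by field_simp]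
    refine ⟨div_nonneg (by linarith) (by positivity), ?_, ?_, ?_⟩
    · gcongr; nlinarith [sq_nonneg u]
    · rw [abs_div, abs_of_pos (pow_pos h 2)]
      gcongr
      rw [abs_le]; constructor <;> nlinarith [sq_nonneg u]
    · rw [show u * η * ((2 - u ^ 2) / η ^ 2) = u * (2 - u ^ 2) / η by field_simp]
      gcongr; nlinarith [sq_nonneg u]
  · have htp : 0 < t := h.trans_le hle
    rw [sixf_ge h hle, sixd_ge h hle]
    have h2 : 1 / t ^ 2 ≤ 1 / η ^ 2 := one_div_le_one_div_of_le (by positivity) (by gcongr)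
    refine ⟨by positivity, h2.trans (by gcongr; norm_num), ?_, ?_⟩
    · rw [abs_div, abs_neg, abs_one, abs_of_pos (pow_pos htp 2)]
      exact h2.trans (by gcongr; norm_num)
    · rw [show t * (1 / t ^ 2) = 1 / t by field_simp]
      calc 1 / t ≤ 1 / η := one_div_le_one_div_of_le h hle
        _ ≤ 2 / η := by gcongr; norm_num

/-- The six-dimensional weight. -/
noncomputable def sixRadial (η : ℝ) (h : 0 < η) : Radial where
  F := fun t => t * sixf η t / 36
  dF := fun t => sixd η t / 36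
  f := fun t => sixf η t / 36
  hasDeriv := hasDerivAt_sixF h
  cont_dF := (continuous_sixd h).div_const _
  cont_f := (continuous_sixf h).div_const _
  F_eq := fun t => mul_div_assoc _ _ _
  f_nonneg := fun t ht => div_nonneg (six_bounds h ht).1 (by norm_num)
  bdd := ⟨2 / η + 2 / η ^ 2, fun t ht => by
    obtain ⟨a, b, c, d⟩ := six_bounds h ht
    have : (0 : ℝ) ≤ 2 / η := by positivity
    have : (0 : ℝ) ≤ 2 / η ^ 2 := by positivity
    have h0 : 0 ≤ t * sixf η t := mul_nonneg ht a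
    rw [abs_div, abs_div, abs_div, abs_of_pos (show (0 : ℝ) < 36 by norm_num),
      abs_of_nonneg a, abs_of_nonneg h0]
    refine ⟨?_, ?_, ?_⟩ <;> linarith⟩

theorem sixK_ge {η t : ℝ} (h : 0 < η) (ht : η ≤ t) (c : ℝ) :
    (sixRadial η h).K 6 t c = ((3 + 2 * c ^ 2) / t ^ 2 - 5 * c / t) / 36 := by
  have : t ≠ 0 := (h.trans_le ht).ne'
  simp only [Radial.K, sixRadial, sixf_ge h ht, sixd_ge h ht]
  push_cast
  field_simp
  ring

theorem sixK_le {η t c : ℝ} (h : 0 < η) (h1 : η ≤ 1 / 10) (ht0 : 0 ≤ t) (ht : t ≤ η)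
    (hc : c ∈ Icc (-1 : ℝ) 1) : 0 ≤ (sixRadial η h).K 6 t c := by
  obtain ⟨u, hu0, hu1, rfl⟩ : ∃ u, 0 ≤ u ∧ u ≤ 1 ∧ t = u * η :=
    ⟨t / η, by positivity, (div_le_one h).2 ht, by field_simp⟩
  have hu2 : u ^ 2 ≤ 1 := pow_le_one₀ hu0 hu1
  have e : (sixRadial η h).K 6 (u * η) c
      = ((2 - 3 * u ^ 2) * (1 - c ^ 2) + (4 + c ^ 2) * (2 - u ^ 2)
          - 5 * η * c * (u * (2 - u ^ 2))) / (36 * η ^ 2) := by
    simp only [Radial.K, sixRadial, sixf_le ht, sixd, if_pos ht]
    push_cast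
    field_simp
    ring
  rw [e]
  apply div_nonneg _ (by positivity)
  have h3 : η * c * (u * (2 - u ^ 2)) ≤ 1 / 5 := by
    have a1 : u * (2 - u ^ 2) ≤ 2 := by nlinarith [sq_nonneg u]
    have a0 : 0 ≤ u * (2 - u ^ 2) := mul_nonneg hu0 (by linarith)
    have a2 : η * c ≤ 1 / 10 := by nlinarith [hc.2]
    nlinarith
  nlinarith [mul_nonneg (mul_nonneg hu0 hu0) (sq_nonneg c), sq_nonneg c]

theorem six_bracket_nonneg (t s : ℝ) (hs : s ^ 2 ≤ 4) :
    0 ≤ 17 / 10 * t ^ 2 - 5 / 2 * s * t + 3 + s ^ 2 / 2 := by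
  nlinarith [sq_nonneg (t - 25 / 34 * s)]

/-- The pointwise inequality of the calibration. -/
theorem six_main {t a b : ℝ} (ht : 0 < t) (ha : a ∈ Ioc (0 : ℝ) 1) (hb : b ∈ Ioc (0 : ℝ) 1) :
    36 * t ≤ t ^ 3 / (a * b) * (17 / 10 * t ^ 2 - 5 / 2 * (a + b) * t + 3 + a ^ 2 + b ^ 2)
      + 24 * (a + b) + 24 / 5 * (a ^ 3 + b ^ 3) := by
  obtain ⟨s, hsdef⟩ : ∃ s, s = a + b := ⟨_, rfl⟩
  have hs : 0 < s := by linarith [ha.1, hb.1]
  have hab : 0 < a * b := mul_pos ha.1 hb.1
  have hs4 : s ^ 2 ≤ 4 := by nlinarith [ha.2, hb.2]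
  have hL := six_bracket_nonneg t s hs4
  have h1 : 17 / 10 * t ^ 2 - 5 / 2 * s * t + 3 + s ^ 2 / 2
      ≤ 17 / 10 * t ^ 2 - 5 / 2 * (a + b) * t + 3 + a ^ 2 + b ^ 2 := by
    subst hsdef; nlinarith [sq_nonneg (a - b)]
  have h2 : 4 * t ^ 3 / s ^ 2 ≤ t ^ 3 / (a * b) := by
    rw [div_le_div_iff₀ (by positivity) hab, hsdef]
    nlinarith [mul_nonneg (pow_nonneg ht.le 3) (sq_nonneg (a - b))]
  have h3 : 4 * t ^ 3 / s ^ 2 * (17 / 10 * t ^ 2 - 5 / 2 * s * t + 3 + s ^ 2 / 2)
      ≤ t ^ 3 / (a * b) * (17 / 10 * t ^ 2 - 5 / 2 * (a + b) * t + 3 + a ^ 2 + b ^ 2) :=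
    mul_le_mul h2 h1 hL (div_nonneg (pow_nonneg ht.le 3) hab.le)
  have h4 : 6 / 5 * s ^ 3 ≤ 24 / 5 * (a ^ 3 + b ^ 3) := by
    subst hsdef
    nlinarith [mul_nonneg (by linarith [ha.1, hb.1] : (0 : ℝ) ≤ a + b) (sq_nonneg (a - b))]
  have key : 0 ≤ 4 * t ^ 3 * (17 / 10 * t ^ 2 - 5 / 2 * s * t + 3 + s ^ 2 / 2)
      + s ^ 2 * (24 * s + 6 / 5 * s ^ 3 - 36 * t) := by
    have e : 4 * t ^ 3 * (17 / 10 * t ^ 2 - 5 / 2 * s * t + 3 + s ^ 2 / 2)
        + s ^ 2 * (24 * s + 6 / 5 * s ^ 3 - 36 * t)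
        = (t - s) ^ 2 * (12 * (t + 2 * s)
          + (34 / 5 * t ^ 3 + 18 / 5 * t ^ 2 * s + 12 / 5 * t * s ^ 2 + 6 / 5 * s ^ 3)) := by ring
    rw [e]; positivity
  have h5 : 0 ≤ 4 * t ^ 3 / s ^ 2 * (17 / 10 * t ^ 2 - 5 / 2 * s * t + 3 + s ^ 2 / 2)
      + (24 * s + 6 / 5 * s ^ 3 - 36 * t) := by
    rw [show 4 * t ^ 3 / s ^ 2 * (17 / 10 * t ^ 2 - 5 / 2 * s * t + 3 + s ^ 2 / 2)
      + (24 * s + 6 / 5 * s ^ 3 - 36 * t)
      = (4 * t ^ 3 * (17 / 10 * t ^ 2 - 5 / 2 * s * t + 3 + s ^ 2 / 2)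
        + s ^ 2 * (24 * s + 6 / 5 * s ^ 3 - 36 * t)) / s ^ 2 by field_simp]
    positivity
  linarith

/-- The six-dimensional calibration cut off at `η`. -/
noncomputable def sixCalib (η : ℝ) (h : 0 < η) (h1 : η ≤ 1 / 10) : Calib 6 where
  α := 17 / 360
  β := 0
  bdry := sixRadial η h
  inner := Radial.null
  φ := fun c => 2 / 3 * c + 2 / 15 * c ^ 3 + η / 2
  cont_φ := by fun_prop
  α_nonneg := by norm_num
  β_nonneg := le_rfl
  φ_nonneg := fun c hc => by positivity
  bdry_nonneg := fun t a b ht ha hb => by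
    rcases le_total t η with hle | hle
    · linarith [sixK_le h h1 ht hle ha, sixK_le h h1 ht hle hb]
    · rw [sixK_ge h hle, sixK_ge h hle]
      have htp : 0 < t := h.trans_le hle
      have hs : (a + b) ^ 2 ≤ 4 := by nlinarith [ha.1, ha.2, hb.1, hb.2]
      have hL := six_bracket_nonneg t (a + b) hs
      rw [show (17 : ℝ) / 360 + (((3 + 2 * a ^ 2) / t ^ 2 - 5 * a / t) / 36
          + ((3 + 2 * b ^ 2) / t ^ 2 - 5 * b / t) / 36) / 2
          = (17 / 10 * t ^ 2 - 5 / 2 * (a + b) * t + 3 + a ^ 2 + b ^ 2) / (36 * t ^ 2) by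
        field_simp; ring]
      apply div_nonneg _ (by positivity)
      nlinarith [sq_nonneg (a - b)]
  inner_nonneg := fun t c _ _ => by simp [Radial.K, Radial.null]
  cert := fun t a b ht ha hb => by
    have hab : 0 < a * b := mul_pos ha.1 hb.1
    have hz : ∀ c, (∫ r in (0 : ℝ)..t, r ^ (6 - 1) * (0 + Radial.null.K 6 r c)) = 0 := by
      intro c; simp [Radial.K, Radial.null]
    rw [hz, hz, zero_div, zero_div, add_zero, add_zero]
    rcases le_total t η with hle | hle
    · have hQ : 0 ≤ t ^ (6 - 1) / (a * b)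
          * (17 / 360 + ((sixRadial η h).K 6 t a + (sixRadial η h).K 6 t b) / 2) := by
        refine mul_nonneg (div_nonneg (pow_nonneg ht.le _) hab.le) ?_
        linarith [sixK_le h h1 ht.le hle ⟨by linarith [ha.1], ha.2⟩,
          sixK_le h h1 ht.le hle ⟨by linarith [hb.1], hb.2⟩]
      have : 0 ≤ a ^ 3 := pow_nonneg ha.1.le _
      have : 0 ≤ b ^ 3 := pow_nonneg hb.1.le _
      linarith [ha.1, hb.1]
    · rw [sixK_ge h hle, sixK_ge h hle]
      have e : t ^ (6 - 1) / (a * b) * ((17 : ℝ) / 360 + (((3 + 2 * a ^ 2) / t ^ 2 - 5 * a / t) / 36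
            + ((3 + 2 * b ^ 2) / t ^ 2 - 5 * b / t) / 36) / 2)
          = t ^ 3 / (a * b)
            * (17 / 10 * t ^ 2 - 5 / 2 * (a + b) * t + 3 + a ^ 2 + b ^ 2) / 36 := by
        have := ha.1.ne'
        have := hb.1.ne'
        field_simp
        ring
      rw [e]
      linarith [six_main ht ha hb]

theorem mu_sixCalib {η : ℝ} (h : 0 < η) (h1 : η ≤ 1 / 10) :
    (sixCalib η h h1).mu ≤ 43 / 720 + η / 2 := by
  have hω : 0 < omega 6 := by rw [omega_six]; positivity
  rw [Calib.mu, div_le_iff₀ hω, ballMoment]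
  have hc0 : ∀ v : EE 6, 0 ≤ max 0 (v 0 / ‖v‖) := fun v => le_max_left _ _
  have hc1 : ∀ v : EE 6, max 0 (v 0 / ‖v‖) ≤ 1 := fun v =>
    max_le zero_le_one (abs_le.1 (abs_coord_div_le v 0)).2
  have hmc : Measurable fun v : EE 6 => max 0 (v 0 / ‖v‖) :=
    measurable_const.max (measurable_cos 0)
  have hi : ∀ k, IntegrableOn (fun v : EE 6 => (max 0 (v 0 / ‖v‖)) ^ k)
      (Metric.closedBall (0 : EE 6) 1) := fun k =>
    integrableOn_ball_of_bound (hmc.pow_const k) 1 fun v => by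
      rw [abs_pow, abs_of_nonneg (hc0 v)]
      exact pow_le_one₀ (hc0 v) (hc1 v)
  have hg : IntegrableOn (fun v : EE 6 => 2 / 3 * (max 0 (v 0 / ‖v‖)) ^ 2
      + 2 / 15 * (max 0 (v 0 / ‖v‖)) ^ 4) (Metric.closedBall (0 : EE 6) 1) :=
    ((hi 2).const_mul _).add ((hi 4).const_mul _)
  calc ∫ v in Metric.closedBall (0 : EE 6) 1,
        (fun c => c * (sixCalib η h h1).φ c) (max 0 (v 0 / ‖v‖))
      ≤ ∫ v in Metric.closedBall (0 : EE 6) 1,
        (2 / 3 * (max 0 (v 0 / ‖v‖)) ^ 2 + 2 / 15 * (max 0 (v 0 / ‖v‖)) ^ 4 + η / 2) := by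
        refine setIntegral_mono ?_ (hg.add (integrableOn_const measure_closedBall_lt_top.ne))
          fun v => ?_
        · refine integrableOn_ball_of_bound
            (hmc.mul ((sixCalib η h h1).cont_φ.measurable.comp hmc)) 2 fun v => ?_
          have hφ : |(sixCalib η h h1).φ (max 0 (v 0 / ‖v‖))| ≤ 2 := by
            rw [abs_of_nonneg ((sixCalib η h h1).φ_nonneg _ (hc0 v))]
            have : (max 0 (v 0 / ‖v‖)) ^ 3 ≤ 1 := pow_le_one₀ (hc0 v) (hc1 v)
            show 2 / 3 * _ + 2 / 15 * _ + η / 2 ≤ (2 : ℝ)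
            linarith [hc1 v]
          rw [abs_mul, abs_of_nonneg (hc0 v)]
          calc _ ≤ 1 * 2 := mul_le_mul (hc1 v) hφ (abs_nonneg _) zero_le_one
            _ = 2 := one_mul _
        · show max 0 _ * (2 / 3 * _ + 2 / 15 * _ + η / 2) ≤ _
          have := mul_le_of_le_one_left (by positivity : 0 ≤ η / 2) (hc1 v)
          linarith
    _ = 2 / 3 * (omega 6 / 12) + 2 / 15 * (omega 6 / 32) + η / 2 * omega 6 := by
        rw [integral_add hg (integrableOn_const measure_closedBall_lt_top.ne),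
          integral_add ((hi 2).const_mul _) ((hi 4).const_mul _),
          integral_const_mul, integral_const_mul,
          integral_max_cos_pow even_two two_ne_zero, integral_cos_sq,
          integral_max_cos_pow (by decide) (by norm_num), integral_cos_four, setIntegral_const,
          measureReal_def, smul_eq_mul]
        push_cast
        simp only [omega]
        ring
    _ = (43 / 720 + η / 2) * omega 6 := by ring

theorem exists_calib_six (δ : ℝ) (hδ : 0 < δ) : ∃ C : Calib 6, C.cost ≤ 1 + δ := by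
  have hη : 0 < min (δ / 6) (1 / 10) := lt_min (by positivity) (by norm_num)
  refine ⟨sixCalib _ hη (min_le_right _ _), ?_⟩
  have h := mu_sixCalib hη (min_le_right _ _)
  have := min_le_left (δ / 6) (1 / 10)
  rw [Calib.cost]
  show ((6 : ℕ) : ℝ) * (17 / 360) + 2 * (0 : ℝ) + 2 * ((6 : ℕ) : ℝ) * _ ≤ _
  push_cast
  linarith

end Vale.Agent.P219
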