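import Mathlib

/-!
# P219: the polynomial inequalities of the dimension 8 calibration

`F(t,u) = (25+14t²-20u²)/(900 t³)`, `α = 131/4200`, `φ(c) = 2c/3+14c³/45-8c⁵/105`.
-/

namespace Vale.Agent.P219.Poly8

/-- `1800·t⁴·Q` in terms of `t` and the two cosines. -/
noncomputable def W (t a b : ℝ) : ℝ :=
  393 / 7 * t ^ 4 - 98 * (a + b) * t ^ 3 + (140 + 28 * (a ^ 2 + b ^ 2)) * t ^ 2
    - 35 * (a + b) * (5 - 4 * (a * b)) * t
    + (150 + 40 * (a ^ 2 + b ^ 2) - 160 * (a * b) ^ 2 - 80 * |a * b|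
      + 40 * |a * b| * (a ^ 2 + b ^ 2))

noncomputable def phi (c : ℝ) : ℝ := 2 / 3 * c + 14 / 45 * c ^ 3 - 8 / 105 * c ^ 5

noncomputable def Wsp (t s p : ℝ) : ℝ :=
  393 / 7 * t ^ 4 - 98 * s * t ^ 3 + (140 + 28 * s ^ 2 - 56 * p) * t ^ 2
    - 35 * s * (5 - 4 * p) * t + 150 + 40 * s ^ 2 - 160 * p - 240 * p ^ 2 + 40 * p * s ^ 2

noncomputable def Hsp (t s p : ℝ) : ℝ :=
  7 * t ^ 3 * Wsp t s p + p * (8400 * s + 3920 * (s ^ 3 - 3 * p * s)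
    - 960 * (s ^ 5 - 5 * p * s ^ 3 + 5 * p ^ 2 * s) - 12600 * t)

theorem Hsp_diag {t s : ℝ} (ht : 0 ≤ t) (hs : 0 ≤ s) (hs2 : s ≤ 2) :
    0 ≤ Hsp t s (s ^ 2 / 4) := by
  have key : Hsp t s (s ^ 2 / 4) = (t - s) ^ 2 * (1050 * (t + 2 * s)
      + 245 * (4 * t ^ 3 + 3 * s * t ^ 2 + 2 * s ^ 2 * t + s ^ 3)
      + (393 * t ^ 5 + 100 * s * t ^ 4 - 95 * s ^ 2 * t ^ 3 - 45 * s ^ 3 * t ^ 2
        - 30 * s ^ 4 * t - 15 * s ^ 5)) := by
    simp only [Hsp, Wsp]; ring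
  rw [key]
  apply mul_nonneg (sq_nonneg _)
  have h4 : s ^ 2 ≤ 4 := by nlinarith
  have e1 : s ^ 2 * t ^ 3 ≤ 4 * t ^ 3 := mul_le_mul_of_nonneg_right h4 (by positivity)
  have e2 : s ^ 2 * (s * t ^ 2) ≤ 4 * (s * t ^ 2) := mul_le_mul_of_nonneg_right h4 (by positivity)
  have e3 : s ^ 2 * (s ^ 2 * t) ≤ 4 * (s ^ 2 * t) := mul_le_mul_of_nonneg_right h4 (by positivity)
  have e4 : s ^ 2 * s ^ 3 ≤ 4 * s ^ 3 := mul_le_mul_of_nonneg_right h4 (by positivity)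
  have p5 : 0 ≤ t ^ 5 := by positivity
  have p4 : 0 ≤ s * t ^ 4 := by positivity
  nlinarith [pow_nonneg ht 3, mul_nonneg hs (sq_nonneg t), mul_nonneg (sq_nonneg s) ht,
    pow_nonneg hs 3]

theorem Wsp_diag {t s : ℝ} (ht : 0 ≤ t) (hs : 0 ≤ s) (hs2 : s ≤ 2) :
    0 < Wsp t s (s ^ 2 / 4) := by
  have key : Wsp t s (s ^ 2 / 4) = 393 / 7 * t ^ 4 - 98 * s * t ^ 3
      + (140 + 14 * s ^ 2) * t ^ 2 - 35 * s * (5 - s ^ 2) * t + 150 - 5 * s ^ 4 := by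
    simp only [Wsp]; ring
  rw [key]
  have h4 : 0 ≤ 4 - s ^ 2 := by nlinarith
  nlinarith [mul_nonneg h4 (sq_nonneg (t - 17 / 10)), mul_nonneg h4 (sq_nonneg t),
    mul_nonneg (mul_nonneg hs ht) h4, mul_nonneg h4 h4, sq_nonneg (t ^ 2 - 7 / 8 * s * t),
    sq_nonneg (t - 7 / 8 * s), sq_nonneg (t * t - 7 / 4 * t), sq_nonneg (s * t - 7 / 2)]

theorem Wsp_zero {t s : ℝ} (ht : 0 ≤ t) (hs : 0 ≤ s) (hs1 : s ≤ 1) :
    0 < Wsp t s 0 := by
  simp only [Wsp]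
  nlinarith [sq_nonneg (t - s), sq_nonneg (t ^ 2 - s * t), sq_nonneg (t - 1),
    mul_nonneg ht hs, mul_nonneg ht (sub_nonneg.2 hs1)]

theorem Wsp_one {t s : ℝ} (ht : 0 ≤ t) (hs : 1 ≤ s) (hs2 : s ≤ 2) :
    0 < Wsp t s (s - 1) := by
  simp only [Wsp]
  nlinarith [sq_nonneg (t - s), sq_nonneg (t ^ 2 - s * t), sq_nonneg (t - 3 / 2),
    mul_nonneg ht (sub_nonneg.2 hs2), mul_nonneg (sub_nonneg.2 hs) (sub_nonneg.2 hs2)]

noncomputable def pQ (t : ℝ) : ℝ :=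
  5680 + 2530 * t + 1110 * t ^ 2 + 600 * t ^ 3 + 200 * t ^ 4 + 393 * t ^ 5
noncomputable def pL (t : ℝ) : ℝ :=
  19040 + 3220 * t + 1610 * t ^ 2 + 245 * t ^ 3 + 980 * t ^ 4 + 686 * t ^ 5
noncomputable def pR (t : ℝ) : ℝ := 15360 - 280 * t ^ 3 + 980 * t ^ 4 + 196 * t ^ 5
noncomputable def pK (t : ℝ) : ℝ := 2160 + 280 * t ^ 3

theorem disc_mid {t : ℝ} (h1 : (1 / 2 : ℝ) ≤ t) (h2 : t ≤ (17 / 10 : ℝ)) :
    0 ≤ 4 * pQ t * pR t - pL t ^ 2 := by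
  have key : (60466176 / 9765625 : ℝ) * (4 * pQ t * pR t - pL t ^ 2) =
      (726419619 / 256 : ℝ) * (t - (1 / 2 : ℝ)) ^ 0 * ((17 / 10 : ℝ) - t) ^ 10
      + (8773873443 / 128 : ℝ) * (t - (1 / 2 : ℝ)) ^ 1 * ((17 / 10 : ℝ) - t) ^ 9
      + (628698724731 / 1280 : ℝ) * (t - (1 / 2 : ℝ)) ^ 2 * ((17 / 10 : ℝ) - t) ^ 8
      + (1437093097641 / 800 : ℝ) * (t - (1 / 2 : ℝ)) ^ 3 * ((17 / 10 : ℝ) - t) ^ 7
      + (63509836641759 / 16000 : ℝ) * (t - (1 / 2 : ℝ)) ^ 4 * ((17 / 10 : ℝ) - t) ^ 6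
      + (1134217170638109 / 200000 : ℝ) * (t - (1 / 2 : ℝ)) ^ 5 * ((17 / 10 : ℝ) - t) ^ 5
      + (2135467147395231 / 400000 : ℝ) * (t - (1 / 2 : ℝ)) ^ 6 * ((17 / 10 : ℝ) - t) ^ 4
      + (1621674405879849 / 500000 : ℝ) * (t - (1 / 2 : ℝ)) ^ 7 * ((17 / 10 : ℝ) - t) ^ 3
      + (23523776603139771 / 20000000 : ℝ) * (t - (1 / 2 : ℝ)) ^ 8 * ((17 / 10 : ℝ) - t) ^ 2
      + (10082792528247843 / 50000000 : ℝ) * (t - (1 / 2 : ℝ)) ^ 9 * ((17 / 10 : ℝ) - t) ^ 1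
      + (4416929128035171 / 2500000000 : ℝ) * (t - (1 / 2 : ℝ)) ^ 10 * ((17 / 10 : ℝ) - t) ^ 0 := by
    simp only [pQ, pL, pR]; ring
  have x1 : (0 : ℝ) ≤ t - (1 / 2 : ℝ) := by linarith
  have x2 : (0 : ℝ) ≤ (17 / 10 : ℝ) - t := by linarith
  have pos : 0 ≤ (60466176 / 9765625 : ℝ) * (4 * pQ t * pR t - pL t ^ 2) := by rw [key]; positivity
  exact nonneg_of_mul_nonneg_right pos (by norm_num)


theorem disc_top {t : ℝ} (h1 : (17 / 10 : ℝ) ≤ t) (h2 : t ≤ 2) :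
    0 ≤ 4 * pQ t * (pR t + 2 / 5 * pK t) - pL t ^ 2 := by
  have key : (59049 / 10000000000 : ℝ) * (4 * pQ t * (pR t + 2 / 5 * pK t) - pL t ^ 2) =
      (335171214513940771 / 2500000000 : ℝ) * (t - (17 / 10 : ℝ)) ^ 0 * (2 - t) ^ 10
      + (4299967509359801 / 3125000 : ℝ) * (t - (17 / 10 : ℝ)) ^ 1 * (2 - t) ^ 9
      + (158638390203651111 / 25000000 : ℝ) * (t - (17 / 10 : ℝ)) ^ 2 * (2 - t) ^ 8
      + (21637765814732979 / 1250000 : ℝ) * (t - (17 / 10 : ℝ)) ^ 3 * (2 - t) ^ 7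
      + (30922527140253327 / 1000000 : ℝ) * (t - (17 / 10 : ℝ)) ^ 4 * (2 - t) ^ 6
      + (236128595902443 / 6250 : ℝ) * (t - (17 / 10 : ℝ)) ^ 5 * (2 - t) ^ 5
      + (3994388794599 / 125 : ℝ) * (t - (17 / 10 : ℝ)) ^ 6 * (2 - t) ^ 4
      + (2307857491338 / 125 : ℝ) * (t - (17 / 10 : ℝ)) ^ 7 * (2 - t) ^ 3
      + (174194386128 / 25 : ℝ) * (t - (17 / 10 : ℝ)) ^ 8 * (2 - t) ^ 2
      + (7746366656 / 5 : ℝ) * (t - (17 / 10 : ℝ)) ^ 9 * (2 - t) ^ 1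
      + 153893824 * (t - (17 / 10 : ℝ)) ^ 10 * (2 - t) ^ 0 := by
    simp only [pQ, pL, pR, pK]; ring
  have x1 : (0 : ℝ) ≤ t - (17 / 10 : ℝ) := by linarith
  have x2 : (0 : ℝ) ≤ 2 - t := by linarith
  have pos : 0 ≤ (59049 / 10000000000 : ℝ) * (4 * pQ t * (pR t + 2 / 5 * pK t) - pL t ^ 2) := by rw [key]; positivity
  exact nonneg_of_mul_nonneg_right pos (by norm_num)


/-- `Hsp` on the edge `max a b = 1`, with `e = 2 - s`, bounded below by a cubic in `e`. -/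
theorem Hsp_one_ge {t e : ℝ} (he : 0 ≤ e) (he1 : e ≤ 1) :
    pQ t * (2 - t) ^ 2 - e * (2 - t) * pL t + (pR t + pK t * (1 - e)) * e ^ 2
      ≤ Hsp t (2 - e) (1 - e) := by
  have key : Hsp t (2 - e) (1 - e) - (pQ t * (2 - t) ^ 2 - e * (2 - t) * pL t
      + (pR t + pK t * (1 - e)) * e ^ 2)
      = e ^ 2 * (1 - e) * (e * (5680 - 4800 * e + 960 * e ^ 2)) := by
    simp only [Hsp, Wsp, pQ, pL, pR, pK]; ring
  have : 0 ≤ e ^ 2 * (1 - e) * (e * (5680 - 4800 * e + 960 * e ^ 2)) := by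
    have : 0 ≤ 5680 - 4800 * e + 960 * e ^ 2 := by nlinarith
    have : 0 ≤ 1 - e := by linarith
    positivity
  linarith

theorem cubic_nonneg {q u l R e : ℝ} (hR : 0 < R) (hd : 0 ≤ 4 * q * R - l ^ 2) :
    0 ≤ q * u ^ 2 - e * u * l + R * e ^ 2 := by
  nlinarith [sq_nonneg (2 * R * e - l * u), mul_nonneg hd (sq_nonneg u)]

theorem edge_nonneg {t e : ℝ} (ht : 0 ≤ t) (he : 0 ≤ e) (he1 : e ≤ 1) :
    0 ≤ pQ t * (2 - t) ^ 2 - e * (2 - t) * pL t + (pR t + pK t * (1 - e)) * e ^ 2 := by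
  have hQ : 0 ≤ pQ t := by unfold pQ; positivity
  have hL : 0 ≤ pL t := by unfold pL; positivity
  have hK : 0 ≤ pK t := by unfold pK; positivity
  have hR : 0 < pR t := by
    unfold pR
    rcases le_total t 2 with h | h
    · nlinarith [pow_le_pow_left₀ ht h 3, pow_nonneg ht 4, pow_nonneg ht 5]
    · nlinarith [mul_nonneg (sub_nonneg.2 h) (pow_nonneg ht 3), pow_nonneg ht 5, pow_nonneg ht 3]
  have h1e : 0 ≤ 1 - e := by linarith
  rcases le_total 2 t with h2 | h2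
  · have : 0 ≤ e * (t - 2) * pL t := by positivity
    have : 0 ≤ pQ t * (2 - t) ^ 2 := by positivity
    have : 0 ≤ (pR t + pK t * (1 - e)) * e ^ 2 := by positivity
    linarith
  rcases le_total t (1 / 2) with ha | ha
  · -- convexity: the tangent at `e = 1`
    have key : pQ t * (2 - t) ^ 2 - e * (2 - t) * pL t + (pR t + pK t * (1 - e)) * e ^ 2
        = (pQ t * (2 - t) ^ 2 - (2 - t) * pL t + pR t)
          + (1 - e) * (((2 - t) * pL t - 2 * pR t + pK t))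
          + (1 - e) ^ 2 * (pR t - 2 * pK t + (1 - e) * pK t) := by ring
    have t3 : t ^ 3 ≤ 1 / 8 := by
      have := pow_le_pow_left₀ ht ha 3; norm_num at this; linarith
    have t4 : t ^ 4 ≤ 1 / 16 := by
      have := pow_le_pow_left₀ ht ha 4; norm_num at this; linarith
    have t5 : t ^ 5 ≤ 1 / 32 := by
      have := pow_le_pow_left₀ ht ha 5; norm_num at this; linarith
    have f1 : 0 ≤ pQ t * (2 - t) ^ 2 - (2 - t) * pL t + pR t := by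
      have k1 : pQ t * (2 - t) ^ 2 - (2 - t) * pL t + pR t = 7 * t ^ 3 * Wsp t 1 0 := by
        simp only [pQ, pL, pR, Wsp]; ring
      rw [k1]
      exact mul_nonneg (by positivity) (Wsp_zero ht (by norm_num) le_rfl).le
    have d1 : 0 ≤ (2 - t) * pL t - 2 * pR t + pK t := by
      have l0 : (19040 : ℝ) + 3220 * t ≤ pL t := by
        unfold pL; nlinarith [pow_nonneg ht 2, pow_nonneg ht 3, pow_nonneg ht 4, pow_nonneg ht 5]
      have : (2 - t) * (19040 + 3220 * t) ≤ (2 - t) * pL t :=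
        mul_le_mul_of_nonneg_left l0 (by linarith)
      unfold pR pK
      nlinarith [pow_nonneg ht 3, pow_nonneg ht 4, pow_nonneg ht 5]
    have c2 : 0 ≤ pR t - 2 * pK t + (1 - e) * pK t := by
      have : 0 ≤ pR t - 2 * pK t := by
        unfold pR pK; nlinarith [pow_nonneg ht 3, pow_nonneg ht 4, pow_nonneg ht 5]
      nlinarith [mul_nonneg h1e hK]
    rw [key]; positivity
  rcases le_total t (17 / 10) with hb | hb
  · have := cubic_nonneg (u := 2 - t) (e := e) hR (disc_mid ha hb)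
    nlinarith [mul_nonneg (mul_nonneg hK h1e) (sq_nonneg e)]
  rcases le_total e (3 / 5) with he2 | he2
  · have := cubic_nonneg (u := 2 - t) (e := e)
      (by positivity : 0 < pR t + 2 / 5 * pK t) (disc_top hb h2)
    have : 0 ≤ pK t * (3 / 5 - e) * e ^ 2 := by
      have : 0 ≤ 3 / 5 - e := by linarith
      positivity
    nlinarith
  · have hl : (2 - t) * pL t ≤ 3 / 5 * pR t := by
      have l1 : pL t ≤ 71512 := by
        unfold pL; nlinarith [pow_le_pow_left₀ ht h2 2, pow_le_pow_left₀ ht h2 3,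
          pow_le_pow_left₀ ht h2 4, pow_le_pow_left₀ ht h2 5]
      unfold pR pL
      nlinarith [mul_nonneg (sub_nonneg.2 hb) (sub_nonneg.2 h2), pow_nonneg ht 3,
        mul_nonneg (sub_nonneg.2 hb) (pow_nonneg ht 4), mul_nonneg (sub_nonneg.2 hb) (pow_nonneg ht 3)]
    have : e * ((2 - t) * pL t) ≤ e * (e * pR t) :=
      mul_le_mul_of_nonneg_left (hl.trans (mul_le_mul_of_nonneg_right he2 hR.le)) he
    nlinarith [mul_nonneg (mul_nonneg hK h1e) (sq_nonneg e), mul_nonneg hQ (sq_nonneg (2 - t))]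

theorem Hsp_one {t s : ℝ} (ht : 0 ≤ t) (hs : 1 ≤ s) (hs2 : s ≤ 2) :
    0 ≤ Hsp t s (s - 1) := by
  have := (edge_nonneg ht (e := 2 - s) (by linarith) (by linarith)).trans
    (Hsp_one_ge (t := t) (by linarith) (by linarith))
  simpa [sub_sub_cancel, show (1 : ℝ) - (2 - s) = s - 1 by ring] using this

/-- A cubic which is concave on an interval is above its values at the ends. -/
theorem cubic_ge_ends {c0 c1 c2 c3 lo hi p : ℝ} (h1 : lo ≤ p) (h2 : p ≤ hi)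
    (hc : c2 + c3 * (p + lo + hi) ≤ 0)
    (hlo : 0 ≤ c0 + c1 * lo + c2 * lo ^ 2 + c3 * lo ^ 3)
    (hhi : 0 ≤ c0 + c1 * hi + c2 * hi ^ 2 + c3 * hi ^ 3) :
    0 ≤ c0 + c1 * p + c2 * p ^ 2 + c3 * p ^ 3 := by
  rcases (h1.trans h2).lt_or_eq with h | h
  · have key : (hi - lo) * (c0 + c1 * p + c2 * p ^ 2 + c3 * p ^ 3) =
        (hi - p) * (c0 + c1 * lo + c2 * lo ^ 2 + c3 * lo ^ 3)
        + (p - lo) * (c0 + c1 * hi + c2 * hi ^ 2 + c3 * hi ^ 3)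
        + (p - lo) * (hi - p) * (hi - lo) * (-(c2 + c3 * (p + lo + hi))) := by ring
    have x1 : 0 ≤ hi - p := by linarith
    have x2 : 0 ≤ p - lo := by linarith
    have x3 : 0 ≤ hi - lo := by linarith
    have x4 : 0 ≤ -(c2 + c3 * (p + lo + hi)) := by linarith
    have : 0 ≤ (hi - lo) * (c0 + c1 * p + c2 * p ^ 2 + c3 * p ^ 3) := by rw [key]; positivity
    exact nonneg_of_mul_nonneg_right this (by linarith)
  · obtain rfl : p = lo := by linarith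
    exact hlo

theorem sp_bounds {a b : ℝ} (ha : a ∈ Set.Icc (0 : ℝ) 1) (hb : b ∈ Set.Icc (0 : ℝ) 1) :
    max 0 (a + b - 1) ≤ a * b ∧ a * b ≤ (a + b) ^ 2 / 4 :=
  ⟨max_le (mul_nonneg ha.1 hb.1)
    (by nlinarith [mul_nonneg (sub_nonneg.2 ha.2) (sub_nonneg.2 hb.2)]),
    by nlinarith [sq_nonneg (a - b)]⟩

theorem Wsp_nonneg {t s p : ℝ} (ht : 0 ≤ t) (hs : 0 ≤ s) (hs2 : s ≤ 2)
    (h1 : max 0 (s - 1) ≤ p) (h2 : p ≤ s ^ 2 / 4) : 0 ≤ Wsp t s p := by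
  have e : ∀ p, Wsp t s p = (393 / 7 * t ^ 4 - 98 * s * t ^ 3 + (140 + 28 * s ^ 2) * t ^ 2
      - 175 * s * t + 150 + 40 * s ^ 2) + (-56 * t ^ 2 + 140 * s * t - 160 + 40 * s ^ 2) * p
      + (-240) * p ^ 2 + 0 * p ^ 3 := fun p => by simp only [Wsp]; ring
  rw [e]
  refine cubic_ge_ends h1 h2 (by linarith) ?_ ?_
  · rw [← e]
    rcases le_total s 1 with h | h
    · rw [max_eq_left (by linarith)]; exact (Wsp_zero ht hs h).le
    · rw [max_eq_right (by linarith)]; exact (Wsp_one ht h hs2).le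
  · rw [← e]; exact (Wsp_diag ht hs hs2).le

theorem Hsp_nonneg {t s p : ℝ} (ht : 0 ≤ t) (hs : 0 ≤ s) (hs2 : s ≤ 2)
    (h1 : max 0 (s - 1) ≤ p) (h2 : p ≤ s ^ 2 / 4) : 0 ≤ Hsp t s p := by
  have e : ∀ p, Hsp t s p = 7 * t ^ 3 * Wsp t s 0
      + (7 * t ^ 3 * (-56 * t ^ 2 + 140 * s * t - 160 + 40 * s ^ 2)
        + 8400 * s + 3920 * s ^ 3 - 960 * s ^ 5 - 12600 * t) * p
      + (-1680 * t ^ 3 - 11760 * s + 4800 * s ^ 3) * p ^ 2 + (-4800 * s) * p ^ 3 := fun p => by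
    simp only [Hsp, Wsp]; ring
  rw [e]
  refine cubic_ge_ends h1 h2 ?_ ?_ ?_
  · have t3 := pow_nonneg ht 3
    rcases le_total s 1 with h | h
    · rw [max_eq_left (by linarith : s - 1 ≤ 0)] at h1 ⊢
      have : s ^ 3 ≤ s := by nlinarith [mul_nonneg hs (mul_nonneg (sub_nonneg.2 h) (by linarith : (0:ℝ) ≤ 1 + s))]
      nlinarith [mul_nonneg hs (by nlinarith : (0 : ℝ) ≤ p + 0 + s ^ 2 / 4)]
    · rw [max_eq_right (by linarith : (0 : ℝ) ≤ s - 1)] at h1 ⊢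
      have m : 0 ≤ p + (s - 1) + s ^ 2 / 4 - (2 * (s - 1) + s ^ 2 / 4) := by linarith
      have : 3600 * s ^ 2 - 9600 * s - 2160 ≤ 0 := by nlinarith
      nlinarith [mul_nonneg hs m, mul_nonneg hs (neg_nonneg.2 this)]
  · rw [← e]
    rcases le_total s 1 with h | h
    · rw [max_eq_left (by linarith)]
      simp only [Hsp, zero_mul, add_zero]
      exact mul_nonneg (by positivity) (Wsp_zero ht hs h).le
    · rw [max_eq_right (by linarith)]; exact Hsp_one ht h hs2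
  · rw [← e]; exact Hsp_diag ht hs hs2

theorem W_eq_Wsp {t a b : ℝ} (ha : 0 ≤ a) (hb : 0 ≤ b) : W t a b = Wsp t (a + b) (a * b) := by
  simp only [W, Wsp, abs_of_nonneg (mul_nonneg ha hb)]; ring

/-- `Q ≥ 0` for all signed cosines. -/
theorem W_nonneg {t a b : ℝ} (ht : 0 ≤ t) (ha : a ∈ Set.Icc (-1 : ℝ) 1)
    (hb : b ∈ Set.Icc (-1 : ℝ) 1) : 0 ≤ W t a b := by
  have A : |a| ∈ Set.Icc (0 : ℝ) 1 := ⟨abs_nonneg a, abs_le.2 ha⟩
  have B : |b| ∈ Set.Icc (0 : ℝ) 1 := ⟨abs_nonneg b, abs_le.2 hb⟩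
  obtain ⟨h1, h2⟩ := sp_bounds A B
  have h := Wsp_nonneg ht (add_nonneg A.1 B.1) (by linarith [A.2, B.2]) h1 h2
  rw [← W_eq_Wsp A.1 B.1] at h
  refine h.trans ?_
  have a2 : |a| ^ 2 = a ^ 2 := sq_abs a
  have b2 : |b| ^ 2 = b ^ 2 := sq_abs b
  have a5 : 0 ≤ 5 - 4 * b ^ 2 := by nlinarith [B.1, B.2]
  have b5 : 0 ≤ 5 - 4 * a ^ 2 := by nlinarith [A.1, A.2]
  have i1 := mul_le_mul_of_nonneg_right (le_abs_self a) a5
  have i2 := mul_le_mul_of_nonneg_right (le_abs_self b) b5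
  have j : a * (5 - 4 * b ^ 2) + b * (5 - 4 * a ^ 2)
      ≤ |a| * (5 - 4 * b ^ 2) + |b| * (5 - 4 * a ^ 2) := by linarith
  have k := mul_le_mul_of_nonneg_left j ht
  have l := mul_le_mul_of_nonneg_left (add_le_add (le_abs_self a) (le_abs_self b)) (pow_nonneg ht 3)
  have m : |(|a| * |b|)| = |a * b| := by rw [← abs_mul, abs_abs]
  have n : (|a| * |b|) ^ 2 = (a * b) ^ 2 := by rw [mul_pow, a2, b2, mul_pow]
  simp only [W, a2, b2, m, n]
  linear_combination (98 : ℝ) * l + 35 * k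
    + (35 * t * 4 * |a|) * b2 + (35 * t * 4 * |b|) * a2

/-- The weight. -/
noncomputable def F (t u : ℝ) : ℝ := (25 + 14 * t ^ 2 - 20 * u ^ 2) / (900 * t ^ 3)

/-- Its derivative in `t`. -/
noncomputable def Ft (t u : ℝ) : ℝ := -(75 + 14 * t ^ 2 - 60 * u ^ 2) / (900 * t ^ 4)

/-- Its derivative in `u`. -/
noncomputable def Fu (t u : ℝ) : ℝ := -(40 * u) / (900 * t ^ 3)

theorem hasDerivAt_Ft {t u : ℝ} (ht : t ≠ 0) : HasDerivAt (fun r => F r u) (Ft t u) t := by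
  have h := ((((hasDerivAt_id' t).pow 2).const_mul 14).const_add 25).sub_const (20 * u ^ 2)
  have g := ((hasDerivAt_id' t).pow 3).const_mul 900
  refine (h.div g (by simp [ht])).congr_deriv ?_
  simp only [Ft, Pi.pow_apply]; field_simp; ring

theorem hasDerivAt_Fu {t u : ℝ} : HasDerivAt (fun v => F t v) (Fu t u) u := by
  have h := ((((hasDerivAt_id' u).pow 2).const_mul 20).const_sub (25 + 14 * t ^ 2)).div_const
    (900 * t ^ 3)
  refine h.congr_deriv ?_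
  simp only [Fu]; ring

theorem F_pos {t u : ℝ} (ht : 0 < t) (hu : u ∈ Set.Icc (-1 : ℝ) 1) : 0 < F t u := by
  have : 20 * u ^ 2 ≤ 20 := by nlinarith [hu.1, hu.2]
  exact div_pos (by nlinarith) (by positivity)

/-- The variation kernel of a two-argument weight in dimension `8`. -/
noncomputable def K (t a u : ℝ) : ℝ :=
  Ft t u * (1 - a ^ 2) + F t u * ((6 + a ^ 2) / t - 7 * a)
    - |Fu t u| * |a| * (1 - (a ^ 2 + u ^ 2) / 2) / t

/-- The pair kernel. -/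
noncomputable def Q (t a b : ℝ) : ℝ := 131 / 4200 + (K t a b + K t b a) / 2

theorem Q_eq {t a b : ℝ} (ht : 0 < t) : 1800 * t ^ 4 * Q t a b = W t a b := by
  have e : ∀ x y : ℝ, |Fu t y| * |x| = 40 * |a * b| / (900 * t ^ 3) ↔ |y| * |x| = |a * b| := by
    intro x y
    have : |Fu t y| * |x| = 40 * (|y| * |x|) / (900 * t ^ 3) := by
      rw [Fu, abs_div, abs_neg, abs_mul, abs_of_pos (by positivity : (0 : ℝ) < 900 * t ^ 3),
        abs_of_nonneg (by norm_num : (0 : ℝ) ≤ 40)]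
      ring
    rw [this, div_left_inj' (by positivity)]
    constructor <;> intro h <;> linarith
  simp only [Q, K, (e a b).2 (by rw [abs_mul, mul_comm]), (e b a).2 (by rw [abs_mul]), W]
  unfold F Ft
  field_simp
  ring

theorem Q_nonneg {t a b : ℝ} (ht : 0 < t) (ha : a ∈ Set.Icc (-1 : ℝ) 1)
    (hb : b ∈ Set.Icc (-1 : ℝ) 1) : 0 ≤ Q t a b := by
  have := W_nonneg ht.le ha hb
  rw [← Q_eq ht] at this
  exact nonneg_of_mul_nonneg_right this (by positivity)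

/-- The pointwise certificate, with equality at `a = b = t/2`. -/
theorem cert {t a b : ℝ} (ht : 0 < t) (ha : a ∈ Set.Ioc (0 : ℝ) 1) (hb : b ∈ Set.Ioc (0 : ℝ) 1) :
    t ≤ t ^ 7 / (a * b) * Q t a b + phi a + phi b := by
  have A : a ∈ Set.Icc (0 : ℝ) 1 := ⟨ha.1.le, ha.2⟩
  have B : b ∈ Set.Icc (0 : ℝ) 1 := ⟨hb.1.le, hb.2⟩
  obtain ⟨h1, h2⟩ := sp_bounds A B
  have h := Hsp_nonneg ht.le (add_nonneg A.1 B.1) (by linarith [A.2, B.2]) h1 h2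
  have key : Hsp t (a + b) (a * b)
      = 12600 * (a * b) * (t ^ 7 / (a * b) * Q t a b + phi a + phi b - t) := by
    have hq : t ^ 7 / (a * b) * Q t a b = t ^ 3 * W t a b / (1800 * (a * b)) := by
      rw [← Q_eq ht]
      have := ha.1.ne'; have := hb.1.ne'
      field_simp
    rw [hq, W_eq_Wsp A.1 B.1]
    have := ha.1.ne'; have := hb.1.ne'
    simp only [Hsp, phi]
    field_simp
    ring
  rw [key] at h
  have := mul_pos ha.1 hb.1
  linarith [nonneg_of_mul_nonneg_right h (by positivity : (0 : ℝ) < 12600 * (a * b))]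

theorem phi_nonneg {c : ℝ} (h0 : 0 ≤ c) (h1 : c ≤ 1) : 0 ≤ phi c := by
  have : c ^ 2 ≤ 1 := by nlinarith
  have e : phi c = c * (2 / 3 + c ^ 2 * (14 / 45 - 8 / 105 * c ^ 2)) := by simp only [phi]; ring
  rw [e]
  have : 0 ≤ 14 / 45 - 8 / 105 * c ^ 2 := by linarith
  positivity

end Vale.Agent.P219.Poly8
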