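import Vale.Agent.P219.Aniso
import Vale.Agent.P219.Poly8
import Vale.Agent.P219.Cert
import Vale.Agent.P219.Cert.Marginal
import Vale.Agent.P219.Lines.Moments
import Vale.Agent.P219.Var.BandsTools

/-!
# P219: the calibration in dimension eight

`F(t,u) = (25+14t²-20u²)/(900t³)`, `α = 131/4200`, cut off by a smooth step on `[η,2η]`.
The step is increasing, so it only adds to the kernel.
-/

open MeasureTheory Set Filter Topology

namespace Vale.Agent.P219

namespace Eight

noncomputable def wt (η t : ℝ) : ℝ := stepFun ((t - η) / η)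

noncomputable def dwt (η t : ℝ) : ℝ := Bands.stepDeriv ((t - η) / η) / η

noncomputable def g (t u : ℝ) : ℝ := (25 + 14 * t ^ 2 - 20 * u ^ 2) / (900 * t ^ 4)

noncomputable def gt (t u : ℝ) : ℝ := -(100 + 28 * t ^ 2 - 80 * u ^ 2) / (900 * t ^ 5)

noncomputable def gu (t u : ℝ) : ℝ := -(40 * u) / (900 * t ^ 4)

variable {η t u : ℝ}

theorem wt_of_le (hη : 0 < η) (h : t ≤ η) : wt η t = 0 :=
  Bands.stepFun_of_nonpos (div_nonpos_of_nonpos_of_nonneg (by linarith) hη.le)

theorem dwt_of_le (hη : 0 < η) (h : t ≤ η) : dwt η t = 0 := by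
  have : (t - η) / η ≤ 0 := div_nonpos_of_nonpos_of_nonneg (by linarith) hη.le
  simp [dwt, Bands.stepDeriv, max_eq_left ((min_le_right (1 : ℝ) _).trans this)]

theorem wt_of_ge (hη : 0 < η) (h : 2 * η ≤ t) : wt η t = 1 :=
  Bands.stepFun_of_one_le (by rw [le_div_iff₀ hη]; linarith)

theorem hasDerivAt_wt (η t : ℝ) : HasDerivAt (wt η) (dwt η t) t := by
  have h := (Bands.hasDerivAt_stepFun ((t - η) / η)).comp t
    (((hasDerivAt_id' t).sub_const η).div_const η)
  simpa [wt, dwt, Function.comp_def, div_eq_mul_inv] using! h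

theorem hasFDerivAt_g (ht : t ≠ 0) :
    HasFDerivAt (fun p : ℝ × ℝ => g p.1 p.2)
      (gt t u • ContinuousLinearMap.fst ℝ ℝ ℝ + gu t u • ContinuousLinearMap.snd ℝ ℝ ℝ) (t, u) := by
  have h1 : HasFDerivAt (fun p : ℝ × ℝ => p.1) (ContinuousLinearMap.fst ℝ ℝ ℝ) (t, u) :=
    hasFDerivAt_fst
  have h2 : HasFDerivAt (fun p : ℝ × ℝ => p.2) (ContinuousLinearMap.snd ℝ ℝ ℝ) (t, u) :=
    hasFDerivAt_snd
  have a : HasDerivAt (fun r : ℝ => (25 + 14 * r ^ 2) / (900 * r ^ 4))
      (-(100 + 28 * t ^ 2) / (900 * t ^ 5)) t := by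
    refine (((((hasDerivAt_id' t).pow 2).const_mul (14 : ℝ)).const_add 25).div
      (((hasDerivAt_id' t).pow 4).const_mul (900 : ℝ)) (by simp [ht])).congr_deriv ?_
    simp only [Pi.pow_apply]
    field_simp
    ring
  have b : HasDerivAt (fun r : ℝ => (20 : ℝ) / (900 * r ^ 4)) (-80 / (900 * t ^ 5)) t := by
    refine ((hasDerivAt_const t (20 : ℝ)).div
      (((hasDerivAt_id' t).pow 4).const_mul (900 : ℝ)) (by simp [ht])).congr_deriv ?_
    simp only [Pi.pow_apply]
    field_simp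
    ring
  have h := (a.comp_hasFDerivAt (t, u) h1).sub
    ((b.comp_hasFDerivAt (t, u) h1).mul
      ((hasDerivAt_pow 2 u).comp_hasFDerivAt (t, u) h2))
  refine (h.congr_of_eventuallyEq (Eventually.of_forall fun p => ?_)).congr_fderiv ?_
  · simp only [g, Pi.sub_apply, Pi.mul_apply, Function.comp_apply]; ring
  · ext <;> simp [gt, gu] <;> ring

noncomputable def f (η t u : ℝ) : ℝ := wt η t * g t u

noncomputable def ft (η t u : ℝ) : ℝ := dwt η t * g t u + wt η t * gt t u

noncomputable def fu (η t u : ℝ) : ℝ := wt η t * gu t u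

theorem hasFDerivAt_f (hη : 0 < η) (t u : ℝ) :
    HasFDerivAt (fun p : ℝ × ℝ => f η p.1 p.2)
      (ft η t u • ContinuousLinearMap.fst ℝ ℝ ℝ + fu η t u • ContinuousLinearMap.snd ℝ ℝ ℝ)
      (t, u) := by
  rcases lt_or_ge t η with h | h
  · have e : (fun p : ℝ × ℝ => f η p.1 p.2) =ᶠ[𝓝 (t, u)] fun _ => (0 : ℝ) :=
      eventually_of_mem ((isOpen_Iio.preimage continuous_fst).mem_nhds h) fun p hp => by
        simp [f, wt_of_le hη (le_of_lt hp)]
    refine ((hasFDerivAt_const (0 : ℝ) (t, u)).congr_of_eventuallyEq e).congr_fderiv ?_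
    simp [ft, fu, wt_of_le hη h.le, dwt_of_le hη h.le]
  · have h1 : HasFDerivAt (fun p : ℝ × ℝ => p.1) (ContinuousLinearMap.fst ℝ ℝ ℝ) (t, u) :=
      hasFDerivAt_fst
    have hw := (hasDerivAt_wt η t).comp_hasFDerivAt (t, u) h1
    have hg := hasFDerivAt_g (u := u) (hη.trans_le h).ne'
    refine ((hw.mul hg).congr_of_eventuallyEq (Eventually.of_forall fun p => ?_)).congr_fderiv ?_
    · simp [f]
    · ext <;> simp [ft, fu] <;> ring

theorem ft_eq_max (hη : 0 < η) (t u : ℝ) :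
    ft η t u = dwt η t * g (max t η) u + wt η t * gt (max t η) u := by
  rcases le_total t η with h | h
  · simp [ft, wt_of_le hη h, dwt_of_le hη h]
  · rw [max_eq_left h]; rfl

theorem fu_eq_max (hη : 0 < η) (t u : ℝ) : fu η t u = wt η t * gu (max t η) u := by
  rcases le_total t η with h | h
  · simp [fu, wt_of_le hη h]
  · rw [max_eq_left h]; rfl

theorem continuous_wt (η : ℝ) : Continuous (wt η) :=
  Bands.continuous_stepFun.comp (by fun_prop)

theorem continuous_dwt (η : ℝ) : Continuous (dwt η) :=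
  (Bands.continuous_stepDeriv.comp (by fun_prop)).div_const _

theorem continuous_ft (hη : 0 < η) : Continuous fun p : ℝ × ℝ => ft η p.1 p.2 := by
  simp only [ft_eq_max hη]
  have hm : ∀ p : ℝ × ℝ, max p.1 η ≠ 0 := fun p => (lt_max_of_lt_right hη).ne'
  refine (((continuous_dwt η).comp continuous_fst).mul ?_).add
    (((continuous_wt η).comp continuous_fst).mul ?_)
  · exact Continuous.div (by fun_prop) (by fun_prop) fun p => by simp [hm p]
  · exact Continuous.div (by fun_prop) (by fun_prop) fun p => by simp [hm p]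

theorem continuous_fu (hη : 0 < η) : Continuous fun p : ℝ × ℝ => fu η p.1 p.2 := by
  simp only [fu_eq_max hη]
  exact ((continuous_wt η).comp continuous_fst).mul
    (Continuous.div (by fun_prop) (by fun_prop) fun p => by simp [(lt_max_of_lt_right hη).ne'])

theorem stepDeriv_le (x : ℝ) : Bands.stepDeriv x ≤ 3 / 2 := by
  unfold Bands.stepDeriv
  nlinarith [sq_nonneg (max 0 (min 1 x) - 1 / 2)]

theorem frac_le {T a b : ℝ} (hη : 0 < η) (h1 : η ≤ 1) (hT : η ≤ T) (ha : 0 ≤ a) (hb : 0 ≤ b)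
    (k : ℕ) : (a + b * T ^ 2) / T ^ (k + 2) ≤ (a + b) / η ^ (k + 2) := by
  have hT0 := hη.trans_le hT
  rw [add_div, add_div]
  refine add_le_add (div_le_div_of_nonneg_left ha (by positivity) (by gcongr)) ?_
  rw [show b * T ^ 2 / T ^ (k + 2) = b / T ^ k by rw [pow_add]; field_simp]
  refine div_le_div_of_nonneg_left hb (by positivity) ?_
  calc η ^ (k + 2) ≤ η ^ k := pow_le_pow_of_le_one hη.le h1 (by omega)
    _ ≤ T ^ k := by gcongr

/-- Bounds on `[η,∞)`. -/
theorem g_bounds (hη : 0 < η) (h1 : η ≤ 1) (hT : η ≤ t) (hu : u ∈ Icc (-1 : ℝ) 1) :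
    0 ≤ g t u ∧ g t u ≤ 1 / η ^ 5 ∧ t * g t u ≤ 1 / η ^ 4 ∧ |t * gt t u| ≤ 1 / η ^ 5 ∧
      |gu t u| ≤ 1 / η ^ 5 := by
  have ht := hη.trans_le hT
  have hu2 : u ^ 2 ≤ 1 := by nlinarith [hu.1, hu.2]
  have hu0 := sq_nonneg u
  have ht2 := sq_nonneg t
  have p54 : 1 / η ^ 4 ≤ 1 / η ^ 5 :=
    one_div_le_one_div_of_le (by positivity) (pow_le_pow_of_le_one hη.le h1 (by omega))
  have p34 : 1 / η ^ 3 ≤ 1 / η ^ 4 :=
    one_div_le_one_div_of_le (by positivity) (pow_le_pow_of_le_one hη.le h1 (by omega))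
  have i4 : 1 / t ^ 4 ≤ 1 / η ^ 4 := one_div_le_one_div_of_le (by positivity) (by gcongr)
  have pos4 : 0 ≤ 1 / η ^ 4 := by positivity
  have pos3 : 0 ≤ 1 / η ^ 3 := by positivity
  have a4 : g t u ≤ 1 / η ^ 4 := by
    calc g t u ≤ (25 + 14 * t ^ 2) / t ^ (2 + 2) / 900 := by
          rw [g, div_div, mul_comm (t ^ (2 + 2))]; gcongr; linarith
      _ ≤ (25 + 14) / η ^ (2 + 2) / 900 := by
          exact div_le_div_of_nonneg_right (frac_le hη h1 hT (by norm_num) (by norm_num) 2)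
            (by norm_num)
      _ ≤ 1 / η ^ 4 := by
          rw [div_div, mul_comm, ← div_div]; gcongr; norm_num
  refine ⟨div_nonneg (by linarith) (by positivity), a4.trans p54, ?_, ?_, ?_⟩
  · calc t * g t u ≤ (25 + 14 * t ^ 2) / t ^ (1 + 2) / 900 := by
          rw [g, div_div, ← mul_div_assoc, div_le_div_iff₀ (by positivity) (by positivity),
            show t ^ (1 + 2) = t ^ 3 from rfl]
          nlinarith [mul_nonneg (pow_nonneg ht.le 5) hu0, mul_nonneg (pow_nonneg ht.le 4) hu0]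
      _ ≤ (25 + 14) / η ^ (1 + 2) / 900 :=
          div_le_div_of_nonneg_right (frac_le hη h1 hT (by norm_num) (by norm_num) 1) (by norm_num)
      _ ≤ 1 / η ^ 4 := by
          rw [div_div, mul_comm, ← div_div]
          refine le_trans ?_ p34
          gcongr; norm_num
  · have e : t * gt t u = -((100 + 28 * t ^ 2 - 80 * u ^ 2) / (900 * t ^ 4)) := by
      rw [gt]; field_simp
    rw [e, abs_neg, abs_of_nonneg (div_nonneg (by linarith) (by positivity))]
    calc _ ≤ (100 + 28 * t ^ 2) / t ^ (2 + 2) / 900 := by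
          rw [div_div, mul_comm (t ^ (2 + 2))]; gcongr; linarith
      _ ≤ (100 + 28) / η ^ (2 + 2) / 900 :=
          div_le_div_of_nonneg_right (frac_le hη h1 hT (by norm_num) (by norm_num) 2) (by norm_num)
      _ ≤ 1 / η ^ 4 := by
          rw [div_div, mul_comm, ← div_div]; gcongr; norm_num
      _ ≤ 1 / η ^ 5 := p54
  · have : |gu t u| = 40 / 900 * |u| * (1 / t ^ 4) := by
      rw [gu, abs_div, abs_neg, abs_mul, abs_of_pos (by norm_num : (0 : ℝ) < 40),
        abs_of_pos (by positivity : (0 : ℝ) < 900 * t ^ 4)]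
      ring
    rw [this]
    calc _ ≤ 1 * (1 / η ^ 4) := by
          refine mul_le_mul ?_ i4 (by positivity) zero_le_one
          linarith [abs_le.2 hu, abs_nonneg u]
      _ ≤ 1 / η ^ 5 := by rw [one_mul]; exact p54

/-- The weight. -/
noncomputable def aniso (η : ℝ) (hη : 0 < η) (h1 : η ≤ 1) : Aniso where
  f := f η
  ft := ft η
  fu := fu η
  hasDeriv := hasFDerivAt_f hη
  cont_ft := continuous_ft hη
  cont_fu := continuous_fu hη
  f_nonneg := fun t u _ hu => by
    rcases le_total t η with h | h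
    · simp [f, wt_of_le hη h]
    · exact mul_nonneg (Bands.stepFun_nonneg _) (g_bounds hη h1 h hu).1
  flat := ⟨η, hη, fun t u h => by simp [fu, wt_of_le hη h.le]⟩
  bdd := ⟨3 / η ^ 5, fun t u ht hu => by
    rcases le_total t η with h | h
    · have : (0 : ℝ) ≤ 3 / η ^ 5 := by positivity
      simp [f, ft, fu, wt_of_le hη h, dwt_of_le hη h, this]
    · obtain ⟨a0, a1, a2, a3, a4⟩ := g_bounds hη h1 h hu
      have w0 : 0 ≤ wt η t := Bands.stepFun_nonneg _
      have w1 : wt η t ≤ 1 := Bands.stepFun_le_one _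
      have d0 : 0 ≤ dwt η t := div_nonneg (Bands.stepDeriv_nonneg _) hη.le
      have d1 : dwt η t ≤ 3 / 2 / η := by
        unfold dwt; gcongr; exact stepDeriv_le _
      have p : 0 ≤ 1 / η ^ 5 := by positivity
      have p54 : 1 / η ^ 4 ≤ 1 / η ^ 5 :=
        one_div_le_one_div_of_le (by positivity) (pow_le_pow_of_le_one hη.le h1 (by omega))
      have three : (3 : ℝ) / η ^ 5 = 3 * (1 / η ^ 5) := by ring
      refine ⟨?_, ?_, ?_, ?_⟩
      · rw [f, abs_of_nonneg (mul_nonneg w0 a0)]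
        nlinarith [mul_le_mul w1 a1 a0 zero_le_one]
      · rw [f, abs_of_nonneg (mul_nonneg ht (mul_nonneg w0 a0))]
        nlinarith [mul_le_mul w1 a2 (mul_nonneg ht a0) zero_le_one]
      · have e1 : dwt η t * (t * g t u) ≤ 3 / 2 * (1 / η ^ 5) := by
          calc dwt η t * (t * g t u) ≤ 3 / 2 / η * (1 / η ^ 4) :=
                mul_le_mul d1 a2 (mul_nonneg ht a0) (by positivity)
            _ = 3 / 2 * (1 / η ^ 5) := by field_simp
        have e2 : |wt η t * (t * gt t u)| ≤ 1 / η ^ 5 := by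
          rw [abs_mul, abs_of_nonneg w0]
          simpa using mul_le_mul w1 a3 (abs_nonneg _) zero_le_one
        have e : t * ft η t u = dwt η t * (t * g t u) + wt η t * (t * gt t u) := by
          unfold ft; ring
        rw [e]
        refine (abs_add_le _ _).trans ?_
        rw [abs_of_nonneg (mul_nonneg d0 (mul_nonneg ht a0))]
        linarith
      · rw [fu, abs_mul, abs_of_nonneg w0]
        nlinarith [mul_le_mul w1 a4 (abs_nonneg _) zero_le_one]⟩

theorem K_ge (hη : 0 < η) (h1 : η ≤ 1) (ht : 0 < t) {c : ℝ} (hc : c ∈ Icc (-1 : ℝ) 1)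
    (hu : u ∈ Icc (-1 : ℝ) 1) : wt η t * Poly8.K t c u ≤ (aniso η hη h1).K 8 t c u := by
  have w0 : 0 ≤ wt η t := Bands.stepFun_nonneg _
  have d0 : 0 ≤ dwt η t := div_nonneg (Bands.stepDeriv_nonneg _) hη.le
  have hc1 : 0 ≤ 1 - c ^ 2 := by nlinarith [hc.1, hc.2]
  have hu1 : 0 ≤ 1 - u ^ 2 := by nlinarith [hu.1, hu.2]
  have hg0 : 0 ≤ g t u := div_nonneg (by nlinarith [sq_nonneg t]) (by positivity)
  have hs : Real.sqrt ((1 - u ^ 2) * (1 - c ^ 2)) ≤ 1 - (c ^ 2 + u ^ 2) / 2 := by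
    rw [Real.sqrt_le_iff]
    exact ⟨by linarith, by nlinarith [sq_nonneg (c ^ 2 - u ^ 2)]⟩
  have e1 : Poly8.F t u = t * g t u := by unfold Poly8.F g; field_simp
  have e2 : Poly8.Ft t u = g t u + t * gt t u := by unfold Poly8.Ft g gt; field_simp; ring
  have e3 : |Poly8.Fu t u| / t = |gu t u| := by
    rw [← abs_of_pos ht, ← abs_div, abs_of_pos ht]
    congr 1
    unfold Poly8.Fu gu; field_simp
  have eK : Poly8.K t c u = (g t u + t * gt t u) * (1 - c ^ 2) + (6 + c ^ 2) * g t u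
      - 7 * (t * g t u) * c - |gu t u| * |c| * (1 - (c ^ 2 + u ^ 2) / 2) := by
    rw [← e3, Poly8.K, e1, e2]
    field_simp
    ring
  have i1 := mul_le_mul_of_nonneg_left hs
    (mul_nonneg (mul_nonneg w0 (abs_nonneg (gu t u))) (abs_nonneg c))
  have i2 := mul_nonneg (mul_nonneg (mul_nonneg ht.le d0) hg0) hc1
  rw [eK]
  simp only [Aniso.K, aniso, f, ft, fu, abs_mul, abs_of_nonneg w0]
  push_cast
  nlinarith

theorem pair_ge (hη : 0 < η) (h1 : η ≤ 1) (ht : 0 < t) {a b : ℝ} (ha : a ∈ Icc (-1 : ℝ) 1)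
    (hb : b ∈ Icc (-1 : ℝ) 1) :
    (1 - wt η t) * (131 / 4200) + wt η t * Poly8.Q t a b
      ≤ 131 / 4200 + ((aniso η hη h1).K 8 t a b + (aniso η hη h1).K 8 t b a) / 2 := by
  have := K_ge hη h1 ht ha hb
  have := K_ge hη h1 ht hb ha
  unfold Poly8.Q
  linarith

theorem pair_nonneg (hη : 0 < η) (h1 : η ≤ 1) (ht : 0 ≤ t) {a b : ℝ} (ha : a ∈ Icc (-1 : ℝ) 1)
    (hb : b ∈ Icc (-1 : ℝ) 1) :
    0 ≤ 131 / 4200 + ((aniso η hη h1).K 8 t a b + (aniso η hη h1).K 8 t b a) / 2 := by
  rcases ht.eq_or_lt with rfl | h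
  · simp [Aniso.K, aniso, f, ft, fu, wt_of_le hη hη.le, dwt_of_le hη hη.le]
    norm_num
  · refine le_trans ?_ (pair_ge hη h1 h ha hb)
    have w0 : 0 ≤ wt η t := Bands.stepFun_nonneg _
    have w1 : wt η t ≤ 1 := Bands.stepFun_le_one _
    have := Poly8.Q_nonneg h ha hb
    exact add_nonneg (mul_nonneg (by linarith) (by norm_num)) (mul_nonneg w0 this)

noncomputable def φ (η c : ℝ) : ℝ := Poly8.phi (max 0 (min c 1)) + η

theorem φ_ge (hη : 0 ≤ η) (c : ℝ) : η ≤ φ η c := by
  have := Poly8.phi_nonneg (le_max_left 0 (min c 1)) (max_le zero_le_one (min_le_right c 1))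
  unfold φ; linarith

theorem φ_eq {c : ℝ} (h0 : 0 ≤ c) (h1 : c ≤ 1) : φ η c = Poly8.phi c + η := by
  rw [φ, min_eq_left h1, max_eq_right h0]

/-- The calibration. -/
noncomputable def calib (η : ℝ) (hη : 0 < η) (h1 : η ≤ 1) : ACalib 8 where
  α := 131 / 4200
  bdry := aniso η hη h1
  φ := φ η
  cont_φ := by unfold φ Poly8.phi; fun_prop
  α_nonneg := by norm_num
  φ_nonneg := fun c _ => hη.le.trans (φ_ge hη.le c)
  nonneg := fun _ _ _ ht ha hb => pair_nonneg hη h1 ht ha hb
  cert := fun t a b ht ha hb => by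
    have A : a ∈ Icc (-1 : ℝ) 1 := ⟨by linarith [ha.1], ha.2⟩
    have B : b ∈ Icc (-1 : ℝ) 1 := ⟨by linarith [hb.1], hb.2⟩
    have hp : 0 ≤ t ^ (8 - 1) / (a * b) :=
      div_nonneg (pow_nonneg ht.le _) (mul_nonneg ha.1.le hb.1.le)
    rcases le_total t (2 * η) with h | h
    · have := mul_nonneg hp (pair_nonneg hη h1 ht.le A B)
      have := φ_ge hη.le a
      have := φ_ge hη.le b
      linarith
    · have hge := pair_ge hη h1 ht A B
      rw [wt_of_ge hη h, sub_self, zero_mul, zero_add, one_mul] at hge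
      have hge' := mul_le_mul_of_nonneg_left hge hp
      have := Poly8.cert ht ha hb
      rw [φ_eq ha.1.le ha.2, φ_eq hb.1.le hb.2]
      simp only [show (8 : ℕ) - 1 = 7 from rfl] at hge' ⊢
      linarith

/-! ### Moments -/

theorem moment (j : ℕ) :
    ∫ v in Metric.closedBall (0 : EE 8) 1, (v 0 / ‖v‖) ^ (2 * j)
      = 7 * omega 7 / 8
        * ∫ θ in (0 : ℝ)..Real.pi, Real.sin θ ^ 6 * (1 - Real.sin θ ^ 2) ^ j := by
  have h := integral_ball_marginal 7 (ψ := fun c => (max (-1) (min 1 c)) ^ (2 * j)) (B := 1)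
    (by fun_prop) fun c => by
      rw [abs_pow]
      exact pow_le_one₀ (abs_nonneg _)
        (abs_le.2 ⟨le_max_left _ _, max_le (by norm_num) (min_le_left _ _)⟩)
  have e : ∀ c : ℝ, |c| ≤ 1 → max (-1) (min 1 c) = c := fun c hc => by
    rw [min_eq_right (abs_le.1 hc).2, max_eq_right (abs_le.1 hc).1]
  simp only [fun v : EE (7 + 1) => e _ (abs_coord_div_le v 0),
    fun θ : ℝ => e _ (Real.abs_cos_le_one θ)] at h
  simp only [pow_mul, Real.cos_sq'] at h ⊢
  norm_num at h ⊢
  exact h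

theorem sin_pow_integrable (k : ℕ) :
    IntervalIntegrable (fun θ => Real.sin θ ^ k) volume 0 Real.pi :=
  (by fun_prop : Continuous fun θ => Real.sin θ ^ k).intervalIntegrable _ _

theorem moments :
    0 < omega 8 ∧
    (∫ v in Metric.closedBall (0 : EE 8) 1, (v 0 / ‖v‖) ^ 2) = omega 8 / 8 ∧
    (∫ v in Metric.closedBall (0 : EE 8) 1, (v 0 / ‖v‖) ^ 4) = 3 / 80 * omega 8 ∧
    (∫ v in Metric.closedBall (0 : EE 8) 1, (v 0 / ‖v‖) ^ 6) = omega 8 / 64 := by
  have S : ∀ k, (∫ θ in (0 : ℝ)..Real.pi, Real.sin θ ^ (2 * k))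
      = Real.pi * ∏ i ∈ Finset.range k, (2 * (i : ℝ) + 1) / (2 * i + 2) :=
    fun k => integral_sin_pow_even k
  have s6 := S 3; have s8 := S 4; have s10 := S 5; have s12 := S 6
  simp only [Finset.prod_range_succ, Finset.prod_range_zero] at s6 s8 s10 s12
  norm_num at s6 s8 s10 s12
  have m0 := moment 0
  have m2 := moment 2
  have m3 := moment 3
  have hω : omega 8 = 7 * omega 7 / 8 * (Real.pi * (5 / 16)) := by
    simp [measureReal_def] at m0
    rw [omega]
    rw [s6] at m0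
    exact m0
  have i := sin_pow_integrable
  have e2 : (∫ θ in (0 : ℝ)..Real.pi, Real.sin θ ^ 6 * (1 - Real.sin θ ^ 2) ^ 2)
      = Real.pi * (5 / 16) * (3 / 80) := by
    rw [show (fun θ => Real.sin θ ^ 6 * (1 - Real.sin θ ^ 2) ^ 2)
        = fun θ => Real.sin θ ^ 6 - 2 * Real.sin θ ^ 8 + Real.sin θ ^ 10 from funext fun θ => by ring,
      intervalIntegral.integral_add ((i 6).sub ((i 8).const_mul 2)) (i 10),
      intervalIntegral.integral_sub (i 6) ((i 8).const_mul 2),
      intervalIntegral.integral_const_mul, s6, s8, s10]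
    ring
  have e3 : (∫ θ in (0 : ℝ)..Real.pi, Real.sin θ ^ 6 * (1 - Real.sin θ ^ 2) ^ 3)
      = Real.pi * (5 / 16) * (1 / 64) := by
    rw [show (fun θ => Real.sin θ ^ 6 * (1 - Real.sin θ ^ 2) ^ 3)
        = fun θ => Real.sin θ ^ 6 - 3 * Real.sin θ ^ 8 + 3 * Real.sin θ ^ 10 - Real.sin θ ^ 12 from
          funext fun θ => by ring,
      intervalIntegral.integral_sub (((i 6).sub ((i 8).const_mul 3)).add ((i 10).const_mul 3)) (i 12),
      intervalIntegral.integral_add ((i 6).sub ((i 8).const_mul 3)) ((i 10).const_mul 3),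
      intervalIntegral.integral_sub (i 6) ((i 8).const_mul 3),
      intervalIntegral.integral_const_mul, intervalIntegral.integral_const_mul, s6, s8, s10, s12]
    ring
  refine ⟨omega_pos, ?_, ?_, ?_⟩
  · simpa using integral_cos_sq (n := 8)
  · rw [show (4 : ℕ) = 2 * 2 from rfl, m2, e2, hω]; ring
  · rw [show (6 : ℕ) = 2 * 3 from rfl, m3, e3, hω]; ring

theorem cost_le (hη : 0 < η) (h1 : η ≤ 1) : (calib η hη h1).cost ≤ 1 + 16 * η := by
  obtain ⟨hω, M2, M4, M6⟩ := moments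
  have hc0 : ∀ v : EE 8, 0 ≤ max 0 (v 0 / ‖v‖) := fun v => le_max_left _ _
  have hc1 : ∀ v : EE 8, max 0 (v 0 / ‖v‖) ≤ 1 := fun v =>
    max_le zero_le_one (abs_le.1 (abs_coord_div_le v 0)).2
  have hmc : Measurable fun v : EE 8 => max 0 (v 0 / ‖v‖) :=
    measurable_const.max (measurable_cos 0)
  have hi : ∀ k, IntegrableOn (fun v : EE 8 => (max 0 (v 0 / ‖v‖)) ^ k)
      (Metric.closedBall (0 : EE 8) 1) := fun k =>
    integrableOn_ball_of_bound (hmc.pow_const k) 1 fun v => by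
      rw [abs_pow, abs_of_nonneg (hc0 v)]
      exact pow_le_one₀ (hc0 v) (hc1 v)
  have hphi : ∀ c : ℝ, 0 ≤ c → c ≤ 1 → Poly8.phi c ≤ 1 := fun c a b => by
    have h2 : c ^ 2 ≤ 1 := pow_le_one₀ a b
    have : c ^ 3 ≤ 1 := pow_le_one₀ a b
    have := pow_nonneg a 5
    unfold Poly8.phi; linarith
  have key : ballMoment 8 (fun c => c * (calib η hη h1).φ c)
      ≤ (2 / 3 / 16 + 14 / 45 * (3 / 160) - 8 / 105 / 128 + η) * omega 8 := by
    have h2 := (hi 2).const_mul (2 / 3 : ℝ)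
    have h4 := (hi 4).const_mul (14 / 45 : ℝ)
    have h6 := (hi 6).const_mul (8 / 105 : ℝ)
    have hη' : IntegrableOn (fun _ : EE 8 => η) (Metric.closedBall (0 : EE 8) 1) :=
      integrableOn_const measure_closedBall_lt_top.ne
    rw [ballMoment]
    calc _ ≤ ∫ v in Metric.closedBall (0 : EE 8) 1, (2 / 3 * (max 0 (v 0 / ‖v‖)) ^ 2
          + 14 / 45 * (max 0 (v 0 / ‖v‖)) ^ 4 - 8 / 105 * (max 0 (v 0 / ‖v‖)) ^ 6 + η) := by
          refine setIntegral_mono ?_ (((h2.add h4).sub h6).add hη') fun v => ?_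
          · refine integrableOn_ball_of_bound
              (hmc.mul ((calib η hη h1).cont_φ.measurable.comp hmc)) 2 fun v => ?_
            show |max 0 _ * φ η _| ≤ _
            rw [φ_eq (hc0 v) (hc1 v), abs_mul, abs_of_nonneg (hc0 v), abs_of_nonneg
              (add_nonneg (Poly8.phi_nonneg (hc0 v) (hc1 v)) hη.le)]
            calc _ ≤ 1 * 2 := mul_le_mul (hc1 v) (by linarith [hphi _ (hc0 v) (hc1 v)])
                  (add_nonneg (Poly8.phi_nonneg (hc0 v) (hc1 v)) hη.le) zero_le_one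
              _ = 2 := one_mul _
          · show max 0 _ * φ η _ ≤ _
            rw [φ_eq (hc0 v) (hc1 v)]
            have := mul_le_of_le_one_left hη.le (hc1 v)
            unfold Poly8.phi
            nlinarith
      _ = _ := by
          have H24 : IntegrableOn (fun v : EE 8 => 2 / 3 * (max 0 (v 0 / ‖v‖)) ^ 2
              + 14 / 45 * (max 0 (v 0 / ‖v‖)) ^ 4) (Metric.closedBall (0 : EE 8) 1) := h2.add h4
          have H246 : IntegrableOn (fun v : EE 8 => 2 / 3 * (max 0 (v 0 / ‖v‖)) ^ 2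
              + 14 / 45 * (max 0 (v 0 / ‖v‖)) ^ 4 - 8 / 105 * (max 0 (v 0 / ‖v‖)) ^ 6)
              (Metric.closedBall (0 : EE 8) 1) := H24.sub h6
          rw [integral_add H246 hη', integral_sub H24 h6,
            integral_add h2 h4, integral_const_mul, integral_const_mul, integral_const_mul,
            integral_max_cos_pow even_two two_ne_zero, M2,
            integral_max_cos_pow (by decide) (by norm_num), M4,
            integral_max_cos_pow (by decide) (by norm_num), M6, setIntegral_const,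
            measureReal_def, smul_eq_mul]
          simp only [omega]
          ring
  have h := (div_le_iff₀ hω).2 key
  rw [ACalib.cost]
  show ((8 : ℕ) : ℝ) * (131 / 4200) + _ ≤ _
  push_cast
  linarith

end Eight

theorem exists_acalib_eight (δ : ℝ) (hδ : 0 < δ) : ∃ C : ACalib 8, C.cost ≤ 1 + δ := by
  have hη : 0 < min (δ / 16) 1 := lt_min (by positivity) one_pos
  refine ⟨Eight.calib _ hη (min_le_right _ _), (Eight.cost_le hη (min_le_right _ _)).trans ?_⟩
  linarith [min_le_left (δ / 16) 1]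

end Vale.Agent.P219
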