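import Vale.Agent.P219.Aniso
import Vale.Agent.P219.Cert.TenExact
import Vale.Agent.P219.Cert
import Vale.Agent.P219.Cert.Marginal
import Vale.Agent.P219.Lines.Moments
import Vale.Agent.P219.Var.BandsTools
import Vale.Agent.P219.Cert8

/-!
# P219: the calibration in dimension ten

`F(t,u) = (P(t)-u²R(t))/(t⁵(t+2)⁴)`, cut off by the smooth step of `Eight`.
-/

open MeasureTheory Set Filter Topology

namespace Vale.Agent.P219

namespace Tenth

open Eight (wt dwt wt_of_le dwt_of_le wt_of_ge hasDerivAt_wt continuous_wt continuous_dwt stepDeriv_le)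

noncomputable def g (t u : ℝ) : ℝ := (Ten.pP t - u ^ 2 * Ten.pR t) / (t ^ 6 * (t + 2) ^ 4)

noncomputable def gt (t u : ℝ) : ℝ :=
  (Ten.pA t - u ^ 2 * Ten.pB t - (t + 2) * (Ten.pP t - u ^ 2 * Ten.pR t))
    / (t ^ 7 * (t + 2) ^ 5)

noncomputable def gu (t u : ℝ) : ℝ := -(2 * u * Ten.pR t) / (t ^ 6 * (t + 2) ^ 4)

variable {η t u : ℝ}

theorem hasDerivAt_pP (x : ℝ) : HasDerivAt Ten.pP (Ten.dP x) x := by
  refine (((((((((((hasDerivAt_pow 1 x).const_mul (8 / 9 : ℝ)).fun_add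
    ((hasDerivAt_pow 2 x).const_mul (68 / 75 : ℝ))).fun_add
    ((hasDerivAt_pow 3 x).const_mul (219 / 250 : ℝ))).fun_add
    ((hasDerivAt_pow 4 x).const_mul (407 / 500 : ℝ))).fun_add
    ((hasDerivAt_pow 5 x).const_mul (1362241 / 2679600 : ℝ))).fun_add
    ((hasDerivAt_pow 6 x).const_mul (60911801 / 306240000 : ℝ))).fun_add
    ((hasDerivAt_pow 7 x).const_mul (4472169 / 89320000 : ℝ))).fun_add
    ((hasDerivAt_pow 8 x).const_mul (4472169 / 714560000 : ℝ))).const_add (4 / 9 : ℝ)).congr_of_eventuallyEq (Eventually.of_forall fun y => ?_)).congr_deriv ?_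
  · simp only [Ten.pP]; ring
  · simp only [Ten.dP]; push_cast; ring

theorem hasDerivAt_pR (x : ℝ) : HasDerivAt Ten.pR (Ten.dR x) x := by
  refine ((((((hasDerivAt_pow 1 x).const_mul (391 / 375 : ℝ)).fun_add
    ((hasDerivAt_pow 2 x).const_mul (25232 / 13125 : ℝ))).fun_add
    ((hasDerivAt_pow 3 x).const_mul (447275441 / 401940000 : ℝ))).fun_add
    ((hasDerivAt_pow 4 x).const_mul (327818563 / 1607760000 : ℝ))).congr_of_eventuallyEq (Eventually.of_forall fun y => ?_)).congr_deriv ?_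
  · simp only [Ten.pR]; ring
  · simp only [Ten.dR]; push_cast; ring

theorem hasFDerivAt_g (ht : 0 < t) :
    HasFDerivAt (fun p : ℝ × ℝ => g p.1 p.2)
      (gt t u • ContinuousLinearMap.fst ℝ ℝ ℝ + gu t u • ContinuousLinearMap.snd ℝ ℝ ℝ) (t, u) := by
  have h1 : HasFDerivAt (fun p : ℝ × ℝ => p.1) (ContinuousLinearMap.fst ℝ ℝ ℝ) (t, u) :=
    hasFDerivAt_fst
  have h2 : HasFDerivAt (fun p : ℝ × ℝ => p.2) (ContinuousLinearMap.snd ℝ ℝ ℝ) (t, u) :=
    hasFDerivAt_snd
  have t2 : (0 : ℝ) < t + 2 := by linarith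
  have hden := ((hasDerivAt_id' t).pow 6).mul (((hasDerivAt_id' t).add_const 2).pow 4)
  have a : HasDerivAt (fun r : ℝ => Ten.pP r / (r ^ 6 * (r + 2) ^ 4))
      ((Ten.pA t - (t + 2) * Ten.pP t) / (t ^ 7 * (t + 2) ^ 5)) t := by
    refine ((hasDerivAt_pP t).div hden (by simp [ht.ne', t2.ne'])).congr_deriv ?_
    simp only [Pi.pow_apply, Pi.mul_apply, Ten.pA]
    field_simp
    ring
  have b : HasDerivAt (fun r : ℝ => Ten.pR r / (r ^ 6 * (r + 2) ^ 4))
      ((Ten.pB t - (t + 2) * Ten.pR t) / (t ^ 7 * (t + 2) ^ 5)) t := by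
    refine ((hasDerivAt_pR t).div hden (by simp [ht.ne', t2.ne'])).congr_deriv ?_
    simp only [Pi.pow_apply, Pi.mul_apply, Ten.pB]
    field_simp
    ring
  have h := (a.comp_hasFDerivAt (t, u) h1).sub
    ((b.comp_hasFDerivAt (t, u) h1).mul
      ((hasDerivAt_pow 2 u).comp_hasFDerivAt (t, u) h2))
  refine (h.congr_of_eventuallyEq (Eventually.of_forall fun p => ?_)).congr_fderiv ?_
  · simp only [g, Pi.sub_apply, Pi.mul_apply, Function.comp_apply]; ring
  · ext <;> simp [gt, gu] <;> ring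

noncomputable def f (η t u : ℝ) : ℝ := wt η t * g t u

noncomputable def ft (η t u : ℝ) : ℝ := dwt η t * g t u + wt η t * gt t u

noncomputable def fu (η t u : ℝ) : ℝ := wt η t * gu t u

theorem hasFDerivAt_f (hη : 0 < η) (t u : ℝ) :
    HasFDerivAt (fun p : ℝ × ℝ => f η p.1 p.2)
      (ft η t u • ContinuousLinearMap.fst ℝ ℝ ℝ + fu η t u • ContinuousLinearMap.snd ℝ ℝ ℝ)
      (t, u) := by
  rcases lt_or_ge t η with h | h
  · have e : (fun p : ℝ × ℝ => f η p.1 p.2) =ᶠ[𝓝 (t, u)] fun _ => (0 : ℝ) :=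
      eventually_of_mem ((isOpen_Iio.preimage continuous_fst).mem_nhds h) fun p hp => by
        simp [f, wt_of_le hη (le_of_lt hp)]
    refine ((hasFDerivAt_const (0 : ℝ) (t, u)).congr_of_eventuallyEq e).congr_fderiv ?_
    simp [ft, fu, wt_of_le hη h.le, dwt_of_le hη h.le]
  · have h1 : HasFDerivAt (fun p : ℝ × ℝ => p.1) (ContinuousLinearMap.fst ℝ ℝ ℝ) (t, u) :=
      hasFDerivAt_fst
    have hw := (hasDerivAt_wt η t).comp_hasFDerivAt (t, u) h1
    have hg := hasFDerivAt_g (u := u) (hη.trans_le h)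
    refine ((hw.mul hg).congr_of_eventuallyEq (Eventually.of_forall fun p => ?_)).congr_fderiv ?_
    · simp [f]
    · ext <;> simp [ft, fu] <;> ring

theorem ft_eq_max (hη : 0 < η) (t u : ℝ) :
    ft η t u = dwt η t * g (max t η) u + wt η t * gt (max t η) u := by
  rcases le_total t η with h | h
  · simp [ft, wt_of_le hη h, dwt_of_le hη h]
  · rw [max_eq_left h]; rfl

theorem fu_eq_max (hη : 0 < η) (t u : ℝ) : fu η t u = wt η t * gu (max t η) u := by
  rcases le_total t η with h | h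
  · simp [fu, wt_of_le hη h]
  · rw [max_eq_left h]; rfl

theorem max_pos (hη : 0 < η) (t : ℝ) : 0 < max t η * (max t η + 2) :=
  mul_pos (lt_max_of_lt_right hη) (by linarith [(lt_max_of_lt_right hη : (0 : ℝ) < max t η)])

theorem continuous_ft (hη : 0 < η) : Continuous fun p : ℝ × ℝ => ft η p.1 p.2 := by
  simp only [ft_eq_max hη]
  have hm : ∀ p : ℝ × ℝ, max p.1 η ≠ 0 ∧ max p.1 η + 2 ≠ 0 := fun p =>
    ⟨(lt_max_of_lt_right hη).ne', (by linarith [(lt_max_of_lt_right hη : (0 : ℝ) < max p.1 η)] : (0:ℝ) < max p.1 η + 2).ne'⟩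
  unfold gt g Ten.pA Ten.pB Ten.pP Ten.pR Ten.dP Ten.dR
  refine (((continuous_dwt η).comp continuous_fst).mul ?_).add
    (((continuous_wt η).comp continuous_fst).mul ?_)
  · exact Continuous.div (by fun_prop) (by fun_prop) fun p => by simp [hm p]
  · exact Continuous.div (by fun_prop) (by fun_prop) fun p => by simp [hm p]

theorem continuous_fu (hη : 0 < η) : Continuous fun p : ℝ × ℝ => fu η p.1 p.2 := by
  simp only [fu_eq_max hη]
  unfold gu Ten.pR
  exact ((continuous_wt η).comp continuous_fst).mul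
    (Continuous.div (by fun_prop) (by fun_prop) fun p => by
      have h0 : (0 : ℝ) < max p.1 η := lt_max_of_lt_right hη
      positivity)

theorem pP_le (ht : 0 ≤ t) : Ten.pP t ≤ 5 * (t + 2) ^ 8 := by
  have h : ∀ i : ℕ, i ≤ 8 → t ^ i ≤ (t + 2) ^ 8 := fun i hi =>
    (pow_le_pow_left₀ ht (by linarith) i).trans (pow_le_pow_right₀ (by linarith) hi)
  have h0 := h 0 (by norm_num)
  have h1 := h 1 (by norm_num)
  have h2 := h 2 (by norm_num)
  have h3 := h 3 (by norm_num)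
  have h4 := h 4 (by norm_num)
  have h5 := h 5 (by norm_num)
  have h6 := h 6 (by norm_num)
  have h7 := h 7 (by norm_num)
  have h8 := h 8 (by norm_num)
  simp only [pow_zero, pow_one] at *
  unfold Ten.pP
  linarith

theorem pR_le (ht : 0 ≤ t) : Ten.pR t ≤ 5 * (t + 2) ^ 8 := by
  have h : ∀ i : ℕ, i ≤ 8 → t ^ i ≤ (t + 2) ^ 8 := fun i hi =>
    (pow_le_pow_left₀ ht (by linarith) i).trans (pow_le_pow_right₀ (by linarith) hi)
  have h1 := h 1 (by norm_num)
  have h2 := h 2 (by norm_num)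
  have h3 := h 3 (by norm_num)
  have h4 := h 4 (by norm_num)
  simp only [pow_zero, pow_one] at *
  unfold Ten.pR
  linarith

theorem dP_le (ht : 0 ≤ t) : Ten.dP t ≤ 15 * (t + 2) ^ 7 := by
  have h : ∀ i : ℕ, i ≤ 7 → t ^ i ≤ (t + 2) ^ 7 := fun i hi =>
    (pow_le_pow_left₀ ht (by linarith) i).trans (pow_le_pow_right₀ (by linarith) hi)
  have h0 := h 0 (by norm_num)
  have h1 := h 1 (by norm_num)
  have h2 := h 2 (by norm_num)
  have h3 := h 3 (by norm_num)
  have h4 := h 4 (by norm_num)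
  have h5 := h 5 (by norm_num)
  have h6 := h 6 (by norm_num)
  have h7 := h 7 (by norm_num)
  simp only [pow_zero, pow_one] at *
  unfold Ten.dP
  linarith

theorem dR_le (ht : 0 ≤ t) : Ten.dR t ≤ 15 * (t + 2) ^ 7 := by
  have h : ∀ i : ℕ, i ≤ 7 → t ^ i ≤ (t + 2) ^ 7 := fun i hi =>
    (pow_le_pow_left₀ ht (by linarith) i).trans (pow_le_pow_right₀ (by linarith) hi)
  have h0 := h 0 (by norm_num)
  have h1 := h 1 (by norm_num)
  have h2 := h 2 (by norm_num)
  have h3 := h 3 (by norm_num)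
  simp only [pow_zero, pow_one] at *
  unfold Ten.dR
  linarith

theorem ratio_le (hη : 0 < η) (h1 : η ≤ 1) (hT : η ≤ t) :
    (t + 2) ^ 4 / t ^ 6 ≤ 81 / η ^ 6 ∧ (t + 2) ^ 4 / t ^ 5 ≤ 81 / η ^ 6 := by
  have ht := hη.trans_le hT
  have h3 : (t + 2) / t ≤ 3 / η := by
    rw [div_le_div_iff₀ ht hη]; nlinarith
  have h4 : ((t + 2) / t) ^ 4 ≤ (3 / η) ^ 4 := pow_le_pow_left₀ (by positivity) h3 4
  have i2 : 1 / t ^ 2 ≤ 1 / η ^ 2 := one_div_le_one_div_of_le (by positivity) (by gcongr)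
  have i1 : 1 / t ≤ 1 / η ^ 2 := (one_div_le_one_div_of_le hη hT).trans
    (one_div_le_one_div_of_le (by positivity) (by nlinarith))
  have e : (3 / η) ^ 4 * (1 / η ^ 2) = 81 / η ^ 6 := by field_simp; norm_num
  refine ⟨?_, ?_⟩ <;> rw [← e]
  · calc (t + 2) ^ 4 / t ^ 6 = ((t + 2) / t) ^ 4 * (1 / t ^ 2) := by field_simp
      _ ≤ _ := mul_le_mul h4 i2 (by positivity) (by positivity)
  · calc (t + 2) ^ 4 / t ^ 5 = ((t + 2) / t) ^ 4 * (1 / t) := by field_simp
      _ ≤ _ := mul_le_mul h4 i1 (by positivity) (by positivity)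

/-- Bounds on `[η,∞)`. -/
theorem g_bounds (hη : 0 < η) (h1 : η ≤ 1) (hT : η ≤ t) (hu : u ∈ Icc (-1 : ℝ) 1) :
    0 ≤ g t u ∧ g t u ≤ 5 * (81 / η ^ 6) ∧ t * g t u ≤ 5 * (81 / η ^ 6) ∧
      |t * gt t u| ≤ 125 * (81 / η ^ 6) ∧ |gu t u| ≤ 10 * (81 / η ^ 6) := by
  have ht := hη.trans_le hT
  have t2 : 0 < t + 2 := by linarith
  obtain ⟨r6, r5⟩ := ratio_le hη h1 hT
  have hu2 : u ^ 2 ≤ 1 := by nlinarith [hu.1, hu.2]
  have hN0 := Ten.N_nonneg ht.le hu
  have hR0 := Ten.pR_nonneg ht.le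
  have hP0 := Ten.pP_nonneg ht.le
  have hN : Ten.pP t - u ^ 2 * Ten.pR t ≤ 5 * (t + 2) ^ 8 := by
    have := pP_le ht.le
    have := mul_nonneg (sq_nonneg u) hR0
    linarith
  refine ⟨div_nonneg hN0 (by positivity), ?_, ?_, ?_, ?_⟩
  · calc g t u ≤ 5 * (t + 2) ^ 8 / (t ^ 6 * (t + 2) ^ 4) := by unfold g; gcongr
      _ = 5 * ((t + 2) ^ 4 / t ^ 6) := by field_simp
      _ ≤ _ := by gcongr
  · calc t * g t u ≤ t * (5 * (t + 2) ^ 8 / (t ^ 6 * (t + 2) ^ 4)) := by unfold g; gcongr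
      _ = 5 * ((t + 2) ^ 4 / t ^ 5) := by field_simp
      _ ≤ _ := by gcongr
  · have hdP : 0 ≤ Ten.dP t := by unfold Ten.dP; positivity
    have hdR : 0 ≤ Ten.dR t := by unfold Ten.dR; positivity
    have hA : ∀ {X dX : ℝ}, 0 ≤ X → 0 ≤ dX → X ≤ 5 * (t + 2) ^ 8 → dX ≤ 15 * (t + 2) ^ 7 →
        |dX * t * (t + 2) - X * (5 * (t + 2) + 4 * t)| ≤ 60 * (t + 2) ^ 9 := by
      intro X dX x0 d0 x1 d1
      have a1 : dX * t * (t + 2) ≤ 15 * (t + 2) ^ 9 := by
        calc dX * t * (t + 2) ≤ 15 * (t + 2) ^ 7 * (t + 2) * (t + 2) := by gcongr; linarith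
          _ = _ := by ring
      have a2 : X * (5 * (t + 2) + 4 * t) ≤ 45 * (t + 2) ^ 9 := by
        calc X * (5 * (t + 2) + 4 * t) ≤ 5 * (t + 2) ^ 8 * (9 * (t + 2)) := by gcongr; linarith
          _ = _ := by ring
      have a0 : 0 ≤ dX * t * (t + 2) := by positivity
      have a3 : 0 ≤ X * (5 * (t + 2) + 4 * t) := by positivity
      have a4 : 0 ≤ (t + 2) ^ 9 := by positivity
      exact abs_le.2 ⟨by linarith, by linarith⟩
    have kA : |Ten.pA t| ≤ 60 * (t + 2) ^ 9 := hA hP0 hdP (pP_le ht.le) (dP_le ht.le)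
    have kB : |Ten.pB t| ≤ 60 * (t + 2) ^ 9 := hA hR0 hdR (pR_le ht.le) (dR_le ht.le)
    have kN : (t + 2) * (Ten.pP t - u ^ 2 * Ten.pR t) ≤ 5 * (t + 2) ^ 9 := by
      calc _ ≤ (t + 2) * (5 * (t + 2) ^ 8) := by gcongr
        _ = _ := by ring
    have kB' : |u ^ 2 * Ten.pB t| ≤ 60 * (t + 2) ^ 9 := by
      rw [abs_mul, abs_of_nonneg (sq_nonneg u)]
      exact (mul_le_of_le_one_left (abs_nonneg _) hu2).trans kB
    have k : |Ten.pA t - u ^ 2 * Ten.pB t - (t + 2) * (Ten.pP t - u ^ 2 * Ten.pR t)|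
        ≤ 125 * (t + 2) ^ 9 := by
      refine (abs_sub _ _).trans ((add_le_add (abs_sub _ _) le_rfl).trans ?_)
      rw [abs_of_nonneg (mul_nonneg t2.le hN0)]
      linarith
    have e : t * gt t u = (Ten.pA t - u ^ 2 * Ten.pB t
        - (t + 2) * (Ten.pP t - u ^ 2 * Ten.pR t)) / (t ^ 6 * (t + 2) ^ 5) := by
      unfold gt; field_simp
    rw [e, abs_div, abs_of_pos (by positivity : (0 : ℝ) < t ^ 6 * (t + 2) ^ 5)]
    calc _ ≤ 125 * (t + 2) ^ 9 / (t ^ 6 * (t + 2) ^ 5) := by gcongr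
      _ = 125 * ((t + 2) ^ 4 / t ^ 6) := by field_simp
      _ ≤ _ := by gcongr
  · rw [gu, abs_div, abs_neg, abs_of_pos (by positivity : (0 : ℝ) < t ^ 6 * (t + 2) ^ 4)]
    have k : |2 * u * Ten.pR t| ≤ 10 * (t + 2) ^ 8 := by
      rw [abs_mul, abs_mul, abs_two, abs_of_nonneg hR0]
      have : |u| ≤ 1 := abs_le.2 hu
      calc 2 * |u| * Ten.pR t ≤ 2 * 1 * (5 * (t + 2) ^ 8) := by gcongr; exact pR_le ht.le
        _ = _ := by ring
    calc _ ≤ 10 * (t + 2) ^ 8 / (t ^ 6 * (t + 2) ^ 4) := by gcongr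
      _ = 10 * ((t + 2) ^ 4 / t ^ 6) := by field_simp
      _ ≤ _ := by gcongr

/-- The weight. -/
noncomputable def aniso (η : ℝ) (hη : 0 < η) (h1 : η ≤ 1) : Aniso where
  f := f η
  ft := ft η
  fu := fu η
  hasDeriv := hasFDerivAt_f hη
  cont_ft := continuous_ft hη
  cont_fu := continuous_fu hη
  f_nonneg := fun t u _ hu => by
    rcases le_total t η with h | h
    · simp [f, wt_of_le hη h]
    · exact mul_nonneg (Bands.stepFun_nonneg _) (g_bounds hη h1 h hu).1
  flat := ⟨η, hη, fun t u h => by simp [fu, wt_of_le hη h.le]⟩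
  bdd := ⟨200 * (81 / η ^ 7), fun t u ht hu => by
    rcases le_total t η with h | h
    · have : (0 : ℝ) ≤ 200 * (81 / η ^ 7) := by positivity
      simp [f, ft, fu, wt_of_le hη h, dwt_of_le hη h, this]
    · obtain ⟨a0, a1, a2, a3, a4⟩ := g_bounds hη h1 h hu
      have w0 : 0 ≤ wt η t := Bands.stepFun_nonneg _
      have w1 : wt η t ≤ 1 := Bands.stepFun_le_one _
      have d0 : 0 ≤ dwt η t := div_nonneg (Bands.stepDeriv_nonneg _) hη.le
      have d1 : dwt η t ≤ 3 / 2 / η := by unfold dwt; gcongr; exact stepDeriv_le _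
      have p : 0 ≤ 81 / η ^ 6 := by positivity
      have p76 : 81 / η ^ 6 ≤ 81 / η ^ 7 :=
        div_le_div_of_nonneg_left (by norm_num) (by positivity)
          (pow_le_pow_of_le_one hη.le h1 (by norm_num))
      refine ⟨?_, ?_, ?_, ?_⟩
      · rw [f, abs_of_nonneg (mul_nonneg w0 a0)]
        nlinarith [mul_le_mul w1 a1 a0 zero_le_one]
      · rw [f, abs_of_nonneg (mul_nonneg ht (mul_nonneg w0 a0))]
        nlinarith [mul_le_mul w1 a2 (mul_nonneg ht a0) zero_le_one]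
      · have e1 : dwt η t * (t * g t u) ≤ 15 / 2 * (81 / η ^ 7) := by
          calc dwt η t * (t * g t u) ≤ 3 / 2 / η * (5 * (81 / η ^ 6)) :=
                mul_le_mul d1 a2 (mul_nonneg ht a0) (by positivity)
            _ = 15 / 2 * (81 / η ^ 7) := by field_simp; ring
        have e2 : |wt η t * (t * gt t u)| ≤ 125 * (81 / η ^ 6) := by
          rw [abs_mul, abs_of_nonneg w0]
          simpa using mul_le_mul w1 a3 (abs_nonneg _) zero_le_one
        have e : t * ft η t u = dwt η t * (t * g t u) + wt η t * (t * gt t u) := by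
          unfold ft; ring
        rw [e]
        refine (abs_add_le _ _).trans ?_
        rw [abs_of_nonneg (mul_nonneg d0 (mul_nonneg ht a0))]
        linarith
      · rw [fu, abs_mul, abs_of_nonneg w0]
        nlinarith [mul_le_mul w1 a4 (abs_nonneg _) zero_le_one]⟩

theorem K_ge (hη : 0 < η) (h1 : η ≤ 1) (ht : 0 < t) {c : ℝ} (hc : c ∈ Icc (-1 : ℝ) 1)
    (hu : u ∈ Icc (-1 : ℝ) 1) : wt η t * Ten.K t c u ≤ (aniso η hη h1).K 10 t c u := by
  have w0 : 0 ≤ wt η t := Bands.stepFun_nonneg _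
  have d0 : 0 ≤ dwt η t := div_nonneg (Bands.stepDeriv_nonneg _) hη.le
  have hc1 : 0 ≤ 1 - c ^ 2 := by nlinarith [hc.1, hc.2]
  have hu1 : 0 ≤ 1 - u ^ 2 := by nlinarith [hu.1, hu.2]
  have hg0 : 0 ≤ g t u := div_nonneg (Ten.N_nonneg ht.le hu) (by positivity)
  have t2 : 0 < t + 2 := by linarith
  have hs : Real.sqrt ((1 - u ^ 2) * (1 - c ^ 2)) ≤ 1 - (c ^ 2 + u ^ 2) / 2 := by
    rw [Real.sqrt_le_iff]
    exact ⟨by linarith, by nlinarith [sq_nonneg (c ^ 2 - u ^ 2)]⟩
  have e1 : Ten.F t u = t * g t u := by unfold Ten.F g; field_simp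
  have e2 : Ten.Ft t u = g t u + t * gt t u := by unfold Ten.Ft g gt; field_simp; ring
  have e3 : |Ten.Fu t u| / t = |gu t u| := by
    rw [← abs_of_pos ht, ← abs_div, abs_of_pos ht]
    congr 1
    unfold Ten.Fu gu; field_simp
  have eK : Ten.K t c u = (g t u + t * gt t u) * (1 - c ^ 2) + (8 + c ^ 2) * g t u
      - 9 * (t * g t u) * c - |gu t u| * |c| * (1 - (c ^ 2 + u ^ 2) / 2) := by
    rw [← e3, Ten.K, e1, e2]
    field_simp
    ring
  have i1 := mul_le_mul_of_nonneg_left hs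
    (mul_nonneg (mul_nonneg w0 (abs_nonneg (gu t u))) (abs_nonneg c))
  have i2 := mul_nonneg (mul_nonneg (mul_nonneg ht.le d0) hg0) hc1
  rw [eK]
  simp only [Aniso.K, aniso, f, ft, fu, abs_mul, abs_of_nonneg w0]
  push_cast
  nlinarith

theorem pair_ge (hη : 0 < η) (h1 : η ≤ 1) (ht : 0 < t) {a b : ℝ} (ha : a ∈ Icc (-1 : ℝ) 1)
    (hb : b ∈ Icc (-1 : ℝ) 1) :
    (1 - wt η t) * (Ten.al) + wt η t * Ten.Q t a b
      ≤ Ten.al + ((aniso η hη h1).K 10 t a b + (aniso η hη h1).K 10 t b a) / 2 := by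
  have := K_ge hη h1 ht ha hb
  have := K_ge hη h1 ht hb ha
  unfold Ten.Q
  linarith

theorem pair_nonneg (hη : 0 < η) (h1 : η ≤ 1) (ht : 0 ≤ t) {a b : ℝ} (ha : a ∈ Icc (-1 : ℝ) 1)
    (hb : b ∈ Icc (-1 : ℝ) 1) :
    0 ≤ Ten.al + ((aniso η hη h1).K 10 t a b + (aniso η hη h1).K 10 t b a) / 2 := by
  rcases ht.eq_or_lt with rfl | h
  · simp [Aniso.K, aniso, f, ft, fu, wt_of_le hη hη.le, dwt_of_le hη hη.le]
    norm_num [Ten.al]
  · refine le_trans ?_ (pair_ge hη h1 h ha hb)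
    have w0 : 0 ≤ wt η t := Bands.stepFun_nonneg _
    have w1 : wt η t ≤ 1 := Bands.stepFun_le_one _
    have := Ten.Q_nonneg h ha hb
    exact add_nonneg (mul_nonneg (by linarith) (by norm_num [Ten.al])) (mul_nonneg w0 this)

noncomputable def φ (η c : ℝ) : ℝ := Ten.phi (max 0 (min c 1)) + η

theorem phi_nonneg {c : ℝ} (h0 : 0 ≤ c) (h1 : c ≤ 1) : 0 ≤ Ten.phi c :=
  Ten.mulX_nonneg (by linarith) (by linarith)

theorem φ_ge (hη : 0 ≤ η) (c : ℝ) : η ≤ φ η c := by
  have := phi_nonneg (le_max_left 0 (min c 1)) (max_le zero_le_one (min_le_right c 1))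
  unfold φ; linarith

theorem φ_eq {c : ℝ} (h0 : 0 ≤ c) (h1 : c ≤ 1) : φ η c = Ten.phi c + η := by
  rw [φ, min_eq_left h1, max_eq_right h0]

theorem continuous_clip : Continuous fun c : ℝ => Ten.phi (max 0 (min c 1)) := by
  unfold Ten.phi Ten.mulX Ten.num
  refine Continuous.div (by fun_prop) (by fun_prop) fun c => pow_ne_zero _ ?_
  have := le_max_left (0 : ℝ) (min c 1)
  linarith

/-- The calibration. -/
noncomputable def calib (η : ℝ) (hη : 0 < η) (h1 : η ≤ 1) : ACalib 10 where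
  α := Ten.al
  bdry := aniso η hη h1
  φ := φ η
  cont_φ := continuous_clip.add continuous_const
  α_nonneg := by norm_num [Ten.al]
  φ_nonneg := fun c _ => hη.le.trans (φ_ge hη.le c)
  nonneg := fun _ _ _ ht ha hb => pair_nonneg hη h1 ht ha hb
  cert := fun t a b ht ha hb => by
    have A : a ∈ Icc (-1 : ℝ) 1 := ⟨by linarith [ha.1], ha.2⟩
    have B : b ∈ Icc (-1 : ℝ) 1 := ⟨by linarith [hb.1], hb.2⟩
    have hp : 0 ≤ t ^ (10 - 1) / (a * b) :=
      div_nonneg (pow_nonneg ht.le _) (mul_nonneg ha.1.le hb.1.le)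
    rcases le_total t (2 * η) with h | h
    · have := mul_nonneg hp (pair_nonneg hη h1 ht.le A B)
      have := φ_ge hη.le a
      have := φ_ge hη.le b
      linarith
    · have hge := pair_ge hη h1 ht A B
      rw [wt_of_ge hη h, sub_self, zero_mul, zero_add, one_mul] at hge
      have hge' := mul_le_mul_of_nonneg_left hge hp
      have := Ten.cert ht ha hb
      rw [φ_eq ha.1.le ha.2, φ_eq hb.1.le hb.2]
      simp only [show (10 : ℕ) - 1 = 9 from rfl] at hge' ⊢
      linarith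

/-! ### Moments -/

/-- `∫_0^{π/2} cos^i`. -/
noncomputable def J (i : ℕ) : ℝ := ∫ θ in (0 : ℝ)..Real.pi / 2, Real.cos θ ^ i

theorem J_succ (i : ℕ) : J (i + 2) = ((i : ℝ) + 1) / (i + 2) * J i := by
  rw [J, integral_cos_pow]
  simp [J]

theorem integral_ev (l : List ℤ) : ∀ k : ℕ,
    (∫ θ in (0 : ℝ)..Real.pi / 2, Real.cos θ ^ k * PosCheck.ev l (Real.cos θ))
      = PosCheck.dotSeq l (fun i => J (i + k)) := by
  induction l with
  | nil => intro k; simp [PosCheck.ev, PosCheck.dotSeq]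
  | cons c cs ih =>
    intro k
    have hc : ∀ (cs : List ℤ), Continuous fun x : ℝ => PosCheck.ev cs x := by
      intro cs
      induction cs with
      | nil => exact continuous_const
      | cons a as h => exact continuous_const.add (continuous_id.mul h)
    have i1 : IntervalIntegrable (fun θ => (c : ℝ) * Real.cos θ ^ k) volume 0 (Real.pi / 2) :=
      (by fun_prop : Continuous fun θ => (c : ℝ) * Real.cos θ ^ k).intervalIntegrable _ _
    have i2 : IntervalIntegrable (fun θ => Real.cos θ ^ (k + 1) * PosCheck.ev cs (Real.cos θ))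
        volume 0 (Real.pi / 2) :=
      ((Real.continuous_cos.pow _).mul ((hc cs).comp Real.continuous_cos)).intervalIntegrable _ _
    have e : (fun θ => Real.cos θ ^ k * PosCheck.ev (c :: cs) (Real.cos θ))
        = fun θ => (c : ℝ) * Real.cos θ ^ k
            + Real.cos θ ^ (k + 1) * PosCheck.ev cs (Real.cos θ) := by
      funext θ; simp only [PosCheck.ev]; ring
    rw [e, intervalIntegral.integral_add i1 i2, intervalIntegral.integral_const_mul, ih (k + 1)]
    simp only [PosCheck.dotSeq, zero_add]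
    congr 2
    funext i
    rw [add_right_comm i 1 k, add_assoc]

theorem mom_value :
    (∫ θ in (0 : ℝ)..Real.pi / 2, Real.cos θ ^ 0 * PosCheck.ev Ten.tMom (Real.cos θ))
      = 200970000 * ((66367801 / 6271795200) * Real.pi) := by
  rw [integral_ev]
  have h0 : J 0 = Real.pi / 2 := by simp [J]
  have h1 : J 1 = 1 := by simp [J]
  have h2 := J_succ 0; have h3 := J_succ 1; have h4 := J_succ 2; have h5 := J_succ 3
  have h6 := J_succ 4; have h7 := J_succ 5; have h8 := J_succ 6; have h9 := J_succ 7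
  have h10 := J_succ 8; have h11 := J_succ 9; have h12 := J_succ 10; have h13 := J_succ 11
  have h14 := J_succ 12; have h15 := J_succ 13; have h16 := J_succ 14
  norm_num [h0, h1] at h2 h3 h4 h5 h6 h7 h8 h9 h10 h11 h12 h13 h14 h15 h16
  norm_num [h0, h1] at *
  simp only [PosCheck.dotSeq, Ten.tMom, h0, h1, h2, h3, h4, h5, h6, h7, h8, h9, h10, h11, h12,
    h13, h14, h15, h16, add_zero, zero_add, Nat.reduceAdd]
  push_cast
  ring

theorem marginal (ψ : ℝ → ℝ) (hψ : Measurable ψ) {B : ℝ} (hB : ∀ c, |ψ c| ≤ B) :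
    ∫ v in Metric.closedBall (0 : EE 10) 1, ψ (v 0 / ‖v‖)
      = 9 * omega 9 / 10 * ∫ θ in (0 : ℝ)..Real.pi, Real.sin θ ^ 8 * ψ (Real.cos θ) := by
  have h := integral_ball_marginal 9 hψ hB
  norm_num at h ⊢
  exact h

theorem omega_ten : omega 10 = 9 * omega 9 / 10 * (Real.pi * (35 / 128)) := by
  have h := marginal (fun _ => 1) measurable_const (B := 1) (by simp)
  have s8 : (∫ θ in (0 : ℝ)..Real.pi, Real.sin θ ^ (2 * 4))
      = Real.pi * ∏ i ∈ Finset.range 4, (2 * (i : ℝ) + 1) / (2 * i + 2) := integral_sin_pow_even 4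
  simp only [Finset.prod_range_succ, Finset.prod_range_zero] at s8
  norm_num at s8
  simp [measureReal_def] at h
  rw [omega, h, s8]

theorem moment_phi :
    ∫ v in Metric.closedBall (0 : EE 10) 1,
        max 0 (v 0 / ‖v‖) * Ten.phi (max 0 (min (v 0 / ‖v‖) 1))
      = ((66367801 / 6271795200) / (35 / 128)) * omega 10 := by
  set ψ : ℝ → ℝ := fun x => max 0 (min x 1) * Ten.phi (max 0 (min x 1)) with hψ
  have hcont : Continuous ψ := (by fun_prop : Continuous fun x : ℝ => max 0 (min x 1)).mul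
    continuous_clip
  obtain ⟨B, hB⟩ := (isCompact_Icc (a := (0 : ℝ)) (b := 1)).exists_bound_of_continuousOn
    hcont.continuousOn
  have hB' : ∀ c, |ψ c| ≤ B := fun c => by
    have hm : max 0 (min c 1) ∈ Icc (0 : ℝ) 1 :=
      ⟨le_max_left _ _, max_le zero_le_one (min_le_right _ _)⟩
    have := hB _ hm
    rw [Real.norm_eq_abs] at this
    rw [hψ] at this ⊢
    simp only [min_eq_left hm.2, max_eq_right hm.1] at this
    exact this
  have h := marginal ψ hcont.measurable hB'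
  have hL : ∀ v : EE 10, ψ (v 0 / ‖v‖)
      = max 0 (v 0 / ‖v‖) * Ten.phi (max 0 (min (v 0 / ‖v‖) 1)) := fun v => by
    simp only [hψ, min_eq_left (abs_le.1 (abs_coord_div_le v 0)).2]
  simp only [hL] at h
  rw [h]
  have hint : ∀ a b : ℝ, IntervalIntegrable (fun θ => Real.sin θ ^ 8 * ψ (Real.cos θ)) volume a b :=
    fun a b => ((Real.continuous_sin.pow 8).mul (hcont.comp Real.continuous_cos)).intervalIntegrable
      _ _
  have hr : (∫ θ in Real.pi / 2..Real.pi, Real.sin θ ^ 8 * ψ (Real.cos θ)) = 0 := by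
    rw [intervalIntegral.integral_congr (g := fun _ => (0 : ℝ)) (fun θ hθ => ?_)]
    · simp
    · rw [Set.uIcc_of_le (by linarith [Real.pi_pos])] at hθ
      have hc : Real.cos θ ≤ 0 :=
        Real.cos_nonpos_of_pi_div_two_le_of_le hθ.1 (by linarith [hθ.2, Real.pi_pos])
      simp [hψ, max_eq_left ((min_le_left _ _).trans hc)]
  have hl : (∫ θ in (0 : ℝ)..Real.pi / 2, Real.sin θ ^ 8 * ψ (Real.cos θ))
      = (66367801 / 6271795200) * Real.pi := by
    have e : ∀ θ ∈ Set.uIcc (0 : ℝ) (Real.pi / 2), Real.sin θ ^ 8 * ψ (Real.cos θ)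
        = (1 / 200970000 : ℝ) * (Real.cos θ ^ 0 * PosCheck.ev Ten.tMom (Real.cos θ)) := fun θ hθ => by
      rw [Set.uIcc_of_le (by linarith [Real.pi_pos])] at hθ
      have hc : 0 ≤ Real.cos θ :=
        Real.cos_nonneg_of_mem_Icc ⟨by linarith [hθ.1, Real.pi_pos], hθ.2⟩
      simp only [hψ, min_eq_left (Real.cos_le_one θ), max_eq_right hc]
      have s2 : Real.sin θ ^ 8 = (1 - Real.cos θ ^ 2) ^ 4 := by
        rw [← Real.sin_sq, ← pow_mul]
      rw [s2]
      have hne : 2 * Real.cos θ + 2 ≠ 0 := by linarith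
      simp only [Ten.phi, Ten.mulX, Ten.num, PosCheck.ev, Ten.tMom]
      push_cast
      field_simp
      ring
    rw [intervalIntegral.integral_congr e, intervalIntegral.integral_const_mul, mom_value]
    ring
  rw [← intervalIntegral.integral_add_adjacent_intervals (hint 0 (Real.pi / 2))
    (hint (Real.pi / 2) Real.pi), hr, hl, omega_ten]
  ring

theorem cost_le (hη : 0 < η) (h1 : η ≤ 1) : (calib η hη h1).cost ≤ 1 + 20 * η := by
  have hω : 0 < omega 10 := omega_pos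
  have hc0 : ∀ v : EE 10, 0 ≤ max 0 (v 0 / ‖v‖) := fun v => le_max_left _ _
  have hc1 : ∀ v : EE 10, max 0 (v 0 / ‖v‖) ≤ 1 := fun v =>
    max_le zero_le_one (abs_le.1 (abs_coord_div_le v 0)).2
  have hmc : Measurable fun v : EE 10 => max 0 (v 0 / ‖v‖) :=
    measurable_const.max (measurable_cos 0)
  obtain ⟨B, hB⟩ := (isCompact_Icc (a := (0 : ℝ)) (b := 1)).exists_bound_of_continuousOn
    (continuous_id.mul (calib η hη h1).cont_φ).continuousOn
  obtain ⟨B', hB'⟩ := (isCompact_Icc (a := (0 : ℝ)) (b := 1)).exists_bound_of_continuousOn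
    (continuous_id.mul continuous_clip).continuousOn
  have hi : IntegrableOn (fun v : EE 10 =>
      max 0 (v 0 / ‖v‖) * Ten.phi (max 0 (min (v 0 / ‖v‖) 1))) (Metric.closedBall (0 : EE 10) 1) :=
    integrableOn_ball_of_bound (hmc.mul (continuous_clip.measurable.comp (measurable_cos 0))) B'
      fun v => by
      have h := hB' _ (show max 0 (v 0 / ‖v‖) ∈ Icc (0 : ℝ) 1 from ⟨hc0 v, hc1 v⟩)
      rw [Real.norm_eq_abs] at h
      simp only [Pi.mul_apply, id, min_eq_left (hc1 v), max_eq_right (hc0 v)] at h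
      rwa [min_eq_left (abs_le.1 (abs_coord_div_le v 0)).2]
  have key : ballMoment 10 (fun c => c * (calib η hη h1).φ c)
      ≤ ((66367801 / 6271795200) / (35 / 128) + η) * omega 10 := by
    rw [ballMoment]
    calc _ ≤ ∫ v in Metric.closedBall (0 : EE 10) 1,
          (max 0 (v 0 / ‖v‖) * Ten.phi (max 0 (min (v 0 / ‖v‖) 1)) + η) := by
          refine setIntegral_mono ?_ (hi.add (integrableOn_const measure_closedBall_lt_top.ne))
            fun v => ?_
          · refine integrableOn_ball_of_bound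
              (hmc.mul ((calib η hη h1).cont_φ.measurable.comp hmc)) B fun v => ?_
            have h := hB _ (show max 0 (v 0 / ‖v‖) ∈ Icc (0 : ℝ) 1 from ⟨hc0 v, hc1 v⟩)
            rw [Real.norm_eq_abs] at h
            exact h
          · show max 0 _ * φ η _ ≤ _
            rw [φ_eq (hc0 v) (hc1 v), min_eq_left (abs_le.1 (abs_coord_div_le v 0)).2]
            have := mul_le_of_le_one_left hη.le (hc1 v)
            nlinarith
      _ = _ := by
          rw [integral_add hi (integrableOn_const measure_closedBall_lt_top.ne), moment_phi,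
            setIntegral_const, measureReal_def, smul_eq_mul]
          simp only [omega]
          ring
  have h := (div_le_iff₀ hω).2 key
  rw [ACalib.cost]
  show ((10 : ℕ) : ℝ) * Ten.al + _ ≤ _
  rw [Ten.al]
  push_cast
  linarith

end Tenth

theorem exists_acalib_ten (δ : ℝ) (hδ : 0 < δ) : ∃ C : ACalib 10, C.cost ≤ 1 + δ := by
  have hη : 0 < min (δ / 20) 1 := lt_min (by positivity) one_pos
  refine ⟨Tenth.calib _ hη (min_le_right _ _), (Tenth.cost_le hη (min_le_right _ _)).trans ?_⟩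
  linarith [min_le_left (δ / 20) 1]

end Vale.Agent.P219
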