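import Vale.Agent.P219.Aniso
import Vale.Agent.P219.Eleven.Poly
import Vale.Agent.P219.Cert
import Vale.Agent.P219.Cert.Marginal
import Vale.Agent.P219.Lines.Moments
import Vale.Agent.P219.Var.BandsTools

/-!
# P219: the calibration in dimension eleven

`F(t,u) = num t |u| / (2721600000 t⁶)`, `α = 487/25000`. The weight is decreasing and not smooth in
`|u|`, so `|u|` is replaced by `√(u²+ε²) - ε`, which only increases the penalty-free part; on
`t ≥ η` the kernel changes by at most `η` for small `ε`, which is added to `α`. The cut-off at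
`t = 0` is a smooth step on `[η,2η]`.
-/

open MeasureTheory Set Filter Topology

namespace Vale.Agent.P219

namespace Eleven

noncomputable section

/-- `num / t⁷` at `r = 1/t`. -/
def numR (r u : ℝ) : ℝ :=
  32931360 * r ^ 2 + 104237280 * r ^ 3 - 485914464 * r ^ 3 * u + 212393664 * r ^ 3 * u ^ 2 - 330402240 * r ^ 4
    + 619272864 * r ^ 4 * u + 1005990111 * r ^ 4 * u ^ 2 - 675040076 * r ^ 4 * u ^ 3 + 293225184 * r ^ 5 + 403395552 * r ^ 5 * u
    - 1973432160 * r ^ 5 * u ^ 2 + 442833200 * r ^ 5 * u ^ 4 - 621552960 * r ^ 6 * u + 973924560 * r ^ 6 * u ^ 2 + 75600000 * r ^ 7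
    - 73338624 * r ^ 7 * u ^ 4

/-- `num / t⁶` at `r = 1/t`. -/
def numS (r u : ℝ) : ℝ :=
  32931360 * r + 104237280 * r ^ 2 - 485914464 * r ^ 2 * u + 212393664 * r ^ 2 * u ^ 2 - 330402240 * r ^ 3
    + 619272864 * r ^ 3 * u + 1005990111 * r ^ 3 * u ^ 2 - 675040076 * r ^ 3 * u ^ 3 + 293225184 * r ^ 4 + 403395552 * r ^ 4 * u
    - 1973432160 * r ^ 4 * u ^ 2 + 442833200 * r ^ 4 * u ^ 4 - 621552960 * r ^ 5 * u + 973924560 * r ^ 5 * u ^ 2 + 75600000 * r ^ 6
    - 73338624 * r ^ 6 * u ^ 4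

/-- `tnum / t⁷` at `r = 1/t`. -/
def tnumR (r u : ℝ) : ℝ :=
  164656800 * r ^ 2 + 416949120 * r ^ 3 - 1943657856 * r ^ 3 * u + 849574656 * r ^ 3 * u ^ 2 - 991206720 * r ^ 4
    + 1857818592 * r ^ 4 * u + 3017970333 * r ^ 4 * u ^ 2 - 2025120228 * r ^ 4 * u ^ 3 + 586450368 * r ^ 5 + 806791104 * r ^ 5 * u
    - 3946864320 * r ^ 5 * u ^ 2 + 885666400 * r ^ 5 * u ^ 4 - 621552960 * r ^ 6 * u + 973924560 * r ^ 6 * u ^ 2

/-- `unum / t⁷` at `r = 1/t`. -/
def unumR (r u : ℝ) : ℝ :=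
  -485914464 * r ^ 3 + 424787328 * r ^ 3 * u + 619272864 * r ^ 4 + 2011980222 * r ^ 4 * u - 2025120228 * r ^ 4 * u ^ 2
    + 403395552 * r ^ 5 - 3946864320 * r ^ 5 * u + 1771332800 * r ^ 5 * u ^ 3 - 621552960 * r ^ 6 + 1947849120 * r ^ 6 * u
    - 293354496 * r ^ 7 * u ^ 3

/-- The kernel in `r = 1/t`. -/
def KR (r a u : ℝ) : ℝ :=
  ((tnumR r u - 6 * numR r u) * (1 - a ^ 2) + (9 + a ^ 2) * numR r u - 10 * numS r u * a
    + unumR r u * a * (1 - (a ^ 2 + u ^ 2) / 2)) / 2721600000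

theorem g_eq {t : ℝ} (ht : 0 < t) (u : ℝ) :
    g t u = numR (1 / t) u / 2721600000 ∧ t * g t u = numS (1 / t) u / 2721600000 ∧
      t * gt t u = (tnumR (1 / t) u - 7 * numR (1 / t) u) / 2721600000 ∧
      gu t u = unumR (1 / t) u / 2721600000 := by
  refine ⟨?_, ?_, ?_, ?_⟩ <;>
    simp only [g, gt, gu, num, tnum, unum, numR, numS, tnumR, unumR] <;> field_simp <;> ring

theorem Kp_eq {t : ℝ} (ht : 0 < t) (a u : ℝ) : Kp t a u = KR (1 / t) a u := by
  obtain ⟨e1, e2, e3, e4⟩ := g_eq ht u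
  simp only [Kp, e2, e3, e4]
  rw [e1]
  simp only [KR]
  ring

theorem Qp_nonneg {t a b : ℝ} (ht : 0 < t) (ha0 : 0 ≤ a) (ha1 : a ≤ 1) (hb0 : 0 ≤ b)
    (hb1 : b ≤ 1) : 0 ≤ Qp t a b :=
  nonneg_of_mul_nonneg_left (b := 2721600000 * t ^ 7)
    (by rw [Wf_eq ht]; exact Wf_nonneg ht.le ha0 ha1 hb0 hb1) (by positivity)

theorem chord {t a b : ℝ} (ht : 0 < t) (ha : a ∈ Ioc (0 : ℝ) 1) (hb : b ∈ Ioc (0 : ℝ) 1) :
    t ≤ t ^ 10 / (a * b) * Qp t a b + phi a + phi b := by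
  have hab : 0 < a * b := mul_pos ha.1 hb.1
  have h := Gf_nonneg ht.le ha.1.le ha.2 hb.1.le hb.2
  rw [← Gf_eq, ← Wf_eq ht] at h
  have e : t ^ 10 / (a * b) * Qp t a b + phi a + phi b - t
      = (t ^ 3 * (Qp t a b * (2721600000 * t ^ 7))
          + 2721600000 * (a * b) * (phi a + phi b - t)) / (2721600000 * (a * b)) := by
    have := ha.1.ne'
    have := hb.1.ne'
    field_simp
    ring
  have : 0 ≤ t ^ 10 / (a * b) * Qp t a b + phi a + phi b - t := by
    rw [e]; exact div_nonneg h (by positivity)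
  linarith

theorem continuous_KR : Continuous fun p : ℝ × ℝ × ℝ => KR p.1 p.2.1 p.2.2 := by
  unfold KR numR numS tnumR unumR
  fun_prop

variable {η ε t u : ℝ}

theorem exists_close (hη : 0 < η) : ∃ ε > 0, ∀ t a u u', η ≤ t → a ∈ Icc (0 : ℝ) 1 →
    u ∈ Icc (0 : ℝ) 1 → u' ∈ Icc (0 : ℝ) 1 → |u - u'| ≤ ε → |Kp t a u - Kp t a u'| ≤ η := by
  have hK : IsCompact (Icc (0 : ℝ) (1 / η) ×ˢ Icc (0 : ℝ) 1 ×ˢ Icc (0 : ℝ) 1) :=
    isCompact_Icc.prod (isCompact_Icc.prod isCompact_Icc)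
  obtain ⟨δ, hδ, h⟩ := Metric.uniformContinuousOn_iff.1
    (hK.uniformContinuousOn_of_continuous continuous_KR.continuousOn) η hη
  refine ⟨δ / 2, half_pos hδ, fun t a u u' ht ha hu hu' hd => ?_⟩
  have ht0 := hη.trans_le ht
  have hr : 1 / t ∈ Icc (0 : ℝ) (1 / η) := ⟨by positivity, one_div_le_one_div_of_le hη ht⟩
  rw [Kp_eq ht0, Kp_eq ht0, ← Real.dist_eq]
  refine (h (1 / t, a, u) ⟨hr, ha, hu⟩ (1 / t, a, u') ⟨hr, ha, hu'⟩ ?_).le
  simp [Prod.dist_eq, Real.dist_eq]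
  linarith

/-- The smoothed absolute value. -/
def sabs (ε u : ℝ) : ℝ := Real.sqrt (u ^ 2 + ε ^ 2) - ε

def dsabs (ε u : ℝ) : ℝ := u / Real.sqrt (u ^ 2 + ε ^ 2)

theorem hasDerivAt_sabs (hε : 0 < ε) (u : ℝ) : HasDerivAt (sabs ε) (dsabs ε u) u := by
  have hp : 0 < u ^ 2 + ε ^ 2 := by positivity
  refine ((((hasDerivAt_pow 2 u).add_const (ε ^ 2)).sqrt hp.ne').sub_const ε).congr_deriv ?_
  rw [dsabs]
  field_simp
  push_cast
  ring

theorem sabs_mem (hε : 0 ≤ ε) (u : ℝ) :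
    0 ≤ sabs ε u ∧ sabs ε u ≤ |u| ∧ |u| - ε ≤ sabs ε u := by
  have h1 : ε ≤ Real.sqrt (u ^ 2 + ε ^ 2) := Real.le_sqrt_of_sq_le (by nlinarith [sq_nonneg u])
  have h2 : Real.sqrt (u ^ 2 + ε ^ 2) ≤ |u| + ε := by
    rw [Real.sqrt_le_iff]
    exact ⟨by positivity, by nlinarith [sq_abs u, mul_nonneg (abs_nonneg u) hε]⟩
  have h3 : |u| ≤ Real.sqrt (u ^ 2 + ε ^ 2) :=
    Real.le_sqrt_of_sq_le (by rw [sq_abs]; nlinarith [sq_nonneg ε])
  unfold sabs
  exact ⟨by linarith, by linarith, by linarith⟩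

theorem sabs_mem_Icc (hε : 0 ≤ ε) (hu : u ∈ Icc (-1 : ℝ) 1) : sabs ε u ∈ Icc (0 : ℝ) 1 :=
  ⟨(sabs_mem hε u).1, (sabs_mem hε u).2.1.trans (abs_le.2 hu)⟩

theorem abs_dsabs_le (ε u : ℝ) : |dsabs ε u| ≤ 1 := by
  rw [dsabs, abs_div, abs_of_nonneg (Real.sqrt_nonneg _)]
  refine div_le_one_of_le₀ ?_ (Real.sqrt_nonneg _)
  exact Real.le_sqrt_of_sq_le (by rw [sq_abs]; nlinarith [sq_nonneg ε])

def wt (η t : ℝ) : ℝ := stepFun ((t - η) / η)

def dwt (η t : ℝ) : ℝ := Bands.stepDeriv ((t - η) / η) / η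

theorem wt_nonneg (η t : ℝ) : 0 ≤ wt η t := Bands.stepFun_nonneg _

theorem wt_le (η t : ℝ) : wt η t ≤ 1 := Bands.stepFun_le_one _

theorem wt_of_le (hη : 0 < η) (h : t ≤ η) : wt η t = 0 :=
  Bands.stepFun_of_nonpos (div_nonpos_of_nonpos_of_nonneg (by linarith) hη.le)

theorem dwt_of_le (hη : 0 < η) (h : t ≤ η) : dwt η t = 0 := by
  have : (t - η) / η ≤ 0 := div_nonpos_of_nonpos_of_nonneg (by linarith) hη.le
  simp [dwt, Bands.stepDeriv, max_eq_left ((min_le_right (1 : ℝ) _).trans this)]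

theorem wt_of_ge (hη : 0 < η) (h : 2 * η ≤ t) : wt η t = 1 :=
  Bands.stepFun_of_one_le (by rw [le_div_iff₀ hη]; linarith)

theorem dwt_mem (hη : 0 < η) (t : ℝ) : 0 ≤ dwt η t ∧ dwt η t ≤ 3 / 2 / η := by
  refine ⟨div_nonneg (Bands.stepDeriv_nonneg _) hη.le, ?_⟩
  unfold dwt
  gcongr
  unfold Bands.stepDeriv
  nlinarith [sq_nonneg (max 0 (min 1 ((t - η) / η)) - 1 / 2)]

theorem hasDerivAt_wt (η t : ℝ) : HasDerivAt (wt η) (dwt η t) t := by
  have h := (Bands.hasDerivAt_stepFun ((t - η) / η)).comp t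
    (((hasDerivAt_id' t).sub_const η).div_const η)
  simpa [wt, dwt, Function.comp_def, div_eq_mul_inv] using! h

theorem hasFDerivAt_g (ht : t ≠ 0) :
    HasFDerivAt (fun p : ℝ × ℝ => g p.1 p.2)
      (gt t u • ContinuousLinearMap.fst ℝ ℝ ℝ + gu t u • ContinuousLinearMap.snd ℝ ℝ ℝ) (t, u) := by
  have hd : DifferentiableAt ℝ (fun p : ℝ × ℝ => g p.1 p.2) (t, u) := by
    unfold g num
    fun_prop (disch := simp [ht])
  have h1 : HasDerivAt (fun r => g r u) (gt t u) t := by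
    have hN : HasDerivAt (fun r => num r u) (tnum t u / t) t := by
      refine (DifferentiableAt.hasDerivAt (by unfold num; fun_prop)).congr_deriv ?_
      unfold num tnum
      simp (disch := fun_prop)
      field_simp
      ring
    refine (hN.fun_div ((hasDerivAt_pow 7 t).const_mul 2721600000) (by simp [ht])).congr_deriv ?_
    simp only [gt]
    push_cast
    field_simp
  have h2 : HasDerivAt (fun w => g t w) (gu t u) u := by
    have hN : HasDerivAt (fun w => num t w) (unum t u) u := by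
      refine (DifferentiableAt.hasDerivAt (by unfold num; fun_prop)).congr_deriv ?_
      unfold num unum
      simp (disch := fun_prop)
      ring
    exact hN.div_const _
  refine hd.hasFDerivAt.congr_fderiv ?_
  have c1 : HasDerivAt (fun r => g r u)
      (fderiv ℝ (fun p : ℝ × ℝ => g p.1 p.2) (t, u) (1, 0)) t :=
    hd.hasFDerivAt.comp_hasDerivAt_of_eq (f := fun r : ℝ => (r, u)) t
      ((hasDerivAt_id' t).prodMk (hasDerivAt_const t u)) rfl
  have c2 : HasDerivAt (fun w => g t w)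
      (fderiv ℝ (fun p : ℝ × ℝ => g p.1 p.2) (t, u) (0, 1)) u :=
    hd.hasFDerivAt.comp_hasDerivAt_of_eq (f := fun w : ℝ => (t, w)) u
      ((hasDerivAt_const u t).prodMk (hasDerivAt_id' u)) rfl
  have e1 := c1.unique h1
  have e2 := c2.unique h2
  ext <;> simp [e1, e2]

def f (η ε t u : ℝ) : ℝ := wt η t * g t (sabs ε u)

def ft (η ε t u : ℝ) : ℝ := dwt η t * g t (sabs ε u) + wt η t * gt t (sabs ε u)

def fu (η ε t u : ℝ) : ℝ := wt η t * (gu t (sabs ε u) * dsabs ε u)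

theorem hasFDerivAt_f (hη : 0 < η) (hε : 0 < ε) (t u : ℝ) :
    HasFDerivAt (fun p : ℝ × ℝ => f η ε p.1 p.2)
      (ft η ε t u • ContinuousLinearMap.fst ℝ ℝ ℝ + fu η ε t u • ContinuousLinearMap.snd ℝ ℝ ℝ)
      (t, u) := by
  rcases lt_or_ge t η with h | h
  · have e : (fun p : ℝ × ℝ => f η ε p.1 p.2) =ᶠ[𝓝 (t, u)] fun _ => (0 : ℝ) :=
      eventually_of_mem ((isOpen_Iio.preimage continuous_fst).mem_nhds h) fun p hp => by
        simp [f, wt_of_le hη (le_of_lt hp)]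
    refine ((hasFDerivAt_const (0 : ℝ) (t, u)).congr_of_eventuallyEq e).congr_fderiv ?_
    simp [ft, fu, wt_of_le hη h.le, dwt_of_le hη h.le]
  · have h1 : HasFDerivAt (fun p : ℝ × ℝ => p.1) (ContinuousLinearMap.fst ℝ ℝ ℝ) (t, u) :=
      hasFDerivAt_fst
    have h2 : HasFDerivAt (fun p : ℝ × ℝ => p.2) (ContinuousLinearMap.snd ℝ ℝ ℝ) (t, u) :=
      hasFDerivAt_snd
    have hw := (hasDerivAt_wt η t).comp_hasFDerivAt (t, u) h1
    have hs := (hasDerivAt_sabs hε u).comp_hasFDerivAt (t, u) h2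
    have hg := (hasFDerivAt_g (u := sabs ε u) (hη.trans_le h).ne').comp (t, u) (h1.prodMk hs)
    refine ((hw.mul hg).congr_of_eventuallyEq (Eventually.of_forall fun p => ?_)).congr_fderiv ?_
    · simp [f]
    · ext <;> simp [ft, fu]; ring

theorem continuous_wt (η : ℝ) : Continuous (wt η) :=
  Bands.continuous_stepFun.comp (by fun_prop)

theorem continuous_dwt (η : ℝ) : Continuous (dwt η) :=
  (Bands.continuous_stepDeriv.comp (by fun_prop)).div_const _

theorem ft_eq_max (hη : 0 < η) (t u : ℝ) :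
    ft η ε t u
      = dwt η t * g (max t η) (sabs ε u) + wt η t * gt (max t η) (sabs ε u) := by
  rcases le_total t η with h | h
  · simp [ft, wt_of_le hη h, dwt_of_le hη h]
  · rw [max_eq_left h]; rfl

theorem fu_eq_max (hη : 0 < η) (t u : ℝ) :
    fu η ε t u = wt η t * (gu (max t η) (sabs ε u) * dsabs ε u) := by
  rcases le_total t η with h | h
  · simp [fu, wt_of_le hη h]
  · rw [max_eq_left h]; rfl

theorem continuous_ft (hη : 0 < η) : Continuous fun p : ℝ × ℝ => ft η ε p.1 p.2 := by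
  simp only [ft_eq_max hη]
  have hm : ∀ p : ℝ × ℝ, 0 < max p.1 η := fun p => lt_max_of_lt_right hη
  have h7 : ∀ p : ℝ × ℝ, 2721600000 * max p.1 η ^ 7 ≠ 0 := fun p => by simp [(hm p).ne']
  have h8 : ∀ p : ℝ × ℝ, 2721600000 * max p.1 η ^ 8 ≠ 0 := fun p => by simp [(hm p).ne']
  refine (((continuous_dwt η).comp continuous_fst).mul ?_).add
    (((continuous_wt η).comp continuous_fst).mul ?_)
  · unfold g num sabs; fun_prop (disch := assumption)
  · unfold gt num tnum sabs; fun_prop (disch := assumption)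

theorem continuous_fu (hη : 0 < η) (hε : 0 < ε) :
    Continuous fun p : ℝ × ℝ => fu η ε p.1 p.2 := by
  simp only [fu_eq_max hη]
  have h7 : ∀ p : ℝ × ℝ, 2721600000 * max p.1 η ^ 7 ≠ 0 :=
    fun p => by simp [(lt_max_of_lt_right hη : 0 < max p.1 η).ne']
  have hs : ∀ p : ℝ × ℝ, Real.sqrt (p.2 ^ 2 + ε ^ 2) ≠ 0 := fun p => by positivity
  refine ((continuous_wt η).comp continuous_fst).mul ?_
  unfold gu unum sabs dsabs; fun_prop (disch := assumption)

theorem g_nonneg (ht : 0 < t) (hu : u ∈ Icc (0 : ℝ) 1) : 0 ≤ g t u :=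
  div_nonneg (num_nonneg ht.le hu.1 hu.2) (by positivity)

theorem gu_nonpos (ht : 0 < t) (hu : u ∈ Icc (0 : ℝ) 1) : gu t u ≤ 0 :=
  div_nonpos_of_nonpos_of_nonneg (unum_nonpos ht.le hu.1 hu.2) (by positivity)

/-- Bounds on `[η,∞)`. -/
theorem g_bounds (hη : 0 < η) : ∃ B, 0 ≤ B ∧ ∀ t u, η ≤ t → u ∈ Icc (0 : ℝ) 1 →
    |g t u| ≤ B ∧ |t * g t u| ≤ B ∧ |t * gt t u| ≤ B ∧ |gu t u| ≤ B := by
  set v : ℝ × ℝ → ℝ := fun p => |numR p.1 p.2| + |numS p.1 p.2|
    + |tnumR p.1 p.2 - 7 * numR p.1 p.2| + |unumR p.1 p.2|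
  have hv : Continuous v := by unfold v numR numS tnumR unumR; fun_prop
  obtain ⟨B, hB⟩ := (isCompact_Icc.prod isCompact_Icc :
    IsCompact (Icc (0 : ℝ) (1 / η) ×ˢ Icc (0 : ℝ) 1)).exists_bound_of_continuousOn hv.continuousOn
  refine ⟨|B|, abs_nonneg _, fun t u ht hu => ?_⟩
  have ht0 := hη.trans_le ht
  have hb := hB (1 / t, u) ⟨⟨by positivity, one_div_le_one_div_of_le hη ht⟩, hu⟩
  rw [Real.norm_eq_abs] at hb
  have hb' := (le_abs_self _).trans (hb.trans (le_abs_self B))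
  obtain ⟨e1, e2, e3, e4⟩ := g_eq ht0 u
  have L : (1 : ℝ) ≤ 2721600000 := by norm_num
  simp only [v] at hb'
  rw [e2, e3, e4, e1]
  simp only [abs_div, abs_of_pos (show (0 : ℝ) < 2721600000 by norm_num)]
  refine ⟨(div_le_self (abs_nonneg _) L).trans ?_, (div_le_self (abs_nonneg _) L).trans ?_,
    (div_le_self (abs_nonneg _) L).trans ?_, (div_le_self (abs_nonneg _) L).trans ?_⟩ <;>
  linarith [abs_nonneg (numR (1 / t) u), abs_nonneg (numS (1 / t) u),
    abs_nonneg (tnumR (1 / t) u - 7 * numR (1 / t) u), abs_nonneg (unumR (1 / t) u)]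

/-- The weight. -/
def aniso (η ε : ℝ) (hη : 0 < η) (hε : 0 < ε) : Aniso where
  f := f η ε
  ft := ft η ε
  fu := fu η ε
  hasDeriv := hasFDerivAt_f hη hε
  cont_ft := continuous_ft hη
  cont_fu := continuous_fu hη hε
  f_nonneg := fun t u _ hu => by
    rcases le_total t η with h | h
    · simp [f, wt_of_le hη h]
    · exact mul_nonneg (wt_nonneg η t) (g_nonneg (hη.trans_le h) (sabs_mem_Icc hε.le hu))
  flat := ⟨η, hη, fun t u h => by simp [fu, wt_of_le hη h.le]⟩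
  bdd := by
    obtain ⟨B, hB0, hB⟩ := g_bounds hη
    refine ⟨3 / 2 / η * B + B, fun t u ht hu => ?_⟩
    rcases le_total t η with h | h
    · have : (0 : ℝ) ≤ 3 / 2 / η * B + B := by positivity
      simp [f, ft, fu, wt_of_le hη h, dwt_of_le hη h, this]
    · obtain ⟨a1, a2, a3, a4⟩ := hB t (sabs ε u) h (sabs_mem_Icc hε.le hu)
      have w0 := wt_nonneg η t
      have w1 := wt_le η t
      obtain ⟨d0, d1⟩ := dwt_mem hη t
      have p : 0 ≤ 3 / 2 / η * B := by positivity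
      refine ⟨?_, ?_, ?_, ?_⟩
      · rw [f, abs_mul, abs_of_nonneg w0]
        nlinarith [mul_le_mul w1 a1 (abs_nonneg _) zero_le_one]
      · rw [f, mul_left_comm, abs_mul, abs_of_nonneg w0]
        nlinarith [mul_le_mul w1 a2 (abs_nonneg _) zero_le_one]
      · rw [show t * ft η ε t u
            = dwt η t * (t * g t (sabs ε u)) + wt η t * (t * gt t (sabs ε u)) by unfold ft; ring]
        refine (abs_add_le _ _).trans ?_
        rw [abs_mul (dwt η t), abs_mul (wt η t), abs_of_nonneg d0, abs_of_nonneg w0]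
        nlinarith [mul_le_mul d1 a2 (abs_nonneg _) (by positivity : (0 : ℝ) ≤ 3 / 2 / η),
          mul_le_mul w1 a3 (abs_nonneg _) zero_le_one]
      · rw [fu, abs_mul, abs_mul, abs_of_nonneg w0]
        have := mul_le_mul a4 (abs_dsabs_le ε u) (abs_nonneg _) hB0
        nlinarith [mul_le_mul w1 this (by positivity) zero_le_one]

/-- `ε` is small for `η`. -/
def Close (η ε : ℝ) : Prop := ∀ t a u u', η ≤ t → a ∈ Icc (0 : ℝ) 1 →
  u ∈ Icc (0 : ℝ) 1 → u' ∈ Icc (0 : ℝ) 1 → |u - u'| ≤ ε → |Kp t a u - Kp t a u'| ≤ η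

theorem K_ge (hη : 0 < η) (hε : 0 < ε) (hc' : Close η ε) (ht : 0 < t) {c : ℝ}
    (hc : c ∈ Icc (-1 : ℝ) 1) (hu : u ∈ Icc (-1 : ℝ) 1) :
    wt η t * Kp t |c| |u| - η ≤ (aniso η ε hη hε).K 11 t c u := by
  have w0 := wt_nonneg η t
  have w1 := wt_le η t
  obtain ⟨d0, -⟩ := dwt_mem hη t
  have hh := sabs_mem_Icc hε.le hu
  obtain ⟨-, hle, hge⟩ := sabs_mem hε.le u
  have hc1 : 0 ≤ 1 - c ^ 2 := by nlinarith [hc.1, hc.2]
  have hu1 : 0 ≤ 1 - u ^ 2 := by nlinarith [hu.1, hu.2]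
  have hle2 : sabs ε u ^ 2 ≤ u ^ 2 := by rw [← sq_abs u]; gcongr; exact hh.1
  have hs : Real.sqrt ((1 - u ^ 2) * (1 - c ^ 2)) ≤ 1 - (c ^ 2 + sabs ε u ^ 2) / 2 := by
    rw [Real.sqrt_le_iff]
    exact ⟨by nlinarith, by
      nlinarith [sq_nonneg (c ^ 2 - sabs ε u ^ 2), mul_le_mul_of_nonneg_right hle2 hc1]⟩
  have hdiff : wt η t * (Kp t |c| |u|) - η ≤ wt η t * Kp t |c| (sabs ε u) := by
    rcases le_total t η with h | h
    · rw [wt_of_le hη h]; linarith
    · have := abs_le.1 (hc' t |c| |u| (sabs ε u) h ⟨abs_nonneg _, abs_le.2 hc⟩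
        ⟨abs_nonneg _, abs_le.2 hu⟩ hh (by rw [abs_of_nonneg (by linarith)]; linarith))
      nlinarith [mul_le_mul_of_nonneg_left this.2 w0]
  refine hdiff.trans ?_
  have hg0 := g_nonneg ht hh
  have hgu := gu_nonpos ht hh
  have habs : |gu t (sabs ε u) * dsabs ε u| ≤ -gu t (sabs ε u) := by
    rw [abs_mul, abs_of_nonpos hgu]
    exact mul_le_of_le_one_right (by linarith) (abs_dsabs_le ε u)
  have i1 := mul_le_mul_of_nonneg_left
    (mul_le_mul habs hs (Real.sqrt_nonneg _) (by linarith))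
    (mul_nonneg w0 (abs_nonneg c))
  have i2 := mul_nonneg (mul_nonneg (mul_nonneg ht.le d0) hg0) hc1
  have i3 := mul_le_mul_of_nonneg_left (le_abs_self c) (mul_nonneg w0 (mul_nonneg ht.le hg0))
  rw [Kp, sq_abs]
  simp only [Aniso.K, aniso, f, ft, fu, abs_mul, abs_of_nonneg w0] at i1 ⊢
  push_cast
  nlinarith

theorem pair_ge (hη : 0 < η) (hε : 0 < ε) (hc' : Close η ε) (ht : 0 < t) {a b : ℝ}
    (ha : a ∈ Icc (-1 : ℝ) 1) (hb : b ∈ Icc (-1 : ℝ) 1) :
    (1 - wt η t) * (487 / 25000) + wt η t * Qp t |a| |b|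
      ≤ 487 / 25000 + η + ((aniso η ε hη hε).K 11 t a b + (aniso η ε hη hε).K 11 t b a) / 2 := by
  have := K_ge hη hε hc' ht ha hb
  have := K_ge hη hε hc' ht hb ha
  unfold Qp
  linarith

theorem pair_nonneg (hη : 0 < η) (hε : 0 < ε) (hc' : Close η ε) (ht : 0 ≤ t) {a b : ℝ}
    (ha : a ∈ Icc (-1 : ℝ) 1) (hb : b ∈ Icc (-1 : ℝ) 1) :
    0 ≤ 487 / 25000 + η + ((aniso η ε hη hε).K 11 t a b + (aniso η ε hη hε).K 11 t b a) / 2 := by
  rcases ht.eq_or_lt with rfl | h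
  · simp [Aniso.K, aniso, f, ft, fu, wt_of_le hη hη.le, dwt_of_le hη hη.le]
    linarith
  · refine le_trans ?_ (pair_ge hη hε hc' h ha hb)
    have := Qp_nonneg h (abs_nonneg a) (abs_le.2 ha) (abs_nonneg b) (abs_le.2 hb)
    exact add_nonneg (mul_nonneg (by linarith [wt_le η t]) (by norm_num))
      (mul_nonneg (wt_nonneg η t) this)

/-- The clamp to `[0,1]`. -/
def clamp (c : ℝ) : ℝ := max 0 (min c 1)

theorem clamp_mem (c : ℝ) : clamp c ∈ Icc (0 : ℝ) 1 :=
  ⟨le_max_left _ _, max_le zero_le_one (min_le_right _ _)⟩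

theorem clamp_eq {c : ℝ} (h0 : 0 ≤ c) (h1 : c ≤ 1) : clamp c = c := by
  rw [clamp, min_eq_left h1, max_eq_right h0]

theorem continuous_phi_clamp : Continuous fun c => phi (clamp c) := by
  unfold phi clamp
  fun_prop

def φ (η c : ℝ) : ℝ := phi (clamp c) + η

theorem φ_ge (η c : ℝ) : η ≤ φ η c := by
  have := phi_nonneg (clamp_mem c).1 (clamp_mem c).2
  unfold φ; linarith

/-- The calibration. -/
def calib (η ε : ℝ) (hη : 0 < η) (hε : 0 < ε) (hc' : Close η ε) : ACalib 11 where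
  α := 487 / 25000 + η
  bdry := aniso η ε hη hε
  φ := φ η
  cont_φ := by unfold φ; exact continuous_phi_clamp.add continuous_const
  α_nonneg := by linarith
  φ_nonneg := fun c _ => hη.le.trans (φ_ge η c)
  nonneg := fun _ _ _ ht ha hb => pair_nonneg hη hε hc' ht ha hb
  cert := fun t a b ht ha hb => by
    have A : a ∈ Icc (-1 : ℝ) 1 := ⟨by linarith [ha.1], ha.2⟩
    have B : b ∈ Icc (-1 : ℝ) 1 := ⟨by linarith [hb.1], hb.2⟩
    have hp : 0 ≤ t ^ (11 - 1) / (a * b) :=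
      div_nonneg (pow_nonneg ht.le _) (mul_nonneg ha.1.le hb.1.le)
    rcases le_total t (2 * η) with h | h
    · have := mul_nonneg hp (pair_nonneg hη hε hc' ht.le A B)
      have := φ_ge η a
      have := φ_ge η b
      linarith
    · have hge := pair_ge hη hε hc' ht A B
      rw [wt_of_ge hη h, sub_self, zero_mul, zero_add, one_mul, abs_of_pos ha.1,
        abs_of_pos hb.1] at hge
      have hge' := mul_le_mul_of_nonneg_left hge hp
      have := chord ht ha hb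
      simp only [φ, clamp_eq ha.1.le ha.2, clamp_eq hb.1.le hb.2]
      simp only [show (11 : ℕ) - 1 = 10 from rfl] at hge' ⊢
      linarith

/-! ### Cost -/

/-- A primitive of `(1-c²)⁴ c φ(c)`. -/
def momPrim (η x : ℝ) : ℝ :=
  2 / 9 * x ^ 3
    - 3973 / 28125 * x ^ 5
    - 16869 / 12500 * x ^ 6
    + 101843 / 84375 * x ^ 7
    + 239857 / 50000 * x ^ 8
    - 166846823 / 21262500 * x ^ 9
    - 1185069 / 250000 * x ^ 10
    + 775447441 / 46777500 * x ^ 11
    - 201361 / 75000 * x ^ 12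
    - 33491753 / 2126250 * x ^ 13
    + 1484443 / 175000 * x ^ 14
    + 67942849 / 10631250 * x ^ 15
    - 295467 / 50000 * x ^ 16
    - 5988811 / 21262500 * x ^ 17
    + 628363 / 450000 * x ^ 18
    - 7209037 / 21262500 * x ^ 19
    - η * (1 - x ^ 2) ^ 5 / 10

theorem moment_phi (η : ℝ) :
    ∫ c in (0 : ℝ)..1, (1 - c ^ 2) ^ 4 * (c * φ η c) = 314288 / 10828125 + η / 10 := by
  have hd : ∀ c ∈ uIcc (0 : ℝ) 1, HasDerivAt (momPrim η) ((1 - c ^ 2) ^ 4 * (c * φ η c)) c := by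
    intro c hc
    rw [uIcc_of_le zero_le_one] at hc
    have hd : HasDerivAt (momPrim η) (deriv (momPrim η) c) c :=
      DifferentiableAt.hasDerivAt (by unfold momPrim; fun_prop)
    refine hd.congr_deriv ?_
    rw [φ, clamp_eq hc.1 hc.2]
    unfold momPrim phi
    simp (disch := fun_prop)
    ring
  rw [intervalIntegral.integral_eq_sub_of_hasDerivAt hd
    (((by fun_prop : Continuous fun c : ℝ => (1 - c ^ 2) ^ 4).mul
      (continuous_id.mul (continuous_phi_clamp.add continuous_const))).intervalIntegrable 0 1)]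
  norm_num [momPrim]

/-- The polar angle integral as an integral in the cosine. -/
theorem integral_sin_pow_nine {h : ℝ → ℝ} (hh : Continuous h) :
    ∫ θ in (0 : ℝ)..Real.pi, Real.sin θ ^ 9 * h (Real.cos θ)
      = ∫ x in (-1 : ℝ)..1, (1 - x ^ 2) ^ 4 * h x := by
  have e := intervalIntegral.integral_comp_mul_deriv
    (f := Real.cos) (f' := fun θ => -Real.sin θ) (g := fun x => (1 - x ^ 2) ^ 4 * h x)
    (a := 0) (b := Real.pi) (fun θ _ => Real.hasDerivAt_cos θ)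
    Real.continuous_sin.neg.continuousOn (by fun_prop)
  rw [Real.cos_zero, Real.cos_pi, intervalIntegral.integral_symm (-1 : ℝ) 1] at e
  have e' : (∫ θ in (0 : ℝ)..Real.pi,
      ((fun x => (1 - x ^ 2) ^ 4 * h x) ∘ Real.cos) θ * -Real.sin θ)
        = -∫ θ in (0 : ℝ)..Real.pi, Real.sin θ ^ 9 * h (Real.cos θ) := by
    rw [← intervalIntegral.integral_neg]
    refine intervalIntegral.integral_congr fun θ _ => ?_
    simp only [Function.comp_apply, ← Real.sin_sq θ]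
    ring
  linarith

def clampMul (η x : ℝ) : ℝ := clamp x * φ η (clamp x)

theorem continuous_clampMul (η : ℝ) : Continuous (clampMul η) := by
  have hc : Continuous clamp := by unfold clamp; fun_prop
  exact hc.mul ((continuous_phi_clamp.comp hc).add continuous_const)

theorem ball_phi (η : ℝ) :
    ballMoment 11 (fun c => c * φ η c)
      = (314288 / 10828125 + η / 10) / (256 / 315) * omega 11 := by
  have hcl : ∀ v : EE 11, max 0 (v 0 / ‖v‖) * φ η (max 0 (v 0 / ‖v‖))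
      = clampMul η (v 0 / ‖v‖) := fun v => by
    have := abs_le.1 (abs_coord_div_le v 0)
    rw [clampMul, clamp, min_eq_left this.2]
  simp only [ballMoment, hcl]
  obtain ⟨B, hB⟩ := (isCompact_Icc (a := (0 : ℝ)) (b := 1)).exists_bound_of_continuousOn
    (continuous_id.mul (continuous_phi_clamp.add (continuous_const (y := η)))).continuousOn
  have h1 := integral_ball_marginal 10 (ψ := fun _ => (1 : ℝ)) measurable_const (B := 1)
    fun c => by simp
  have h2 := integral_ball_marginal 10 (continuous_clampMul η).measurable (B := B)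
    fun c => hB _ (clamp_mem c)
  rw [show (10 : ℕ) - 1 = 9 from rfl, integral_sin_pow_nine continuous_const] at h1
  rw [show (10 : ℕ) - 1 = 9 from rfl, integral_sin_pow_nine (continuous_clampMul η)] at h2
  have hw : ∫ x in (-1 : ℝ)..1, (1 - x ^ 2) ^ 4 * (1 : ℝ) = 256 / 315 := by
    have hd : ∀ x ∈ uIcc (-1 : ℝ) 1, HasDerivAt
        (fun x : ℝ => x - 4 / 3 * x ^ 3 + 6 / 5 * x ^ 5 - 4 / 7 * x ^ 7 + 1 / 9 * x ^ 9)
        ((1 - x ^ 2) ^ 4 * 1) x := by
      intro x _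
      refine (((((hasDerivAt_id' x).sub ((hasDerivAt_pow 3 x).const_mul (4 / 3))).add
        ((hasDerivAt_pow 5 x).const_mul (6 / 5))).sub
        ((hasDerivAt_pow 7 x).const_mul (4 / 7))).add
        ((hasDerivAt_pow 9 x).const_mul (1 / 9))).congr_deriv ?_
      push_cast
      ring
    rw [intervalIntegral.integral_eq_sub_of_hasDerivAt hd
      ((by fun_prop : Continuous fun x : ℝ => (1 - x ^ 2) ^ 4 * 1).intervalIntegrable _ _)]
    norm_num
  have hc : Continuous fun x : ℝ => (1 - x ^ 2) ^ 4 * clampMul η x :=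
    (by fun_prop : Continuous fun x : ℝ => (1 - x ^ 2) ^ 4).mul (continuous_clampMul η)
  have hM : ∫ x in (-1 : ℝ)..1, (1 - x ^ 2) ^ 4 * clampMul η x = 314288 / 10828125 + η / 10 := by
    rw [← intervalIntegral.integral_add_adjacent_intervals (b := (0 : ℝ))
      (hc.intervalIntegrable _ _) (hc.intervalIntegrable _ _)]
    have e0 : ∫ x in (-1 : ℝ)..0, (1 - x ^ 2) ^ 4 * clampMul η x = 0 := by
      refine (intervalIntegral.integral_congr (g := fun _ : ℝ => (0 : ℝ)) fun x hx => ?_).trans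
        intervalIntegral.integral_zero
      rw [uIcc_of_le (by norm_num : (-1 : ℝ) ≤ 0)] at hx
      simp [clampMul, clamp, max_eq_left ((min_le_left x 1).trans hx.2)]
    rw [e0, zero_add, ← moment_phi η]
    refine intervalIntegral.integral_congr fun x hx => ?_
    rw [uIcc_of_le zero_le_one] at hx
    simp [clampMul, clamp_eq hx.1 hx.2]
  have hvol : ∫ _v in Metric.closedBall (0 : EE 11) 1, (1 : ℝ) = omega 11 := by
    simp [omega, measureReal_def]
  rw [hw, hvol] at h1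
  rw [hM] at h2
  rw [h2, h1]
  push_cast
  ring

theorem cost_le (hη : 0 < η) (hε : 0 < ε) (hc' : Close η ε) :
    (calib η ε hη hε hc').cost ≤ 1 + 14 * η := by
  have hω : omega 11 ≠ 0 := (omega_pos).ne'
  show ((11 : ℕ) : ℝ) * (487 / 25000 + η)
    + 2 * ((11 : ℕ) : ℝ) * (ballMoment 11 (fun c => c * φ η c) / omega 11) ≤ _
  rw [ball_phi, mul_div_assoc, div_self hω]
  push_cast
  linarith

end

end Eleven

theorem exists_acalib_eleven (δ : ℝ) (hδ : 0 < δ) : ∃ C : ACalib 11, C.cost ≤ 1 + δ := by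
  have hη : 0 < δ / 14 := by positivity
  obtain ⟨ε, hε, hc⟩ := Eleven.exists_close hη
  exact ⟨Eleven.calib _ _ hη hε hc, (Eleven.cost_le hη hε hc).trans (by linarith)⟩

end Vale.Agent.P219
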