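import Vale.Agent.P219.Core

/-!
# P219: the ball moment in dimension five

Cylindrical coordinates, then the cosine of the polar angle.
-/

open MeasureTheory Set Filter

namespace Vale.Agent.P219

theorem omega_five : omega 5 = 8 * Real.pi ^ 2 / 15 := by
  rw [omega, EuclideanSpace.volume_closedBall]
  simp only [Fintype.card_fin]
  have h : Real.Gamma (((5 : ℕ) : ℝ) / 2 + 1) = 15 / 8 * Real.sqrt Real.pi := by
    rw [show ((5 : ℕ) : ℝ) / 2 + 1 = ((3 : ℕ) : ℝ) + 1 / 2 by norm_num, Real.Gamma_nat_add_half]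
    norm_num [Nat.doubleFactorial]
    ring
  rw [h]
  simp only [ENNReal.ofReal_one, one_pow, one_mul]
  have hp : 0 < Real.sqrt Real.pi := Real.sqrt_pos.2 Real.pi_pos
  rw [ENNReal.toReal_ofReal (by positivity)]
  have hs : Real.sqrt Real.pi ^ 4 = Real.pi ^ 2 := by
    rw [show (4 : ℕ) = 2 * 2 by rfl, pow_mul, Real.sq_sqrt Real.pi_pos.le]
  field_simp
  linear_combination hs

theorem omega_four : omega 4 = Real.pi ^ 2 / 2 := by
  rw [omega, EuclideanSpace.volume_closedBall]
  simp only [Fintype.card_fin]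
  rw [show ((4 : ℕ) : ℝ) / 2 + 1 = ((2 : ℕ) : ℝ) + 1 by norm_num, Real.Gamma_nat_eq_factorial]
  simp only [ENNReal.ofReal_one, one_pow, one_mul]
  rw [ENNReal.toReal_ofReal (by positivity), show (4 : ℕ) = 2 * 2 by rfl, pow_mul,
    Real.sq_sqrt Real.pi_pos.le]
  norm_num [Nat.factorial]

/-- Cylindrical coordinates around the first axis. -/
theorem exists_split_five : ∃ T : EE 5 ≃ᵐ ℝ × EE 4,
    MeasurePreserving T volume (volume.prod volume) ∧
      ∀ v : EE 5, (T v).1 = v 0 ∧ ‖v‖ = Real.sqrt ((v 0) ^ 2 + ‖(T v).2‖ ^ 2) := by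
  refine ⟨((MeasurableEquiv.toLp 2 (Fin 5 → ℝ)).symm.trans
    (MeasurableEquiv.piFinSuccAbove (fun _ : Fin 5 => ℝ) 0)).trans
    ((MeasurableEquiv.refl ℝ).prodCongr (MeasurableEquiv.toLp 2 (Fin 4 → ℝ))), ?_, fun v => ?_⟩
  · exact ((MeasurePreserving.id volume).prod (PiLp.volume_preserving_toLp (Fin 4))).comp
      ((volume_preserving_piFinSuccAbove (fun _ : Fin 5 => ℝ) 0).comp
        (PiLp.volume_preserving_ofLp (Fin 5)))
  · refine ⟨rfl, ?_⟩
    have key : ∀ w : EE 4, (∀ i, w i = v i.succ) →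
        ‖v‖ = Real.sqrt ((v 0) ^ 2 + ‖w‖ ^ 2) := fun w hw => by
      rw [EuclideanSpace.norm_sq_eq, EuclideanSpace.norm_eq, Fin.sum_univ_succ]
      simp [hw, sq_abs]
    exact key _ fun i => rfl

/-- The moments over the unit ball of `ℝ⁵` of functions of the positive part of a cosine. -/
theorem ballMoment_five {ψ : ℝ → ℝ} (hψ : Continuous ψ) (h0 : ψ 0 = 0) :
    ballMoment 5 ψ = 2 * Real.pi ^ 2 / 5 * ∫ c in (0 : ℝ)..1, ψ c * (1 - c ^ 2) := by
  obtain ⟨T, hT, hTv⟩ := exists_split_five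
  obtain ⟨C, hC⟩ := (isCompact_Icc (a := (0 : ℝ)) (b := 1)).exists_bound_of_continuousOn
    hψ.continuousOn
  have hC0 : 0 ≤ C := (norm_nonneg _).trans (hC 0 ⟨le_rfl, zero_le_one⟩)
  set h : ℝ → ℝ → ℝ := fun x r =>
    if x ^ 2 + r ^ 2 ≤ 1 then ψ (max 0 (x / Real.sqrt (x ^ 2 + r ^ 2))) else 0 with hh
  have hcos : ∀ x r, max 0 (x / Real.sqrt (x ^ 2 + r ^ 2)) ∈ Icc (0 : ℝ) 1 := fun x r => by
    refine ⟨le_max_left _ _, max_le zero_le_one ?_⟩
    rcases (Real.sqrt_nonneg (x ^ 2 + r ^ 2)).eq_or_lt with h | h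
    · simp [← h]
    · rw [div_le_one h]
      exact le_trans (le_abs_self x) (Real.abs_le_sqrt (by nlinarith))
  have hb : ∀ x r, |h x r| ≤ if x ^ 2 + r ^ 2 ≤ 1 then C else 0 := fun x r => by
    rw [hh]; dsimp only
    split_ifs with hx
    · exact hC _ (hcos x r)
    · simp
  have hm : Measurable fun p : ℝ × ℝ => h p.1 p.2 := by
    refine Measurable.ite (measurableSet_le ?_ measurable_const) (hψ.measurable.comp ?_)
      measurable_const <;> fun_prop
  -- cylindrical coordinates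
  have e1 : ballMoment 5 ψ = ∫ p : ℝ × EE 4, h p.1 ‖p.2‖ := by
    rw [Measure.volume_eq_prod, ← hT.integral_comp' (fun p => h p.1 ‖p.2‖), ballMoment,
      ← integral_indicator measurableSet_closedBall]
    congr 1
    funext v
    obtain ⟨a, b⟩ := hTv v
    rw [hh]; dsimp only
    by_cases hv : (T v).1 ^ 2 + ‖(T v).2‖ ^ 2 ≤ 1
    · rw [if_pos hv, Set.indicator_of_mem, a, ← b]
      · rw [Metric.mem_closedBall, dist_zero_right, b, Real.sqrt_le_one]
        rwa [a] at hv
    · rw [if_neg hv, Set.indicator_of_notMem]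
      rw [Metric.mem_closedBall, dist_zero_right, b, Real.sqrt_le_one]
      rwa [a] at hv
  have hint : Integrable (fun p : ℝ × EE 4 => h p.1 ‖p.2‖) := by
    refine Integrable.mono' (g := ((Icc (-1 : ℝ) 1) ×ˢ (Metric.closedBall (0 : EE 4) 1)).indicator
      fun _ => C) ?_ ((hm.comp (measurable_fst.prodMk measurable_snd.norm)).aestronglyMeasurable)
      (Eventually.of_forall fun p => ?_)
    · exact (integrableOn_const ((isCompact_Icc.prod (isCompact_closedBall (0 : EE 4) 1)).measure_lt_top).ne).integrable_indicator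
        (measurableSet_Icc.prod measurableSet_closedBall)
    · refine (hb p.1 ‖p.2‖).trans ?_
      split_ifs with hp
      · rw [indicator_of_mem]
        refine ⟨abs_le.1 ((sq_le_one_iff_abs_le_one _).1 (by nlinarith)), ?_⟩
        rw [mem_closedBall_zero_iff]
        nlinarith [norm_nonneg p.2]
      · exact indicator_nonneg (fun _ _ => hC0) p
  have hω : (volume : Measure (EE 4)).real (Metric.ball 0 1) = Real.pi ^ 2 / 2 := by
    rw [measureReal_def, ← Measure.addHaar_closedBall_eq_addHaar_ball, ← omega_four, omega]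
  have e2 : ∀ x : ℝ, (∫ w : EE 4, h x ‖w‖)
      = 2 * Real.pi ^ 2 * ∫ r in Ioi (0 : ℝ), r ^ 3 * h x r := fun x => by
    rw [MeasureTheory.integral_fun_norm_addHaar volume (fun r => h x r), finrank_euclideanSpace_fin,
      hω]
    simp only [smul_eq_mul, nsmul_eq_mul]
    norm_num
    ring
  have hint2 : Integrable (fun p : ℝ × ℝ => p.2 ^ 3 * h p.1 p.2)
      ((volume : Measure ℝ).prod (volume.restrict (Ioi (0 : ℝ)))) := by
    refine Integrable.mono' (g := fun p : ℝ × ℝ => ((Icc (-1 : ℝ) 1).indicator fun _ => C) p.1 *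
      ((Ioc (0 : ℝ) 1).indicator fun _ => (1 : ℝ)) p.2) ?_
      (((measurable_snd.pow_const 3).mul hm).aestronglyMeasurable) ?_
    · exact Integrable.mul_prod
        ((integrableOn_const measure_Icc_lt_top.ne).integrable_indicator measurableSet_Icc)
        (((integrableOn_const measure_Ioc_lt_top.ne).integrable_indicator measurableSet_Ioc).restrict)
    · have hmem : ∀ᵐ p ∂((volume : Measure ℝ).prod (volume.restrict (Ioi (0 : ℝ)))),
          p.2 ∈ Ioi (0 : ℝ) := by
        rw [← Measure.restrict_univ (μ := (volume : Measure ℝ)), Measure.prod_restrict]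
        filter_upwards [ae_restrict_mem (MeasurableSet.univ.prod measurableSet_Ioi)] with p hp
        exact hp.2
      filter_upwards [hmem] with p hp
      rw [Real.norm_eq_abs, abs_mul, abs_of_pos (pow_pos (mem_Ioi.1 hp) 3)]
      refine (mul_le_mul_of_nonneg_left (hb p.1 p.2) (pow_pos (mem_Ioi.1 hp) 3).le).trans ?_
      split_ifs with hq
      · have h2 : p.2 ≤ 1 := by nlinarith [sq_nonneg p.1, sq_nonneg (p.2 - 1)]
        rw [indicator_of_mem (show p.2 ∈ Ioc (0 : ℝ) 1 from ⟨hp, h2⟩), indicator_of_mem, mul_one]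
        · exact mul_le_of_le_one_left hC0 (pow_le_one₀ (le_of_lt hp) h2)
        · exact abs_le.1 ((sq_le_one_iff_abs_le_one _).1 (by nlinarith))
      · rw [mul_zero]
        exact mul_nonneg (indicator_nonneg (fun _ _ => hC0) _)
          (indicator_nonneg (fun _ _ => zero_le_one) _)
  rw [e1, Measure.volume_eq_prod, integral_prod _ hint]
  simp only [e2]
  rw [integral_const_mul, integral_integral_swap hint2]
  set J : ℝ → ℝ := fun t => ψ (max 0 (t / Real.sqrt (1 + t ^ 2))) with hJ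
  -- dilate along the axis
  have e3 : ∀ r ∈ Ioi (0 : ℝ), (∫ x, r ^ 3 * h x r)
      = ∫ t, if r ≤ (Real.sqrt (1 + t ^ 2))⁻¹ then r ^ 4 * J t else 0 := fun r hr => by
    have hr0 : 0 < r := hr
    have hs := Measure.integral_comp_mul_left (fun x => r ^ 3 * h x r) r
    rw [abs_of_pos (inv_pos.2 hr0), smul_eq_mul] at hs
    have : (∫ x, r ^ 3 * h x r) = r * ∫ t, r ^ 3 * h (r * t) r := by
      rw [hs]; field_simp
    rw [this, ← integral_const_mul]
    congr 1
    funext t
    have hsq : (r * t) ^ 2 + r ^ 2 = r ^ 2 * (1 + t ^ 2) := by ring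
    have hpos : 0 < Real.sqrt (1 + t ^ 2) := Real.sqrt_pos.2 (by positivity)
    have harg : r * t / Real.sqrt ((r * t) ^ 2 + r ^ 2) = t / Real.sqrt (1 + t ^ 2) := by
      rw [hsq, Real.sqrt_mul (by positivity), Real.sqrt_sq hr0.le]
      field_simp
    have hiff : (r * t) ^ 2 + r ^ 2 ≤ 1 ↔ r ≤ (Real.sqrt (1 + t ^ 2))⁻¹ := by
      rw [← one_div, le_div_iff₀ hpos, hsq]
      constructor <;> intro H
      · calc r * Real.sqrt (1 + t ^ 2) = Real.sqrt (r ^ 2 * (1 + t ^ 2)) := by
              rw [Real.sqrt_mul (by positivity), Real.sqrt_sq hr0.le]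
          _ ≤ 1 := Real.sqrt_le_one.2 H
      · nlinarith [Real.sq_sqrt (show (0 : ℝ) ≤ 1 + t ^ 2 by positivity), mul_pos hr0 hpos]
    simp only [hh, hJ, hiff, harg]
    split_ifs <;> ring
  rw [setIntegral_congr_fun measurableSet_Ioi e3]
  have hint3 : Integrable (fun p : ℝ × ℝ =>
      if p.1 ≤ (Real.sqrt (1 + p.2 ^ 2))⁻¹ then p.1 ^ 4 * J p.2 else 0)
      ((volume.restrict (Ioi (0 : ℝ))).prod volume) := by
    refine Integrable.mono' (g := fun p : ℝ × ℝ =>
      ((Ioc (0 : ℝ) 1).indicator fun _ => C) p.1 * (1 + p.2 ^ 2)⁻¹) ?_ ?_ ?_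
    · exact Integrable.mul_prod
        (((integrableOn_const measure_Ioc_lt_top.ne).integrable_indicator measurableSet_Ioc).restrict)
        integrable_inv_one_add_sq
    · refine (Measurable.ite (measurableSet_le measurable_fst (by fun_prop))
        (Measurable.mul (by fun_prop) (hψ.measurable.comp (by fun_prop))) measurable_const).aestronglyMeasurable
    · have hmem : ∀ᵐ p ∂((volume.restrict (Ioi (0 : ℝ))).prod (volume : Measure ℝ)),
          p.1 ∈ Ioi (0 : ℝ) := by
        rw [← Measure.restrict_univ (μ := (volume : Measure ℝ)), Measure.restrict_restrict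
          measurableSet_Ioi, inter_univ, Measure.prod_restrict]
        filter_upwards [ae_restrict_mem (measurableSet_Ioi.prod MeasurableSet.univ)] with p hp
        exact hp.1
      filter_upwards [hmem] with p hp
      have hp0 : 0 < p.1 := hp
      have hpos : 0 < Real.sqrt (1 + p.2 ^ 2) := Real.sqrt_pos.2 (by positivity)
      split_ifs with hq
      · have h1 : p.1 ≤ 1 := hq.trans (inv_le_one_of_one_le₀
          (Real.one_le_sqrt.2 (by nlinarith)))
        rw [indicator_of_mem (show p.1 ∈ Ioc (0 : ℝ) 1 from ⟨hp0, h1⟩), Real.norm_eq_abs, abs_mul,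
          abs_of_pos (pow_pos hp0 4), mul_comm C]
        have h2 : p.1 ^ 2 ≤ (1 + p.2 ^ 2)⁻¹ := by
          refine (pow_le_pow_left₀ hp0.le hq 2).trans (le_of_eq ?_)
          rw [inv_pow, Real.sq_sqrt (by positivity)]
        refine mul_le_mul (le_trans ?_ h2) (hC _ ?_) (abs_nonneg _) (by positivity)
        · exact pow_le_pow_of_le_one hp0.le h1 (by norm_num)
        · simpa [hJ] using hcos p.2 1 |> fun H => by simpa [add_comm] using H
      · simp only [norm_zero]
        exact mul_nonneg (indicator_nonneg (fun _ _ => hC0) _) (by positivity)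
  rw [integral_integral_swap hint3]
  have e4 : ∀ t : ℝ, (∫ r in Ioi (0 : ℝ), if r ≤ (Real.sqrt (1 + t ^ 2))⁻¹ then r ^ 4 * J t else 0)
      = J t / (5 * Real.sqrt (1 + t ^ 2) ^ 5) := fun t => by
    have hpos : 0 < (Real.sqrt (1 + t ^ 2))⁻¹ := inv_pos.2 (Real.sqrt_pos.2 (by positivity))
    have : (fun r => if r ≤ (Real.sqrt (1 + t ^ 2))⁻¹ then r ^ 4 * J t else 0)
        = (Iic (Real.sqrt (1 + t ^ 2))⁻¹).indicator fun r => r ^ 4 * J t := by
      funext r; rw [indicator_apply]; rfl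
    rw [this, setIntegral_indicator measurableSet_Iic, Ioi_inter_Iic,
      ← intervalIntegral.integral_of_le hpos.le, intervalIntegral.integral_mul_const, integral_pow, inv_pow]
    field_simp
    ring
  simp only [e4]
  have e5 : (∫ t : ℝ, J t / (5 * Real.sqrt (1 + t ^ 2) ^ 5))
      = ∫ t in Ioi (0 : ℝ), J t / (5 * Real.sqrt (1 + t ^ 2) ^ 5) := by
    refine (setIntegral_eq_integral_of_forall_compl_eq_zero fun t ht => ?_).symm
    have : max 0 (t / Real.sqrt (1 + t ^ 2)) = 0 :=
      max_eq_left (div_nonpos_of_nonpos_of_nonneg (not_lt.1 ht) (Real.sqrt_nonneg _))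
    simp [hJ, this, h0]
  rw [e5]
  -- the cosine as the variable
  set q : ℝ → ℝ := fun c => c / Real.sqrt (1 - c ^ 2) with hq
  have hpos : ∀ c ∈ Ioo (0 : ℝ) 1, 0 < 1 - c ^ 2 := fun c hc => by nlinarith [hc.1, hc.2]
  have hd : ∀ c ∈ Ioo (0 : ℝ) 1, HasDerivWithinAt q ((Real.sqrt (1 - c ^ 2) ^ 3)⁻¹) (Ioo 0 1) c := by
    intro c hc
    have hs := Real.sqrt_pos.2 (hpos c hc)
    have h1 : HasDerivAt (fun c : ℝ => 1 - c ^ 2) (-(2 * c)) c := by
      simpa using (hasDerivAt_pow 2 c).const_sub 1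
    refine (((hasDerivAt_id c).div (h1.sqrt (hpos c hc).ne') hs.ne').congr_deriv ?_).hasDerivWithinAt
    have h2 := Real.sq_sqrt (hpos c hc).le
    simp only [id]
    field_simp
    linear_combination h2
  have hone : ∀ c ∈ Ioo (0 : ℝ) 1, Real.sqrt (1 + q c ^ 2) = (Real.sqrt (1 - c ^ 2))⁻¹ := fun c hc => by
    rw [← Real.sqrt_inv]
    congr 1
    rw [hq, div_pow, Real.sq_sqrt (hpos c hc).le]
    field_simp [(hpos c hc).ne']
    ring
  have hback : ∀ c ∈ Ioo (0 : ℝ) 1, q c / Real.sqrt (1 + q c ^ 2) = c := fun c hc => by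
    rw [hone c hc, div_inv_eq_mul, hq, div_mul_cancel₀ _ (Real.sqrt_pos.2 (hpos c hc)).ne']
  have hinj : InjOn q (Ioo 0 1) := fun a ha b hb hab => by
    rw [← hback a ha, ← hback b hb, hab]
  have himg : q '' Ioo 0 1 = Ioi 0 := by
    refine Subset.antisymm ?_ fun t ht => ?_
    · rintro _ ⟨c, hc, rfl⟩
      exact div_pos hc.1 (Real.sqrt_pos.2 (hpos c hc))
    · have hs : 0 < Real.sqrt (1 + t ^ 2) := Real.sqrt_pos.2 (by positivity)
      have h2 := Real.sq_sqrt (show (0 : ℝ) ≤ 1 + t ^ 2 by positivity)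
      refine ⟨t / Real.sqrt (1 + t ^ 2), ⟨div_pos ht hs, ?_⟩, ?_⟩
      · rw [div_lt_one hs]; nlinarith [mem_Ioi.1 ht]
      · have : 1 - (t / Real.sqrt (1 + t ^ 2)) ^ 2 = (Real.sqrt (1 + t ^ 2))⁻¹ ^ 2 := by
          field_simp; linarith
        rw [hq]; dsimp only
        rw [this, Real.sqrt_sq (inv_pos.2 hs).le]
        field_simp
  rw [← himg, integral_image_eq_integral_abs_deriv_smul measurableSet_Ioo hd hinj,
    intervalIntegral.integral_of_le zero_le_one, integral_Ioc_eq_integral_Ioo,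
    ← integral_const_mul, ← integral_const_mul]
  refine setIntegral_congr_fun measurableSet_Ioo fun c hc => ?_
  have hs := Real.sqrt_pos.2 (hpos c hc)
  simp only [smul_eq_mul, hJ]
  rw [hback c hc, max_eq_right hc.1.le, hone c hc, abs_of_pos (by positivity)]
  have h2 := Real.sq_sqrt (hpos c hc).le
  field_simp
  linear_combination ψ c * h2

end Vale.Agent.P219
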