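import Vale.Agent.P219.Core
import Vale.Agent.P219.Moment5

/-!
# P219: the calibration in dimension five

Only centres inside: `F = (t³+4t²+6t+6)/(6t²(t+2)²)`, `β = 1/4`. With `e = t⁴ (β + K(t,a))` one has
`6 (t+2)³ e - 3a (t+2)³ = (t - 2a) q(t,a)` with `q > 0`.
-/

open Set MeasureTheory Filter Topology

namespace Vale.Agent.P219

namespace Five

noncomputable section

/-- `t³ F`. -/
def u3 (r : ℝ) : ℝ := r * (r ^ 3 + 4 * r ^ 2 + 6 * r + 6) / (6 * (r + 2) ^ 2)

/-- `t⁴ F`. -/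
def u4 (r : ℝ) : ℝ := r ^ 2 * (r ^ 3 + 4 * r ^ 2 + 6 * r + 6) / (6 * (r + 2) ^ 2)

def du4 (r : ℝ) : ℝ := (3 * r ^ 2 + 2 - 16 / (r + 2) ^ 3) / 6

/-- `t⁴ (β + K)`. -/
def ek (r a : ℝ) : ℝ :=
  r ^ 4 / 4 + du4 r * (1 - a ^ 2) + (5 * a ^ 2 - 1) * u3 r - 4 * a * u4 r

/-- The primitive of `ek`. -/
def prim (r a : ℝ) : ℝ :=
  r ^ 5 / 20 + u4 r * (1 - a ^ 2)
    + (5 * a ^ 2 - 1) *
      ((r ^ 3 / 3 + 2 * r - 2 * Real.log ((r + 2) / 2) + 4 / (r + 2) - 2) / 6)
    - 4 * a * ((r ^ 4 / 4 + r ^ 2 - 2 * r + 4 * r / (r + 2)) / 6)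

theorem hasDeriv_u4 {r : ℝ} (hr : 0 ≤ r) : HasDerivAt u4 (du4 r) r := by
  have h1 : HasDerivAt (fun x : ℝ => x ^ 2 * (x ^ 3 + 4 * x ^ 2 + 6 * x + 6))
      (5 * r ^ 4 + 16 * r ^ 3 + 18 * r ^ 2 + 12 * r) r := by
    have := (hasDerivAt_pow 2 r).fun_mul ((((hasDerivAt_pow 3 r).fun_add
      ((hasDerivAt_pow 2 r).const_mul 4)).fun_add ((hasDerivAt_id r).const_mul 6)).add_const 6)
    refine this.congr_deriv ?_
    simp only [id]; push_cast; ring
  have h2 : HasDerivAt (fun x : ℝ => 6 * (x + 2) ^ 2) (12 * (r + 2)) r := by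
    refine ((((hasDerivAt_id r).add_const 2).pow 2).const_mul 6).congr_deriv ?_
    simp only [id]; push_cast; ring
  refine (h1.div h2 (by positivity)).congr_deriv ?_
  simp only [du4]
  field_simp
  ring

theorem hasDeriv_prim {r : ℝ} (hr : 0 ≤ r) (a : ℝ) :
    HasDerivAt (fun x => prim x a) (ek r a) r := by
  have hw : r + 2 ≠ 0 := by linarith
  have hlog : HasDerivAt (fun x : ℝ => Real.log ((x + 2) / 2)) (1 / (r + 2)) r := by
    refine ((((hasDerivAt_id r).add_const 2).div_const 2).log (by simp only [id]; positivity)).congr_deriv ?_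
    simp only [id]; field_simp
  have hinv : HasDerivAt (fun x : ℝ => 4 / (x + 2)) (-4 / (r + 2) ^ 2) r := by
    refine ((hasDerivAt_const r (4 : ℝ)).div ((hasDerivAt_id r).add_const 2) hw).congr_deriv ?_
    simp only [id]; ring
  have hfr : HasDerivAt (fun x : ℝ => 4 * x / (x + 2)) (8 / (r + 2) ^ 2) r := by
    refine (((hasDerivAt_id r).const_mul 4).div ((hasDerivAt_id r).add_const 2) hw).congr_deriv ?_
    simp only [id]; ring
  have h3 := ((((((hasDerivAt_pow 3 r).div_const 3).fun_add ((hasDerivAt_id r).const_mul 2)).fun_sub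
    (hlog.const_mul 2)).fun_add hinv).sub_const 2).div_const 6
  have h4 := ((((((hasDerivAt_pow 4 r).div_const 4).fun_add (hasDerivAt_pow 2 r)).fun_sub
    ((hasDerivAt_id r).const_mul 2)).fun_add hfr)).div_const 6
  refine (((((hasDerivAt_pow 5 r).div_const 20).fun_add ((hasDeriv_u4 hr).mul_const (1 - a ^ 2))).fun_add
    (h3.const_mul (5 * a ^ 2 - 1))).fun_sub (h4.const_mul (4 * a))).congr_deriv ?_
  simp only [ek, du4, u3, u4]
  field_simp
  push_cast
  ring

theorem prim_zero (a : ℝ) : prim 0 a = 0 := by norm_num [prim, u4]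

/-- The quotient of the sign condition. -/
def quo (r a : ℝ) : ℝ :=
  12 + 18 * r + 24 * r ^ 2 + 24 * r ^ 3 + 20 * r ^ 4 + 9 * r ^ 5 + 3 / 2 * r ^ 6
    - a * (18 * r + 27 * r ^ 2 + 16 * r ^ 3 + 6 * r ^ 4 + r ^ 5)

theorem ek_factor {r : ℝ} (hr : 0 ≤ r) (a : ℝ) :
    3 * (r + 2) ^ 3 * (2 * ek r a - a) = (r - 2 * a) * quo r a := by
  simp only [ek, du4, u3, u4, quo]
  field_simp
  ring

theorem quo_nonneg {r a : ℝ} (hr : 0 ≤ r) (ha : a ≤ 1) : 0 ≤ quo r a := by
  have h1 : quo r 1 ≤ quo r a := by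
    have : 0 ≤ (1 - a) * (18 * r + 27 * r ^ 2 + 16 * r ^ 3 + 6 * r ^ 4 + r ^ 5) :=
      mul_nonneg (by linarith) (by positivity)
    simp only [quo]; linarith
  refine le_trans ?_ h1
  have : 0 ≤ 8 * r ^ 3 + 8 * r ^ 5 + 3 / 2 * r ^ 6 := by positivity
  simp only [quo]
  nlinarith [sq_nonneg (14 * r ^ 2 - 3 / 2)]

theorem sign_hi {r a : ℝ} (hr : 0 ≤ r) (ha : a ≤ 1) (h : 2 * a ≤ r) : a / 2 ≤ ek r a := by
  have h1 : 0 ≤ 3 * (r + 2) ^ 3 * (2 * ek r a - a) := by
    rw [ek_factor hr]; exact mul_nonneg (by linarith) (quo_nonneg hr ha)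
  linarith [nonneg_of_mul_nonneg_right h1 (by positivity)]

theorem sign_lo {r a : ℝ} (hr : 0 ≤ r) (ha : a ≤ 1) (h : r ≤ 2 * a) : ek r a ≤ a / 2 := by
  have h1 : 3 * (r + 2) ^ 3 * (2 * ek r a - a) ≤ 0 := by
    rw [ek_factor hr]; exact mul_nonpos_of_nonpos_of_nonneg (by linarith) (quo_nonneg hr ha)
  by_contra hc
  have : 0 < 3 * (r + 2) ^ 3 * (2 * ek r a - a) := mul_pos (by positivity) (by linarith)
  linarith

theorem ek_nonneg {r a : ℝ} (hr : 0 ≤ r) (ha0 : -1 ≤ a) (ha1 : a ≤ 1) : 0 ≤ ek r a := by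
  set A0 : ℝ := 12 + 18 * r + 24 * r ^ 2 + 24 * r ^ 3 + 20 * r ^ 4 + 9 * r ^ 5 + 3 / 2 * r ^ 6
  set A1 : ℝ := 48 * r + 72 * r ^ 2 + 56 * r ^ 3 + 24 * r ^ 4 + 4 * r ^ 5
  set A2 : ℝ := 36 + 54 * r + 32 * r ^ 2 + 12 * r ^ 3 + 2 * r ^ 4
  have e : 6 * (r + 2) ^ 3 * ek r a = r * (A0 - a * A1 + a ^ 2 * A2) := by
    simp only [ek, du4, u3, u4, A0, A1, A2]
    field_simp
    ring
  suffices h : 0 ≤ A0 - a * A1 + a ^ 2 * A2 by
    refine nonneg_of_mul_nonneg_right (a := 6 * (r + 2) ^ 3) ?_ (by positivity)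
    rw [e]; exact mul_nonneg hr h
  have hA0 : 0 ≤ A0 := by positivity
  have hA1 : 0 ≤ A1 := by positivity
  have hA2 : 0 < A2 := by positivity
  rcases le_total r (3 / 2) with hr2 | hr2
  · have hD : A1 ^ 2 ≤ 4 * A0 * A2 := by
      have h5 : r ^ 5 ≤ 3 / 2 * r ^ 4 := by nlinarith [pow_nonneg hr 4]
      have h6 : r ^ 6 ≤ 9 / 4 * r ^ 4 := by nlinarith [pow_nonneg hr 4, pow_nonneg hr 5]
      have h7 : r ^ 7 ≤ 27 / 8 * r ^ 4 := by nlinarith [pow_nonneg hr 4, pow_nonneg hr 6]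
      have h8 : r ^ 8 ≤ 81 / 16 * r ^ 4 := by nlinarith [pow_nonneg hr 4, pow_nonneg hr 7]
      have h9 : r ^ 9 ≤ 243 / 32 * r ^ 4 := by nlinarith [pow_nonneg hr 4, pow_nonneg hr 8]
      have h10 : r ^ 10 ≤ 729 / 64 * r ^ 4 := by nlinarith [pow_nonneg hr 4, pow_nonneg hr 9]
      have h3 : r ^ 4 ≤ 3 / 2 * r ^ 3 := by nlinarith [pow_nonneg hr 3]
      have h2 : r ^ 4 ≤ 9 / 4 * r ^ 2 := by nlinarith [pow_nonneg hr 2, pow_nonneg hr 3]
      have e2 : 4 * A0 * A2 - A1 ^ 2 = 1728 + 5184 * r + 6576 * r ^ 2 + 4608 * r ^ 3 + 1536 * r ^ 4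
          - 384 * r ^ 5 - 912 * r ^ 6 - 636 * r ^ 7 - 240 * r ^ 8 - 48 * r ^ 9 - 4 * r ^ 10 := by
        simp only [A0, A1, A2]; ring
      linarith [pow_nonneg hr 4]
    refine nonneg_of_mul_nonneg_right (a := 4 * A2) ?_ (by positivity)
    nlinarith [sq_nonneg (2 * A2 * a - A1)]
  · obtain ⟨s, hs, rfl⟩ : ∃ s, 0 ≤ s ∧ r = 3 / 2 + s := ⟨r - 3 / 2, by linarith, by ring⟩
    have hV : 0 ≤ A0 - A1 + A2 := by
      have : A0 - A1 + A2 = 3255 / 128 + 285 / 32 * s + 4789 / 32 * s ^ 2 + 727 / 4 * s ^ 3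
          + 689 / 8 * s ^ 4 + 37 / 2 * s ^ 5 + 3 / 2 * s ^ 6 := by
        simp only [A0, A1, A2]; ring
      rw [this]; positivity
    have hB : 2 * A2 ≤ A1 := by
      have : A1 - 2 * A2 = 765 / 8 + 2205 / 4 * s + 557 * s ^ 2 + 242 * s ^ 3 + 50 * s ^ 4
          + 4 * s ^ 5 := by
        simp only [A1, A2]; ring
      have : 0 ≤ A1 - 2 * A2 := by rw [this]; positivity
      linarith
    nlinarith [mul_nonneg (sub_nonneg.2 ha1)
      (show 0 ≤ A1 - A2 * (1 + a) by nlinarith)]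

theorem prim_mono {a : ℝ} (ha0 : -1 ≤ a) (ha1 : a ≤ 1) :
    MonotoneOn (fun x => prim x a) (Ici 0) :=
  monotoneOn_of_hasDerivWithinAt_nonneg (convex_Ici 0)
    (fun _ hx => (hasDeriv_prim hx a).continuousAt.continuousWithinAt)
    (fun x hx => (hasDeriv_prim (interior_subset hx : x ∈ Ici (0 : ℝ)) a).hasDerivWithinAt)
    fun x hx => ek_nonneg (interior_subset hx : x ∈ Ici (0 : ℝ)) ha0 ha1

/-- The tangency at `r = 2a`. -/
theorem prim_cert {a t : ℝ} (ha0 : 0 ≤ a) (ha1 : a ≤ 1) (ht : 0 ≤ t) :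
    a * t / 2 + (prim (2 * a) a - a ^ 2) ≤ prim t a := by
  set H : ℝ → ℝ := fun x => prim x a - a * x / 2
  have hH : ∀ x : ℝ, 0 ≤ x → HasDerivAt H (ek x a - a / 2) x := fun x hx => by
    refine ((hasDeriv_prim hx a).fun_sub (((hasDerivAt_id x).const_mul a).div_const 2)).congr_deriv ?_
    simp
  have hd : AntitoneOn H (Icc 0 (2 * a)) := antitoneOn_of_hasDerivWithinAt_nonpos (convex_Icc _ _)
    (fun x hx => (hH x hx.1).continuousAt.continuousWithinAt)
    (fun x hx => (hH x (interior_subset hx).1).hasDerivWithinAt)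
    fun x hx => by
      linarith [sign_lo (interior_subset hx).1 ha1 (interior_subset hx).2]
  have hu : MonotoneOn H (Ici (2 * a)) := monotoneOn_of_hasDerivWithinAt_nonneg (convex_Ici _)
    (fun x hx => (hH x (le_trans (by linarith) (mem_Ici.1 hx))).continuousAt.continuousWithinAt)
    (fun x hx => (hH x (le_trans (by linarith) (mem_Ici.1 (interior_subset hx)))).hasDerivWithinAt)
    fun x hx => by
      have hx' : 2 * a ≤ x := mem_Ici.1 (interior_subset hx)
      linarith [sign_hi (show 0 ≤ x by linarith) ha1 hx']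
  have : H (2 * a) ≤ H t := by
    rcases le_total t (2 * a) with h | h
    · exact hd ⟨ht, h⟩ ⟨by linarith, le_rfl⟩ h
    · exact hu self_mem_Ici h h
  simp only [H] at this
  nlinarith

theorem prim_diag_mem {c : ℝ} (hc0 : 0 ≤ c) (hc1 : c ≤ 1) :
    0 ≤ prim (2 * c) c ∧ prim (2 * c) c ≤ c ^ 2 := by
  constructor
  · have := prim_mono (show -1 ≤ c by linarith) hc1 self_mem_Ici
      (show 2 * c ∈ Ici (0 : ℝ) by simp [hc0]) (by linarith)
    simpa [prim_zero] using this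
  · have := prim_cert hc0 hc1 le_rfl
    rw [prim_zero] at this
    nlinarith

theorem cont_diag : ContinuousOn (fun c => prim (2 * c) c) (Icc (0 : ℝ) 1) := by
  have h1 : ∀ c ∈ Icc (0 : ℝ) 1, 2 * c + 2 ≠ 0 := fun c hc => by linarith [hc.1]
  have h2 : ∀ c ∈ Icc (0 : ℝ) 1, 6 * (2 * c + 2) ^ 2 ≠ 0 := fun c hc => by
    have := h1 c hc; positivity
  have h3 : ∀ c ∈ Icc (0 : ℝ) 1, (2 * c + 2) / 2 ≠ 0 := fun c hc =>
    div_ne_zero (h1 c hc) two_ne_zero
  simp only [prim, u4]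
  fun_prop (disch := assumption)

theorem integral_diag :
    (∫ c in (0 : ℝ)..1, prim (2 * c) c * (1 - c ^ 2)) = 1 / 15 := by
  set A : ℝ → ℝ := fun c => (2 * c * (1 - c ^ 2) ^ 2 * Real.log (1 + c)
    + (-2 * c ^ 2 + 2 * c ^ 3 + 10 / 3 * c ^ 4 - 2 * c ^ 5 - 16 / 15 * c ^ 6 + 2 / 15 * c ^ 8)) / 6
  have hA : ∀ c ∈ uIcc (0 : ℝ) 1, HasDerivAt A (prim (2 * c) c * (1 - c ^ 2)) c := by
    intro c hc
    rw [uIcc_of_le zero_le_one] at hc
    have hc1 : 1 + c ≠ 0 := by linarith [hc.1]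
    have hl : HasDerivAt (fun x : ℝ => Real.log (1 + x)) (1 / (1 + c)) c := by
      refine (((hasDerivAt_id c).const_add 1).log (by simpa using hc1)).congr_deriv ?_
      simp
    have hp := (((((((hasDerivAt_pow 2 c).const_mul (-2)).fun_add ((hasDerivAt_pow 3 c).const_mul 2)).fun_add
      ((hasDerivAt_pow 4 c).const_mul (10 / 3))).fun_sub ((hasDerivAt_pow 5 c).const_mul 2)).fun_sub
      ((hasDerivAt_pow 6 c).const_mul (16 / 15))).fun_add ((hasDerivAt_pow 8 c).const_mul (2 / 15)))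
    have hq := (((hasDerivAt_id c).const_mul 2).fun_mul
      (((hasDerivAt_pow 2 c).const_sub 1).fun_pow 2)).fun_mul hl
    refine ((hq.fun_add hp).div_const 6).congr_deriv ?_
    have hlog : (2 * c + 2) / 2 = 1 + c := by ring
    have hw : 2 * c + 2 ≠ 0 := by linarith [hc.1]
    have hd : 2 * c + 2 = 2 * (1 + c) := by ring
    simp only [prim, u4, id, hd]
    push_cast
    field_simp
    ring
  have hcont : ContinuousOn (fun c => prim (2 * c) c * (1 - c ^ 2)) (uIcc 0 1) := by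
    rw [uIcc_of_le zero_le_one]
    exact cont_diag.mul (by fun_prop)
  rw [intervalIntegral.integral_eq_sub_of_hasDerivAt hA hcont.intervalIntegrable]
  norm_num [A]

/-- The switch: `0` below `η/2`, `1` above `η`. -/
def sw (η r : ℝ) : ℝ := Real.smoothTransition (2 * r / η - 1)

/-- The weight. -/
def wF (r : ℝ) : ℝ := (r ^ 3 + 4 * r ^ 2 + 6 * r + 6) / (6 * r ^ 2 * (r + 2) ^ 2)

def wdF (r : ℝ) : ℝ :=
  ((1 - 2 / (r + 2) ^ 2 - 4 / (r + 2) ^ 3) * r - 2 * (r + 2 / (r + 2) + 2 / (r + 2) ^ 2))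
    / (6 * r ^ 3)

theorem contDiff_sw (η : ℝ) : ContDiff ℝ 1 (sw η) := by
  unfold sw; exact Real.smoothTransition.contDiff.comp (by fun_prop)

theorem sw_mem (η r : ℝ) : sw η r ∈ Icc (0 : ℝ) 1 :=
  ⟨Real.smoothTransition.nonneg _, Real.smoothTransition.le_one _⟩

theorem sw_mono {η : ℝ} (hη : 0 < η) : Monotone (sw η) := fun x y hxy => by
  refine Real.smoothTransition.monotone ?_
  gcongr

theorem sw_zero {η r : ℝ} (hη : 0 < η) (hr : r ≤ η / 2) : sw η r = 0 := by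
  refine Real.smoothTransition.zero_of_nonpos ?_
  rw [sub_nonpos, div_le_one hη]; linarith

theorem sw_one {η r : ℝ} (hη : 0 < η) (hr : η ≤ r) : sw η r = 1 := by
  refine Real.smoothTransition.one_of_one_le ?_
  have : 2 ≤ 2 * r / η := by rw [le_div_iff₀ hη]; linarith
  linarith

theorem hasDeriv_wF {r : ℝ} (hr : 0 < r) : HasDerivAt wF (wdF r) r := by
  have hn := ((((hasDerivAt_pow 3 r).fun_add ((hasDerivAt_pow 2 r).const_mul 4)).fun_add
    ((hasDerivAt_id r).const_mul 6)).add_const 6)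
  have hd := ((hasDerivAt_pow 2 r).const_mul 6).fun_mul (((hasDerivAt_id r).add_const 2).fun_pow 2)
  refine (hn.div hd (by simp only [id]; positivity)).congr_deriv ?_
  simp only [wdF, id]
  push_cast
  field_simp
  ring

/-- The cut-off weight. -/
def cF (η r : ℝ) : ℝ := sw η r * wF r

def cf (η r : ℝ) : ℝ := sw η r * ((r ^ 3 + 4 * r ^ 2 + 6 * r + 6) / (6 * r ^ 3 * (r + 2) ^ 2))

theorem smooth_cut {η : ℝ} (hη : 0 < η) {q : ℝ → ℝ}
    (hq : ∀ r, 0 < r → ContDiffAt ℝ 1 q r) : ContDiff ℝ 1 fun r => sw η r * q r := by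
  refine contDiff_iff_contDiffAt.2 fun r => ?_
  rcases lt_or_ge r (η / 2) with h | h
  · refine (contDiffAt_const (c := (0 : ℝ))).congr_of_eventuallyEq ?_
    filter_upwards [Iio_mem_nhds h] with x hx
    rw [sw_zero hη (le_of_lt hx), zero_mul]
  · exact (contDiff_sw η).contDiffAt.mul (hq r (by linarith))

theorem contDiff_cF {η : ℝ} (hη : 0 < η) : ContDiff ℝ 1 (cF η) :=
  smooth_cut hη fun r hr => by
    unfold wF
    exact ContDiffAt.div (by fun_prop) (by fun_prop) (by positivity)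

theorem contDiff_cf {η : ℝ} (hη : 0 < η) : ContDiff ℝ 1 (cf η) :=
  smooth_cut hη fun r hr => ContDiffAt.div (by fun_prop) (by fun_prop) (by positivity)

theorem deriv_cF {η r : ℝ} (hr : 0 < r) :
    deriv (cF η) r = deriv (sw η) r * wF r + sw η r * wdF r :=
  ((((contDiff_sw η).differentiable one_ne_zero) r).hasDerivAt.mul (hasDeriv_wF hr)).deriv

theorem deriv_sw_zero {η r : ℝ} (hη : 0 < η) (hr : η < r) : deriv (sw η) r = 0 := by
  have : sw η =ᶠ[𝓝 r] fun _ => (1 : ℝ) := by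
    filter_upwards [Ioi_mem_nhds hr] with x hx
    exact sw_one hη (le_of_lt hx)
  rw [this.deriv_eq, deriv_const]

theorem wF_nonneg {r : ℝ} (hr : 0 ≤ r) : 0 ≤ wF r := by unfold wF; positivity

theorem exists_bound {η : ℝ} (hη : 0 < η) : ∃ C, ∀ r, 0 ≤ r →
    |cF η r| ≤ C ∧ |deriv (cF η) r| ≤ C ∧ |cf η r| ≤ C := by
  obtain ⟨C1, h1⟩ := (isCompact_Icc (a := (0 : ℝ)) (b := η)).exists_bound_of_continuousOn
    (contDiff_cF hη).continuous.continuousOn
  obtain ⟨C2, h2⟩ := (isCompact_Icc (a := (0 : ℝ)) (b := η)).exists_bound_of_continuousOn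
    ((contDiff_cF hη).continuous_deriv le_rfl).continuousOn
  obtain ⟨C3, h3⟩ := (isCompact_Icc (a := (0 : ℝ)) (b := η)).exists_bound_of_continuousOn
    (contDiff_cf hη).continuous.continuousOn
  set C4 := 10 / η + 10 / η ^ 2 + 10 / η ^ 3
  refine ⟨max (max C1 C2) (max C3 C4), fun r hr => ?_⟩
  rcases le_or_gt r η with h | h
  · exact ⟨(h1 r ⟨hr, h⟩).trans (le_max_of_le_left (le_max_left _ _)),
      (h2 r ⟨hr, h⟩).trans (le_max_of_le_left (le_max_right _ _)),
      (h3 r ⟨hr, h⟩).trans (le_max_of_le_right (le_max_left _ _))⟩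
  have hr0 : 0 < r := hη.trans h
  have hN : (r ^ 3 + 4 * r ^ 2 + 6 * r + 6) / (r + 2) ^ 2 ≤ r + 2 := by
    rw [div_le_iff₀ (by positivity)]; nlinarith
  have hN0 : 0 ≤ (r ^ 3 + 4 * r ^ 2 + 6 * r + 6) / (r + 2) ^ 2 := by positivity
  have p1 : 1 / r ≤ 1 / η := by gcongr
  have p2 : 1 / r ^ 2 ≤ 1 / η ^ 2 := by gcongr
  have p3 : 1 / r ^ 3 ≤ 1 / η ^ 3 := by gcongr
  have hC : 10 * (1 / r + 1 / r ^ 2 + 1 / r ^ 3) ≤ C4 := by
    have : C4 = 10 * (1 / η + 1 / η ^ 2 + 1 / η ^ 3) := by ring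
    linarith
  have hC4 : C4 ≤ max (max C1 C2) (max C3 C4) := le_max_of_le_right (le_max_right _ _)
  have q0 : 0 < 1 / r := by positivity
  have q1 : 0 < 1 / r ^ 2 := by positivity
  have q2 : 0 < 1 / r ^ 3 := by positivity
  refine ⟨le_trans ?_ hC4, le_trans ?_ hC4, le_trans ?_ hC4⟩
  · rw [cF, sw_one hη h.le, one_mul, abs_of_nonneg (wF_nonneg hr)]
    have : wF r ≤ (r + 2) / (6 * r ^ 2) := by
      rw [show wF r = (r ^ 3 + 4 * r ^ 2 + 6 * r + 6) / (r + 2) ^ 2 / (6 * r ^ 2) by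
        unfold wF; field_simp]
      gcongr
    have e : (r + 2) / (6 * r ^ 2) = 1 / 6 * (1 / r) + 1 / 3 * (1 / r ^ 2) := by field_simp; ring
    linarith
  · rw [deriv_cF hr0, deriv_sw_zero hη h, sw_one hη h.le, zero_mul, zero_add, one_mul, wdF,
      abs_div, abs_of_pos (show 0 < 6 * r ^ 3 by positivity)]
    have a1 : 2 / (r + 2) ^ 2 ≤ 1 := by rw [div_le_one (by positivity)]; nlinarith
    have a2 : 4 / (r + 2) ^ 3 ≤ 1 := by rw [div_le_one (by positivity)]; nlinarith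
    have a3 : 2 / (r + 2) ≤ 1 := by rw [div_le_one (by positivity)]; linarith
    have b1 : 0 ≤ 2 / (r + 2) ^ 2 := by positivity
    have b2 : 0 ≤ 4 / (r + 2) ^ 3 := by positivity
    have b3 : 0 ≤ 2 / (r + 2) := by positivity
    have hab : |(1 - 2 / (r + 2) ^ 2 - 4 / (r + 2) ^ 3) * r -
        2 * (r + 2 / (r + 2) + 2 / (r + 2) ^ 2)| ≤ 9 * r + 4 := by
      rw [abs_le]; constructor <;> nlinarith
    refine (div_le_div_of_nonneg_right hab (by positivity)).trans ?_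
    have e : (9 * r + 4) / (6 * r ^ 3) = 3 / 2 * (1 / r ^ 2) + 2 / 3 * (1 / r ^ 3) := by
      field_simp; ring
    linarith
  · rw [cf, sw_one hη h.le, one_mul, abs_of_nonneg (by positivity)]
    have : (r ^ 3 + 4 * r ^ 2 + 6 * r + 6) / (6 * r ^ 3 * (r + 2) ^ 2)
        ≤ (r + 2) / (6 * r ^ 3) := by
      rw [show (r ^ 3 + 4 * r ^ 2 + 6 * r + 6) / (6 * r ^ 3 * (r + 2) ^ 2)
        = (r ^ 3 + 4 * r ^ 2 + 6 * r + 6) / (r + 2) ^ 2 / (6 * r ^ 3) by field_simp]
      gcongr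
    have e : (r + 2) / (6 * r ^ 3) = 1 / 6 * (1 / r ^ 2) + 1 / 3 * (1 / r ^ 3) := by field_simp; ring
    linarith

/-- The interior weight. -/
def wgt {η : ℝ} (hη : 0 < η) : Radial where
  F := cF η
  dF := deriv (cF η)
  f := cf η
  hasDeriv t := ((contDiff_cF hη).differentiable one_ne_zero t).hasDerivAt
  cont_dF := (contDiff_cF hη).continuous_deriv le_rfl
  cont_f := (contDiff_cf hη).continuous
  F_eq t := by
    rcases eq_or_ne t 0 with rfl | h
    · simp [cF, sw_zero hη (show (0 : ℝ) ≤ η / 2 by linarith)]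
    · simp only [cF, cf, wF]; field_simp
  f_nonneg t ht := mul_nonneg (sw_mem η t).1 (by positivity)
  bdd := exists_bound hη

theorem kernel_eq {η r a : ℝ} (hη : 0 < η) (hr : 0 < r) :
    r ^ 4 * (1 / 4 + (wgt hη).K 5 r a)
      = r ^ 4 / 4 + sw η r * (ek r a - r ^ 4 / 4) + deriv (sw η) r * u4 r * (1 - a ^ 2) := by
  simp only [Radial.K, wgt]
  rw [deriv_cF hr]
  simp only [cF, cf, wF, wdF, ek, du4, u3, u4]
  push_cast
  field_simp
  ring

theorem inner_pos {η r a : ℝ} (hη : 0 < η) (hr : 0 ≤ r) (ha : a ∈ Icc (-1 : ℝ) 1) :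
    0 ≤ 1 / 4 + (wgt hη).K 5 r a := by
  rcases hr.eq_or_lt with h | h
  · subst h
    have : deriv (cF η) 0 = 0 := by
      have : cF η =ᶠ[𝓝 (0 : ℝ)] fun _ => (0 : ℝ) := by
        filter_upwards [Iio_mem_nhds (show (0 : ℝ) < η / 2 by linarith)] with x hx
        simp [cF, sw_zero hη (le_of_lt hx)]
      rw [this.deriv_eq, deriv_const]
    have h0 := sw_zero hη (show (0 : ℝ) ≤ η / 2 by linarith)
    simp only [Radial.K, wgt, this, cF, cf, h0]
    norm_num
  · refine nonneg_of_mul_nonneg_right (a := r ^ 4) ?_ (by positivity)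
    rw [kernel_eq hη h]
    obtain ⟨g0, g1⟩ := sw_mem η r
    have d0 : 0 ≤ deriv (sw η) r := (sw_mono hη).deriv_nonneg
    have u0 : 0 ≤ u4 r := by unfold u4; positivity
    have a0 : 0 ≤ 1 - a ^ 2 := by nlinarith [ha.1, ha.2]
    have := ek_nonneg hr ha.1 ha.2
    nlinarith [mul_nonneg (mul_nonneg d0 u0) a0, mul_nonneg g0 this,
      mul_nonneg (sub_nonneg.2 g1) (show (0 : ℝ) ≤ r ^ 4 / 4 by positivity)]

theorem cont_K {η : ℝ} (hη : 0 < η) (a : ℝ) :
    Continuous fun r => r ^ (5 - 1) * (1 / 4 + (wgt hη).K 5 r a) := by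
  have := (contDiff_cF hη).continuous
  have := (contDiff_cF hη).continuous_deriv le_rfl
  have := (contDiff_cf hη).continuous
  simp only [Radial.K, wgt]
  fun_prop

theorem inner_lower {η t a : ℝ} (hη : 0 < η) (hη1 : η ≤ 1) (ht : η ≤ t) (ha0 : 0 ≤ a) :
    prim t a - 5 * a ^ 2 * η ≤ ∫ r in (0 : ℝ)..t, r ^ (5 - 1) * (1 / 4 + (wgt hη).K 5 r a) := by
  set D : ℝ → ℝ := fun r => (sw η r - 1) * ((5 * a ^ 2 - 1) * u3 r - 4 * a * u4 r)
  have hw : ∀ x ∈ Icc (0 : ℝ) t, 6 * (x + 2) ^ 2 ≠ 0 := fun x hx => by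
    have : 0 < x + 2 := by linarith [hx.1]
    positivity
  have hu3 : ContinuousOn u3 (Icc 0 t) := by
    unfold u3; fun_prop (disch := assumption)
  have hu4 : ContinuousOn u4 (Icc 0 t) := by
    unfold u4; fun_prop (disch := assumption)
  have hD : ContinuousOn D (Icc 0 t) :=
    (((contDiff_sw η).continuous.continuousOn).sub continuousOn_const).mul
      ((continuousOn_const.mul hu3).sub (continuousOn_const.mul hu4))
  have hK := cont_K hη a
  have hgd : ∀ r, HasDerivAt (sw η) (deriv (sw η) r) r := fun r =>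
    ((contDiff_sw η).differentiable one_ne_zero r).hasDerivAt
  have hder : ∀ r ∈ Ioo (0 : ℝ) t,
      HasDerivAt (fun x => prim x a + (sw η x - 1) * u4 x * (1 - a ^ 2))
        (r ^ (5 - 1) * (1 / 4 + (wgt hη).K 5 r a) - D r) r := fun r hr => by
    refine ((hasDeriv_prim hr.1.le a).fun_add
      ((((hgd r).sub_const 1).fun_mul (hasDeriv_u4 hr.1.le)).mul_const (1 - a ^ 2))).congr_deriv ?_
    rw [show (5 - 1 : ℕ) = 4 by rfl, kernel_eq hη hr.1]
    simp only [D, ek]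
    ring
  have ht0 : 0 ≤ t := hη.le.trans ht
  have hcont : ContinuousOn (fun x => prim x a + (sw η x - 1) * u4 x * (1 - a ^ 2)) (Icc 0 t) :=
    ContinuousOn.add (fun x hx => (hasDeriv_prim hx.1 a).continuousAt.continuousWithinAt)
      ((((contDiff_sw η).continuous.continuousOn).sub continuousOn_const).mul hu4 |>.mul
        continuousOn_const)
  have hFTC := intervalIntegral.integral_eq_sub_of_hasDerivAt_of_le ht0 hcont hder
    ((hK.intervalIntegrable 0 t).sub (hD.intervalIntegrable_of_Icc ht0))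
  rw [intervalIntegral.integral_sub (hK.intervalIntegrable 0 t) (hD.intervalIntegrable_of_Icc ht0),
    sw_one hη ht, prim_zero, show u4 0 = 0 by simp [u4]] at hFTC
  have hb : -(5 * a ^ 2 * η) ≤ ∫ r in (0 : ℝ)..t, D r := by
    rw [← intervalIntegral.integral_add_adjacent_intervals (b := η)
      ((hD.mono (Icc_subset_Icc_right ht)).intervalIntegrable_of_Icc hη.le)
      ((hD.mono (Icc_subset_Icc_left hη.le)).intervalIntegrable_of_Icc ht)]
    have e : (∫ r in η..t, D r) = 0 := by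
      refine intervalIntegral.integral_zero_ae (Eventually.of_forall fun r hr => ?_)
      rw [uIoc_of_le ht] at hr
      simp [D, sw_one hη hr.1.le]
    rw [e, add_zero]
    have := intervalIntegral.integral_mono_on hη.le
      (intervalIntegrable_const (μ := volume) (c := -(5 * a ^ 2)))
      ((hD.mono (Icc_subset_Icc_right ht)).intervalIntegrable_of_Icc hη.le) fun r hr => ?_
    · rw [intervalIntegral.integral_const, smul_eq_mul] at this
      linarith
    · obtain ⟨g0, g1⟩ := sw_mem η r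
      have h3a : 0 ≤ u3 r := by have := hr.1; unfold u3; positivity
      have h3b : u3 r ≤ 1 := by
        have r0 := hr.1
        have r1 : r ≤ 1 := hr.2.trans hη1
        unfold u3
        rw [div_le_one (by positivity)]
        nlinarith [pow_le_one₀ (n := 2) r0 r1, pow_le_one₀ (n := 3) r0 r1,
          pow_le_one₀ (n := 4) r0 r1, mul_nonneg r0 r0]
      have h4a : 0 ≤ u4 r := by have := hr.1; unfold u4; positivity
      simp only [D]
      nlinarith [mul_nonneg (sub_nonneg.2 g1) (add_nonneg h3a (mul_nonneg (mul_nonneg (by norm_num : (0 : ℝ) ≤ 4) ha0) h4a)),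
        mul_nonneg (mul_nonneg g0 (sq_nonneg a)) h3a, mul_le_mul_of_nonneg_left h3b (sq_nonneg a)]
  linarith

/-- The clamp to `[0,1]`. -/
def clamp (c : ℝ) : ℝ := min 1 (max 0 c)

/-- The boundary multiplier. -/
def phi (η c : ℝ) : ℝ :=
  clamp c - prim (2 * clamp c) (clamp c) / (clamp c + η) + 6 * η

theorem clamp_mem (c : ℝ) : clamp c ∈ Icc (0 : ℝ) 1 :=
  ⟨le_min zero_le_one (le_max_left _ _), min_le_left _ _⟩

theorem cont_phi {η : ℝ} (hη : 0 < η) : Continuous (phi η) := by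
  have hc : Continuous clamp := by unfold clamp; fun_prop
  have h0 := fun c => (clamp_mem c).1
  unfold phi prim u4
  fun_prop (disch := (intro c; have := h0 c; positivity))

theorem phi_ge {η : ℝ} (hη : 0 < η) (c : ℝ) : 6 * η ≤ phi η c := by
  obtain ⟨c0, c1⟩ := clamp_mem c
  obtain ⟨-, p1⟩ := prim_diag_mem c0 c1
  have : prim (2 * clamp c) (clamp c) / (clamp c + η) ≤ clamp c := by
    rw [div_le_iff₀ (by linarith)]; nlinarith
  unfold phi; linarith

theorem half_cert {η t a : ℝ} (hη : 0 < η) (hη1 : η ≤ 1) (ht : 0 < t) (ha : a ∈ Ioc (0 : ℝ) 1) :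
    t / 2 ≤ (∫ r in (0 : ℝ)..t, r ^ (5 - 1) * (1 / 4 + (wgt hη).K 5 r a)) / a + phi η a := by
  rcases lt_or_ge t η with h | h
  · have hI : 0 ≤ ∫ r in (0 : ℝ)..t, r ^ (5 - 1) * (1 / 4 + (wgt hη).K 5 r a) :=
      intervalIntegral.integral_nonneg ht.le fun r hr =>
        mul_nonneg (pow_nonneg hr.1 _) (inner_pos hη hr.1 ⟨by linarith [ha.1], ha.2⟩)
    have := phi_ge hη a
    have : 0 ≤ (∫ r in (0 : ℝ)..t, r ^ (5 - 1) * (1 / 4 + (wgt hη).K 5 r a)) / a :=
      div_nonneg hI ha.1.le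
    linarith
  · have hca : clamp a = a := by simp [clamp, max_eq_right ha.1.le, min_eq_right ha.2]
    have h1 := inner_lower hη hη1 h ha.1.le
    have h2 := prim_cert ha.1.le ha.2 ht.le
    obtain ⟨p0, -⟩ := prim_diag_mem ha.1.le ha.2
    have h3 : prim (2 * a) a / (a + η) ≤ prim (2 * a) a / a :=
      div_le_div_of_nonneg_left p0 ha.1 (by linarith)
    have h4 : t / 2 + prim (2 * a) a / a - a - 5 * η ≤
        (∫ r in (0 : ℝ)..t, r ^ (5 - 1) * (1 / 4 + (wgt hη).K 5 r a)) / a := by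
      rw [le_div_iff₀ ha.1, sub_mul, sub_mul, add_mul, div_mul_cancel₀ _ ha.1.ne']
      nlinarith [mul_nonneg (mul_nonneg ha.1.le hη.le) (sub_nonneg.2 ha.2)]
    simp only [phi, hca]
    linarith

/-- The zero weight. -/
def zeroWgt : Radial where
  F _ := 0
  dF _ := 0
  f _ := 0
  hasDeriv t := hasDerivAt_const t 0
  cont_dF := continuous_const
  cont_f := continuous_const
  F_eq t := by simp
  f_nonneg _ _ := le_rfl
  bdd := ⟨0, fun t _ => by simp⟩

theorem zeroWgt_K (t c : ℝ) : zeroWgt.K 5 t c = 0 := by simp [Radial.K, zeroWgt]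

/-- The calibration. -/
def calib {η : ℝ} (hη : 0 < η) (hη1 : η ≤ 1) : Calib 5 where
  α := 0
  β := 1 / 4
  bdry := zeroWgt
  inner := wgt hη
  φ := phi η
  cont_φ := cont_phi hη
  α_nonneg := le_rfl
  β_nonneg := by norm_num
  φ_nonneg c _ := le_trans (by linarith) (phi_ge hη c)
  bdry_nonneg t a b _ _ _ := by simp [zeroWgt_K]
  inner_nonneg t c ht hc := inner_pos hη ht hc
  cert t a b ht ha hb := by
    simp only [zeroWgt_K, add_zero, zero_div, mul_zero, zero_add]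
    linarith [half_cert hη hη1 ht ha, half_cert hη hη1 ht hb]

theorem calib_cost {η : ℝ} (hη : 0 < η) (hη1 : η ≤ 1) : (calib hη hη1).cost ≤ 1 + 60 * η := by
  simp only [Calib.cost, Calib.mu, calib]
  have hψ : Continuous fun c : ℝ => c * phi η c := continuous_id.mul (cont_phi hη)
  have hpr : ContinuousOn (fun c => (c ^ 2 - prim (2 * c) c + 7 * η) * (1 - c ^ 2))
      (Icc (0 : ℝ) 1) :=
    (((continuous_pow 2).continuousOn.sub cont_diag).add continuousOn_const).mul (by fun_prop)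
  have hp : ContinuousOn (fun c => prim (2 * c) c * (1 - c ^ 2)) (Icc (0 : ℝ) 1) :=
    cont_diag.mul (by fun_prop)
  have hI : (∫ c in (0 : ℝ)..1, c * phi η c * (1 - c ^ 2)) ≤ 1 / 15 + 5 * η := by
    refine (intervalIntegral.integral_mono_on zero_le_one
      ((hψ.mul (continuous_const.sub (continuous_pow 2))).intervalIntegrable 0 1)
      (hpr.intervalIntegrable_of_Icc zero_le_one) fun c hc => ?_).trans ?_
    · refine mul_le_mul_of_nonneg_right ?_
        (by simp only [Pi.sub_apply]; nlinarith [hc.1, hc.2])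
      have hca : clamp c = c := by simp [clamp, max_eq_right hc.1, min_eq_right hc.2]
      obtain ⟨-, p1⟩ := prim_diag_mem hc.1 hc.2
      have hq : prim (2 * c) c / (c + η) ≤ 1 := by
        rw [div_le_one (by linarith [hc.1])]; nlinarith [hc.1, hc.2]
      have e : c * (prim (2 * c) c / (c + η)) = prim (2 * c) c - η * (prim (2 * c) c / (c + η)) := by
        field_simp [(show c + η ≠ 0 by linarith [hc.1])]
        ring
      simp only [phi, hca]
      nlinarith [mul_le_mul_of_nonneg_left hq hη.le, mul_le_mul_of_nonneg_left hc.2 hη.le]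
    · have e : ∀ c : ℝ, (c ^ 2 - prim (2 * c) c + 7 * η) * (1 - c ^ 2)
          = (c ^ 2 - c ^ 4 + 7 * η * (1 - c ^ 2)) - prim (2 * c) c * (1 - c ^ 2) := fun c => by ring
      simp only [e]
      rw [intervalIntegral.integral_sub ((by fun_prop : Continuous fun c : ℝ =>
        c ^ 2 - c ^ 4 + 7 * η * (1 - c ^ 2)).intervalIntegrable 0 1)
        (hp.intervalIntegrable_of_Icc zero_le_one), integral_diag]
      have : (∫ c in (0 : ℝ)..1, (c ^ 2 - c ^ 4 + 7 * η * (1 - c ^ 2))) = 2 / 15 + 14 / 3 * η := by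
        rw [intervalIntegral.integral_eq_sub_of_hasDerivAt (f := fun c : ℝ =>
          c ^ 3 / 3 - c ^ 5 / 5 + 7 * η * (c - c ^ 3 / 3)) (fun x _ => ?_)
          ((by fun_prop : Continuous fun c : ℝ =>
            c ^ 2 - c ^ 4 + 7 * η * (1 - c ^ 2)).intervalIntegrable 0 1)]
        · norm_num; ring
        refine ((((hasDerivAt_pow 3 x).div_const 3).fun_sub ((hasDerivAt_pow 5 x).div_const 5)).fun_add
          (((hasDerivAt_id x).fun_sub ((hasDerivAt_pow 3 x).div_const 3)).const_mul (7 * η))).congr_deriv ?_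
        push_cast; ring
      linarith
  rw [ballMoment_five hψ (by simp), omega_five]
  push_cast
  have hpi : Real.pi ≠ 0 := Real.pi_ne_zero
  rw [show 2 * Real.pi ^ 2 / 5 * (∫ c in (0 : ℝ)..1, c * phi η c * (1 - c ^ 2)) /
      (8 * Real.pi ^ 2 / 15) = 3 / 4 * ∫ c in (0 : ℝ)..1, c * phi η c * (1 - c ^ 2) by
    field_simp; ring]
  linarith

end

end Five

theorem exists_calib_five (δ : ℝ) (hδ : 0 < δ) : ∃ C : Calib 5, C.cost ≤ 1 + δ := by
  have hη : 0 < min 1 (δ / 60) := lt_min one_pos (by linarith)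
  exact ⟨Five.calib hη (min_le_left _ _),
    (Five.calib_cost hη (min_le_left _ _)).trans (by linarith [min_le_right (1 : ℝ) (δ / 60)])⟩

end Vale.Agent.P219
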