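import Vale.Agent.P219.Aniso
import Vale.Agent.P219.Nine.Poly
import Vale.Agent.P219.Cert
import Vale.Agent.P219.Cert.Marginal
import Vale.Agent.P219.Lines.Moments
import Vale.Agent.P219.Var.BandsTools

/-!
# P219: the calibration in dimension nine

`F(t,u) = (num t - u² rem t)/(123750 t⁴ (t+2)³)` and `α = 47/1800`, cut off by a smooth step on
`[η,2η]`. The scalar inequalities are in `Nine.Poly`; the cost is exactly `1` up to `O(η)`.
-/

open MeasureTheory Set Filter Topology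

namespace Vale.Agent.P219

namespace Nine

noncomputable section

def den (t : ℝ) : ℝ := 123750 * (t ^ 5 * (t + 2) ^ 3)

/-- `t num'`. -/
def tnum (t : ℝ) : ℝ :=
  41250 * t + 68200 * t ^ 2 + 121854 * t ^ 3 + 83508 * t ^ 4 + 31020 * t ^ 5 + 6204 * t ^ 6

/-- `t rem'`. -/
def trem (t : ℝ) : ℝ := 101808 * t + 78624 * t ^ 2

/-- `F / t`. -/
def g (t u : ℝ) : ℝ := (num t - u ^ 2 * rem t) / den t

def gt (t u : ℝ) : ℝ :=
  ((tnum t - u ^ 2 * trem t) - (num t - u ^ 2 * rem t) * (5 + 3 * (t / (t + 2)))) / den t / t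

def gu (t u : ℝ) : ℝ := -(2 * u * rem t) / den t

/-- The kernel at nonnegative cosines, with the square root replaced by its upper bound. -/
def Kp (t a u : ℝ) : ℝ :=
  (g t u + t * gt t u) * (1 - a ^ 2) + (7 + a ^ 2) * g t u - 8 * (t * g t u) * a
    + gu t u * a * (1 - (a ^ 2 + u ^ 2) / 2)

def Qp (t a b : ℝ) : ℝ := 47 / 1800 + (Kp t a b + Kp t b a) / 2

theorem den_pos {t : ℝ} (ht : 0 < t) : 0 < den t := by unfold den; positivity

theorem Qp_eq {t : ℝ} (ht : 0 < t) (a b : ℝ) :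
    Qp t a b * (495000 * t ^ 5 * (t + 2) ^ 4) = T t (a + b) (a * b) := by
  have := den_pos ht
  have h2 : t + 2 ≠ 0 := by linarith
  simp only [Qp, Kp, g, gt, gu, den, tnum, trem, num, rem, T, c00, c01, c02, c10, c11, c20, c21]
  field_simp
  ring

theorem Qp_nonneg {t a b : ℝ} (ht : 0 < t) (ha0 : 0 ≤ a) (ha1 : a ≤ 1) (hb0 : 0 ≤ b)
    (hb1 : b ≤ 1) : 0 ≤ Qp t a b :=
  nonneg_of_mul_nonneg_left (b := 495000 * t ^ 5 * (t + 2) ^ 4)
    (by rw [Qp_eq ht]; exact T_nonneg ht.le ha0 ha1 hb0 hb1) (by positivity)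

theorem chord {t a b : ℝ} (ht : 0 < t) (ha : a ∈ Ioc (0 : ℝ) 1) (hb : b ∈ Ioc (0 : ℝ) 1) :
    t ≤ t ^ 8 / (a * b) * Qp t a b + phi a + phi b := by
  have hab : 0 < a * b := mul_pos ha.1 hb.1
  have h := Z_nonneg ht.le ha.1.le ha.2 hb.1.le hb.2
  rw [← Qp_eq ht] at h
  have e : t ^ 8 / (a * b) * Qp t a b + phi a + phi b - t
      = (t ^ 3 * (Qp t a b * (495000 * t ^ 5 * (t + 2) ^ 4))
          + a * b * (495000 * (t + 2) ^ 4) * (phi a + phi b - t))
        / (a * b * (495000 * (t + 2) ^ 4)) := by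
    have := ha.1.ne'
    have := hb.1.ne'
    field_simp
    ring
  have : 0 ≤ t ^ 8 / (a * b) * Qp t a b + phi a + phi b - t := by
    rw [e]; exact div_nonneg h (by positivity)
  linarith

variable {η t u : ℝ}

def wt (η t : ℝ) : ℝ := stepFun ((t - η) / η)

def dwt (η t : ℝ) : ℝ := Bands.stepDeriv ((t - η) / η) / η

theorem wt_nonneg (η t : ℝ) : 0 ≤ wt η t := Bands.stepFun_nonneg _

theorem wt_le (η t : ℝ) : wt η t ≤ 1 := Bands.stepFun_le_one _

theorem wt_of_le (hη : 0 < η) (h : t ≤ η) : wt η t = 0 :=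
  Bands.stepFun_of_nonpos (div_nonpos_of_nonpos_of_nonneg (by linarith) hη.le)

theorem dwt_of_le (hη : 0 < η) (h : t ≤ η) : dwt η t = 0 := by
  have : (t - η) / η ≤ 0 := div_nonpos_of_nonpos_of_nonneg (by linarith) hη.le
  simp [dwt, Bands.stepDeriv, max_eq_left ((min_le_right (1 : ℝ) _).trans this)]

theorem wt_of_ge (hη : 0 < η) (h : 2 * η ≤ t) : wt η t = 1 :=
  Bands.stepFun_of_one_le (by rw [le_div_iff₀ hη]; linarith)

theorem dwt_mem (hη : 0 < η) (t : ℝ) : 0 ≤ dwt η t ∧ dwt η t ≤ 3 / 2 / η := by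
  refine ⟨div_nonneg (Bands.stepDeriv_nonneg _) hη.le, ?_⟩
  unfold dwt
  gcongr
  unfold Bands.stepDeriv
  nlinarith [sq_nonneg (max 0 (min 1 ((t - η) / η)) - 1 / 2)]

theorem hasDerivAt_wt (η t : ℝ) : HasDerivAt (wt η) (dwt η t) t := by
  have h := (Bands.hasDerivAt_stepFun ((t - η) / η)).comp t
    (((hasDerivAt_id' t).sub_const η).div_const η)
  simpa [wt, dwt, Function.comp_def, div_eq_mul_inv] using! h

theorem hasFDerivAt_g (ht : 0 < t) :
    HasFDerivAt (fun p : ℝ × ℝ => g p.1 p.2)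
      (gt t u • ContinuousLinearMap.fst ℝ ℝ ℝ + gu t u • ContinuousLinearMap.snd ℝ ℝ ℝ) (t, u) := by
  have h1 : HasFDerivAt (fun p : ℝ × ℝ => p.1) (ContinuousLinearMap.fst ℝ ℝ ℝ) (t, u) :=
    hasFDerivAt_fst
  have h2 : HasFDerivAt (fun p : ℝ × ℝ => p.2) (ContinuousLinearMap.snd ℝ ℝ ℝ) (t, u) :=
    hasFDerivAt_snd
  have hd : den t ≠ 0 := (den_pos ht).ne'
  have t2 : t + 2 ≠ 0 := by linarith
  have hD : HasDerivAt den (den t * (5 / t + 3 / (t + 2))) t := by
    refine ((((hasDerivAt_pow 5 t).fun_mul (((hasDerivAt_id' t).add_const 2).fun_pow 3)).const_mul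
      (123750 : ℝ))).congr_deriv ?_
    simp only [den]
    push_cast
    field_simp
  have hN : HasDerivAt num (tnum t / t) t := by
    refine ((((((((hasDerivAt_id' t).const_mul (41250 : ℝ)).const_add 27500).fun_add
      ((hasDerivAt_pow 2 t).const_mul 34100)).fun_add ((hasDerivAt_pow 3 t).const_mul 40618)).fun_add
      ((hasDerivAt_pow 4 t).const_mul 20877)).fun_add ((hasDerivAt_pow 5 t).const_mul 6204)).fun_add
      ((hasDerivAt_pow 6 t).const_mul 1034)).congr_deriv ?_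
    simp only [tnum]
    push_cast
    field_simp
    ring
  have hR : HasDerivAt rem (trem t / t) t := by
    refine (((hasDerivAt_id' t).const_mul (101808 : ℝ)).fun_add
      ((hasDerivAt_pow 2 t).const_mul 39312)).congr_deriv ?_
    simp only [trem]
    push_cast
    field_simp
    ring
  have a := hN.fun_div hD hd
  have b := hR.fun_div hD hd
  have h := (a.comp_hasFDerivAt (t, u) h1).sub
    (((hasDerivAt_pow 2 u).comp_hasFDerivAt (t, u) h2).mul (b.comp_hasFDerivAt (t, u) h1))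
  refine (h.congr_of_eventuallyEq (Eventually.of_forall fun p => ?_)).congr_fderiv ?_
  · simp only [g, Pi.sub_apply, Pi.mul_apply, Function.comp_apply]; ring
  · ext <;> simp [gt, gu] <;> field_simp; ring

def f (η t u : ℝ) : ℝ := wt η t * g t u

def ft (η t u : ℝ) : ℝ := dwt η t * g t u + wt η t * gt t u

def fu (η t u : ℝ) : ℝ := wt η t * gu t u

theorem hasFDerivAt_f (hη : 0 < η) (t u : ℝ) :
    HasFDerivAt (fun p : ℝ × ℝ => f η p.1 p.2)
      (ft η t u • ContinuousLinearMap.fst ℝ ℝ ℝ + fu η t u • ContinuousLinearMap.snd ℝ ℝ ℝ)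
      (t, u) := by
  rcases lt_or_ge t η with h | h
  · have e : (fun p : ℝ × ℝ => f η p.1 p.2) =ᶠ[𝓝 (t, u)] fun _ => (0 : ℝ) :=
      eventually_of_mem ((isOpen_Iio.preimage continuous_fst).mem_nhds h) fun p hp => by
        simp [f, wt_of_le hη (le_of_lt hp)]
    refine ((hasFDerivAt_const (0 : ℝ) (t, u)).congr_of_eventuallyEq e).congr_fderiv ?_
    simp [ft, fu, wt_of_le hη h.le, dwt_of_le hη h.le]
  · have h1 : HasFDerivAt (fun p : ℝ × ℝ => p.1) (ContinuousLinearMap.fst ℝ ℝ ℝ) (t, u) :=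
      hasFDerivAt_fst
    have hw := (hasDerivAt_wt η t).comp_hasFDerivAt (t, u) h1
    have hg := hasFDerivAt_g (u := u) (hη.trans_le h)
    refine ((hw.mul hg).congr_of_eventuallyEq (Eventually.of_forall fun p => ?_)).congr_fderiv ?_
    · simp [f]
    · ext <;> simp [ft, fu]; ring

theorem continuous_wt (η : ℝ) : Continuous (wt η) :=
  Bands.continuous_stepFun.comp (by fun_prop)

theorem continuous_dwt (η : ℝ) : Continuous (dwt η) :=
  (Bands.continuous_stepDeriv.comp (by fun_prop)).div_const _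

theorem ft_eq_max (hη : 0 < η) (t u : ℝ) :
    ft η t u = dwt η t * g (max t η) u + wt η t * gt (max t η) u := by
  rcases le_total t η with h | h
  · simp [ft, wt_of_le hη h, dwt_of_le hη h]
  · rw [max_eq_left h]; rfl

theorem fu_eq_max (hη : 0 < η) (t u : ℝ) : fu η t u = wt η t * gu (max t η) u := by
  rcases le_total t η with h | h
  · simp [fu, wt_of_le hη h]
  · rw [max_eq_left h]; rfl

theorem continuous_ft (hη : 0 < η) : Continuous fun p : ℝ × ℝ => ft η p.1 p.2 := by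
  simp only [ft_eq_max hη]
  have hm : ∀ p : ℝ × ℝ, 0 < max p.1 η := fun p => lt_max_of_lt_right hη
  have hd : ∀ p : ℝ × ℝ, den (max p.1 η) ≠ 0 := fun p => (den_pos (hm p)).ne'
  have hm2 : ∀ p : ℝ × ℝ, max p.1 η + 2 ≠ 0 := fun p => by linarith [hm p]
  have hm0 : ∀ p : ℝ × ℝ, max p.1 η ≠ 0 := fun p => (hm p).ne'
  unfold den at hd
  refine (((continuous_dwt η).comp continuous_fst).mul ?_).add
    (((continuous_wt η).comp continuous_fst).mul ?_)
  · unfold g num rem den; fun_prop (disch := assumption)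
  · unfold gt num rem tnum trem den; fun_prop (disch := assumption)

theorem continuous_fu (hη : 0 < η) : Continuous fun p : ℝ × ℝ => fu η p.1 p.2 := by
  simp only [fu_eq_max hη]
  have hd : ∀ p : ℝ × ℝ, den (max p.1 η) ≠ 0 :=
    fun p => (den_pos (lt_max_of_lt_right hη)).ne'
  unfold den at hd
  refine ((continuous_wt η).comp continuous_fst).mul ?_
  unfold gu rem den; fun_prop (disch := assumption)

theorem g_nonneg (ht : 0 < t) (hu : u ∈ Icc (-1 : ℝ) 1) : 0 ≤ g t u := by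
  refine div_nonneg ?_ (den_pos ht).le
  have h1 := num_sub_rem_nonneg ht.le
  have hr : 0 ≤ rem t := by unfold rem; positivity
  nlinarith [mul_nonneg hr (show 0 ≤ 1 - u ^ 2 by nlinarith [hu.1, hu.2])]

theorem pow_le_sum (ht : 0 ≤ t) {k : ℕ} (hk : k ≤ 6) : t ^ k ≤ 1 + t ^ 6 := by
  rcases le_total t 1 with h | h
  · linarith [pow_le_one₀ (n := k) ht h, pow_nonneg ht 6]
  · linarith [pow_le_pow_right₀ h hk]

theorem frac_bound (hη : 0 < η) (h1 : η ≤ 1) (hT : η ≤ t) :
    (1 + t ^ 6) / (t ^ 5 * (t + 2) ^ 3) ≤ 2 / η ^ 5 ∧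
      t * ((1 + t ^ 6) / (t ^ 5 * (t + 2) ^ 3)) ≤ 2 / η ^ 5 := by
  have ht := hη.trans_le hT
  have e8 : (8 : ℝ) ≤ (t + 2) ^ 3 := by nlinarith [sq_nonneg t, pow_nonneg ht.le 3]
  have et : t ^ 3 ≤ (t + 2) ^ 3 := by gcongr; linarith
  have q : ∀ k, k ≤ 5 → 1 / t ^ k ≤ 1 / η ^ 5 := fun k hk =>
    one_div_le_one_div_of_le (by positivity)
      ((pow_le_pow_of_le_one hη.le h1 hk).trans (by gcongr))
  have n5 : 0 ≤ t ^ 5 := by positivity
  constructor
  · calc (1 + t ^ 6) / (t ^ 5 * (t + 2) ^ 3)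
        = 1 / (t ^ 5 * (t + 2) ^ 3) + t ^ 6 / (t ^ 5 * (t + 2) ^ 3) := add_div _ _ _
      _ ≤ 1 / (t ^ 5 * 1) + t ^ 6 / (t ^ 5 * t ^ 3) := by gcongr; linarith
      _ = 1 / t ^ 5 + 1 / t ^ 2 := by field_simp
      _ ≤ 1 / η ^ 5 + 1 / η ^ 5 := add_le_add (q 5 le_rfl) (q 2 (by norm_num))
      _ = 2 / η ^ 5 := by ring
  · calc t * ((1 + t ^ 6) / (t ^ 5 * (t + 2) ^ 3))
        = t * (1 / (t ^ 5 * (t + 2) ^ 3) + t ^ 6 / (t ^ 5 * (t + 2) ^ 3)) := by rw [add_div]
      _ ≤ t * (1 / (t ^ 5 * 1) + t ^ 6 / (t ^ 5 * t ^ 3)) := by gcongr; linarith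
      _ = 1 / t ^ 4 + 1 / t ^ 1 := by field_simp
      _ ≤ 1 / η ^ 5 + 1 / η ^ 5 := add_le_add (q 4 (by norm_num)) (q 1 (by norm_num))
      _ = 2 / η ^ 5 := by ring

/-- Bounds on `[η,∞)`. -/
theorem g_bounds (hη : 0 < η) (h1 : η ≤ 1) (hT : η ≤ t) (hu : u ∈ Icc (-1 : ℝ) 1) :
    g t u ≤ 20 / η ^ 5 ∧ t * g t u ≤ 20 / η ^ 5 ∧ |t * gt t u| ≤ 200 / η ^ 5 ∧
      |gu t u| ≤ 20 / η ^ 5 := by
  have ht := hη.trans_le hT
  obtain ⟨q0, q1⟩ := frac_bound hη h1 hT
  set E := (1 + t ^ 6) / (t ^ 5 * (t + 2) ^ 3) with hE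
  have hd := den_pos ht
  have hu2 : u ^ 2 ≤ 1 := by nlinarith [hu.1, hu.2]
  have hu0 := sq_nonneg u
  have hp : ∀ k, k ≤ 6 → t ^ k ≤ 1 + t ^ 6 := fun k hk => pow_le_sum ht.le hk
  have p0 : 0 ≤ 1 + t ^ 6 := by positivity
  have hE' : (1 + t ^ 6) / den t = E / 123750 := by rw [hE, den]; field_simp
  have hn : num t ≤ 1000000 * (1 + t ^ 6) := by
    have := hp 1 (by norm_num); have := hp 2 (by norm_num); have := hp 3 (by norm_num)
    have := hp 4 (by norm_num); have := hp 5 (by norm_num)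
    unfold num; nlinarith [pow_nonneg ht.le 6]
  have hr : rem t ≤ 200000 * (1 + t ^ 6) := by
    have := hp 1 (by norm_num); have := hp 2 (by norm_num)
    unfold rem; nlinarith
  have hr0 : 0 ≤ rem t := by unfold rem; positivity
  have htn : tnum t ≤ 1000000 * (1 + t ^ 6) := by
    have := hp 1 (by norm_num); have := hp 2 (by norm_num); have := hp 3 (by norm_num)
    have := hp 4 (by norm_num); have := hp 5 (by norm_num)
    unfold tnum; nlinarith [pow_nonneg ht.le 6]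
  have htr : trem t ≤ 200000 * (1 + t ^ 6) := by
    have := hp 1 (by norm_num); have := hp 2 (by norm_num)
    unfold trem; nlinarith
  have htn0 : 0 ≤ tnum t := by unfold tnum; positivity
  have htr0 : 0 ≤ trem t := by unfold trem; positivity
  have hg0 := g_nonneg ht hu
  have hg : g t u ≤ 10 * E := by
    calc g t u ≤ 1000000 * (1 + t ^ 6) / den t := by
          unfold g; gcongr; nlinarith [mul_nonneg hu0 hr0]
      _ = 1000000 / 123750 * E := by rw [mul_div_assoc, hE']; ring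
      _ ≤ 10 * E := mul_le_mul_of_nonneg_right (by norm_num) (by positivity)
  have hE0 : 0 ≤ E := by positivity
  have h20 : 10 * E ≤ 20 / η ^ 5 := by
    have : 20 / η ^ 5 = 10 * (2 / η ^ 5) := by ring
    rw [this]; gcongr
  refine ⟨hg.trans h20, ?_, ?_, ?_⟩
  · have := mul_le_mul_of_nonneg_left hg ht.le
    have : 20 / η ^ 5 = 10 * (2 / η ^ 5) := by ring
    nlinarith
  · have hw0 : 0 ≤ t / (t + 2) := by positivity
    have hw1 : t / (t + 2) ≤ 1 := by rw [div_le_one (by linarith)]; linarith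
    have e : t * gt t u = (tnum t - u ^ 2 * trem t) / den t - g t u * (5 + 3 * (t / (t + 2))) := by
      unfold gt g; field_simp
    rw [e]
    have hA : |(tnum t - u ^ 2 * trem t) / den t| ≤ 20 * E := by
      rw [abs_div, abs_of_pos hd]
      calc _ ≤ 1200000 * (1 + t ^ 6) / den t := by
            gcongr; rw [abs_le]
            constructor <;> nlinarith [mul_le_mul hu2 htr htr0 zero_le_one, mul_nonneg hu0 htr0]
        _ = 1200000 / 123750 * E := by rw [mul_div_assoc, hE']; ring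
        _ ≤ 20 * E := mul_le_mul_of_nonneg_right (by norm_num) hE0
    have : (200 : ℝ) / η ^ 5 = 100 * (2 / η ^ 5) := by ring
    refine (abs_sub _ _).trans ?_
    rw [abs_of_nonneg (mul_nonneg hg0 (by linarith : (0 : ℝ) ≤ 5 + 3 * (t / (t + 2))))]
    nlinarith [mul_le_mul hg (show 5 + 3 * (t / (t + 2)) ≤ 8 by linarith) (by linarith)
      (by linarith : (0 : ℝ) ≤ 10 * E)]
  · have hua : |u| ≤ 1 := abs_le.2 hu
    calc |gu t u| = 2 * |u| * rem t / den t := by
          rw [gu, abs_div, abs_of_pos hd, abs_neg, abs_mul, abs_mul, abs_two, abs_of_nonneg hr0]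
      _ ≤ 2 * 1 * (200000 * (1 + t ^ 6)) / den t := by gcongr
      _ = 400000 / 123750 * E := by rw [mul_div_assoc, mul_div_assoc, hE']; ring
      _ ≤ 10 * E := mul_le_mul_of_nonneg_right (by norm_num) hE0
      _ ≤ _ := h20

/-- The weight. -/
def aniso (η : ℝ) (hη : 0 < η) (h1 : η ≤ 1) : Aniso where
  f := f η
  ft := ft η
  fu := fu η
  hasDeriv := hasFDerivAt_f hη
  cont_ft := continuous_ft hη
  cont_fu := continuous_fu hη
  f_nonneg := fun t u _ hu => by
    rcases le_total t η with h | h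
    · simp [f, wt_of_le hη h]
    · exact mul_nonneg (wt_nonneg η t) (g_nonneg (hη.trans_le h) hu)
  flat := ⟨η, hη, fun t u h => by simp [fu, wt_of_le hη h.le]⟩
  bdd := ⟨30 / η ^ 6 + 200 / η ^ 5, fun t u ht hu => by
    rcases le_total t η with h | h
    · have : (0 : ℝ) ≤ 30 / η ^ 6 + 200 / η ^ 5 := by positivity
      simp [f, ft, fu, wt_of_le hη h, dwt_of_le hη h, this]
    · obtain ⟨a1, a2, a3, a4⟩ := g_bounds hη h1 h hu
      have a0 := g_nonneg (hη.trans_le h) hu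
      have w0 := wt_nonneg η t
      have w1 := wt_le η t
      obtain ⟨d0, d1⟩ := dwt_mem hη t
      have p : 0 ≤ 30 / η ^ 6 := by positivity
      have p2 : 20 / η ^ 5 ≤ 200 / η ^ 5 := by gcongr; norm_num
      refine ⟨?_, ?_, ?_, ?_⟩
      · rw [f, abs_of_nonneg (mul_nonneg w0 a0)]
        nlinarith [mul_le_mul w1 a1 a0 zero_le_one]
      · rw [f, abs_of_nonneg (mul_nonneg ht (mul_nonneg w0 a0))]
        nlinarith [mul_le_mul w1 a2 (mul_nonneg ht a0) zero_le_one]
      · have e1 : dwt η t * (t * g t u) ≤ 30 / η ^ 6 := by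
          calc dwt η t * (t * g t u) ≤ 3 / 2 / η * (20 / η ^ 5) :=
                mul_le_mul d1 a2 (mul_nonneg ht a0) (by positivity)
            _ = 30 / η ^ 6 := by field_simp; ring
        have e2 : |wt η t * (t * gt t u)| ≤ 200 / η ^ 5 := by
          rw [abs_mul, abs_of_nonneg w0]
          simpa using mul_le_mul w1 a3 (abs_nonneg _) zero_le_one
        have e : t * ft η t u = dwt η t * (t * g t u) + wt η t * (t * gt t u) := by
          unfold ft; ring
        rw [e]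
        refine (abs_add_le _ _).trans ?_
        rw [abs_of_nonneg (mul_nonneg d0 (mul_nonneg ht a0))]
        linarith
      · rw [fu, abs_mul, abs_of_nonneg w0]
        nlinarith [mul_le_mul w1 a4 (abs_nonneg _) zero_le_one]⟩

theorem K_ge (hη : 0 < η) (h1 : η ≤ 1) (ht : 0 < t) {c : ℝ} (hc : c ∈ Icc (-1 : ℝ) 1)
    (hu : u ∈ Icc (-1 : ℝ) 1) : wt η t * Kp t |c| |u| ≤ (aniso η hη h1).K 9 t c u := by
  have w0 := wt_nonneg η t
  obtain ⟨d0, -⟩ := dwt_mem hη t
  have hc1 : 0 ≤ 1 - c ^ 2 := by nlinarith [hc.1, hc.2]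
  have hg0 := g_nonneg ht hu
  have hs : Real.sqrt ((1 - u ^ 2) * (1 - c ^ 2)) ≤ 1 - (c ^ 2 + u ^ 2) / 2 := by
    rw [Real.sqrt_le_iff]
    exact ⟨by nlinarith [hu.1, hu.2], by nlinarith [sq_nonneg (c ^ 2 - u ^ 2)]⟩
  have hr : 0 ≤ rem t := by unfold rem; positivity
  have e1 : g t |u| = g t u := by unfold g; rw [sq_abs]
  have e2 : gt t |u| = gt t u := by unfold gt; rw [sq_abs]
  have e3 : gu t |u| = -|gu t u| := by
    rw [gu, gu, abs_div, abs_neg, abs_of_pos (den_pos ht), abs_mul, abs_mul, abs_two,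
      abs_of_nonneg hr]
    ring
  have i1 := mul_le_mul_of_nonneg_left hs
    (mul_nonneg (mul_nonneg w0 (abs_nonneg (gu t u))) (abs_nonneg c))
  have i2 := mul_nonneg (mul_nonneg (mul_nonneg ht.le d0) hg0) hc1
  have i3 := mul_le_mul_of_nonneg_left (le_abs_self c) (mul_nonneg w0 (mul_nonneg ht.le hg0))
  rw [Kp, e1, e2, e3, sq_abs, sq_abs]
  simp only [Aniso.K, aniso, f, ft, fu, abs_mul, abs_of_nonneg w0]
  push_cast
  nlinarith

theorem pair_ge (hη : 0 < η) (h1 : η ≤ 1) (ht : 0 < t) {a b : ℝ} (ha : a ∈ Icc (-1 : ℝ) 1)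
    (hb : b ∈ Icc (-1 : ℝ) 1) :
    (1 - wt η t) * (47 / 1800) + wt η t * Qp t |a| |b|
      ≤ 47 / 1800 + ((aniso η hη h1).K 9 t a b + (aniso η hη h1).K 9 t b a) / 2 := by
  have := K_ge hη h1 ht ha hb
  have := K_ge hη h1 ht hb ha
  unfold Qp
  linarith

theorem pair_nonneg (hη : 0 < η) (h1 : η ≤ 1) (ht : 0 ≤ t) {a b : ℝ} (ha : a ∈ Icc (-1 : ℝ) 1)
    (hb : b ∈ Icc (-1 : ℝ) 1) :
    0 ≤ 47 / 1800 + ((aniso η hη h1).K 9 t a b + (aniso η hη h1).K 9 t b a) / 2 := by
  rcases ht.eq_or_lt with rfl | h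
  · simp [Aniso.K, aniso, f, ft, fu, wt_of_le hη hη.le, dwt_of_le hη hη.le]
    norm_num
  · refine le_trans ?_ (pair_ge hη h1 h ha hb)
    have := Qp_nonneg h (abs_nonneg a) (abs_le.2 ha) (abs_nonneg b) (abs_le.2 hb)
    exact add_nonneg (mul_nonneg (by linarith [wt_le η t]) (by norm_num))
      (mul_nonneg (wt_nonneg η t) this)

/-- The clamp to `[0,1]`. -/
def clamp (c : ℝ) : ℝ := max 0 (min c 1)

theorem clamp_mem (c : ℝ) : clamp c ∈ Icc (0 : ℝ) 1 :=
  ⟨le_max_left _ _, max_le zero_le_one (min_le_right _ _)⟩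

theorem clamp_eq {c : ℝ} (h0 : 0 ≤ c) (h1 : c ≤ 1) : clamp c = c := by
  rw [clamp, min_eq_left h1, max_eq_right h0]

theorem continuous_phi_clamp : Continuous fun c => phi (clamp c) := by
  have hc : Continuous clamp := by unfold clamp; fun_prop
  have h : ∀ c, 990000 * (1 + clamp c) ^ 4 ≠ 0 := fun c => by
    have := (clamp_mem c).1
    positivity
  unfold phi phiN
  fun_prop (disch := assumption)

def φ (η c : ℝ) : ℝ := phi (clamp c) + η

theorem φ_ge (η c : ℝ) : η ≤ φ η c := by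
  have := phi_nonneg (clamp_mem c).1 (clamp_mem c).2
  unfold φ; linarith

/-- The calibration. -/
def calib (η : ℝ) (hη : 0 < η) (h1 : η ≤ 1) : ACalib 9 where
  α := 47 / 1800
  bdry := aniso η hη h1
  φ := φ η
  cont_φ := by unfold φ; exact continuous_phi_clamp.add continuous_const
  α_nonneg := by norm_num
  φ_nonneg := fun c _ => hη.le.trans (φ_ge η c)
  nonneg := fun _ _ _ ht ha hb => pair_nonneg hη h1 ht ha hb
  cert := fun t a b ht ha hb => by
    have A : a ∈ Icc (-1 : ℝ) 1 := ⟨by linarith [ha.1], ha.2⟩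
    have B : b ∈ Icc (-1 : ℝ) 1 := ⟨by linarith [hb.1], hb.2⟩
    have hp : 0 ≤ t ^ (9 - 1) / (a * b) :=
      div_nonneg (pow_nonneg ht.le _) (mul_nonneg ha.1.le hb.1.le)
    rcases le_total t (2 * η) with h | h
    · have := mul_nonneg hp (pair_nonneg hη h1 ht.le A B)
      have := φ_ge η a
      have := φ_ge η b
      linarith
    · have hge := pair_ge hη h1 ht A B
      rw [wt_of_ge hη h, sub_self, zero_mul, zero_add, one_mul, abs_of_pos ha.1,
        abs_of_pos hb.1] at hge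
      have hge' := mul_le_mul_of_nonneg_left hge hp
      have := chord ht ha hb
      simp only [φ, clamp_eq ha.1.le ha.2, clamp_eq hb.1.le hb.2]
      simp only [show (9 : ℕ) - 1 = 8 from rfl] at hge' ⊢
      linarith

/-! ### Cost -/

/-- `phiN c / (1+c)`. -/
def phiM (c : ℝ) : ℝ :=
  660000 * c + 1980000 * c ^ 2 + 2112000 * c ^ 3 + 2684928 * c ^ 4 + 1961984 * c ^ 5
    - 2201856 * c ^ 6 - 1440768 * c ^ 7 + 1191168 * c ^ 8 + 397056 * c ^ 9

/-- A primitive of `(1-c²)³ c φ(c)`. -/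
def momPrim (η x : ℝ) : ℝ :=
  2 / 9 * x ^ 3 - 28 / 75 * x ^ 5 + 5656 / 20625 * x ^ 6 - 4342 / 17325 * x ^ 7
    - 1862 / 6875 * x ^ 8 + 58096 / 61875 * x ^ 9 - 19088 / 61875 * x ^ 10 - 304 / 625 * x ^ 11
    + 19912 / 61875 * x ^ 12 - 376 / 13125 * x ^ 14 - η * (1 - x ^ 2) ^ 4 / 8

theorem moment_phi (η : ℝ) :
    ∫ c in (0 : ℝ)..1, (1 - c ^ 2) ^ 3 * (c * φ η c) = 34 / 875 + η / 8 := by
  have hd : ∀ c ∈ uIcc (0 : ℝ) 1, HasDerivAt (momPrim η) ((1 - c ^ 2) ^ 3 * (c * φ η c)) c := by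
    intro c hc
    rw [uIcc_of_le zero_le_one] at hc
    have hd : HasDerivAt (momPrim η) (deriv (momPrim η) c) c :=
      DifferentiableAt.hasDerivAt (by unfold momPrim; fun_prop)
    refine hd.congr_deriv ?_
    have : 1 + c ≠ 0 := by linarith [hc.1]
    rw [φ, clamp_eq hc.1 hc.2, phi, show phiN c = (1 + c) * phiM c by unfold phiN phiM; ring]
    unfold momPrim phiM
    simp (disch := fun_prop)
    field_simp
    ring
  rw [intervalIntegral.integral_eq_sub_of_hasDerivAt hd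
    (((by fun_prop : Continuous fun c : ℝ => (1 - c ^ 2) ^ 3).mul
      (continuous_id.mul (continuous_phi_clamp.add continuous_const))).intervalIntegrable 0 1)]
  norm_num [momPrim]

/-- The polar angle integral as an integral in the cosine. -/
theorem integral_sin_pow_seven {h : ℝ → ℝ} (hh : Continuous h) :
    ∫ θ in (0 : ℝ)..Real.pi, Real.sin θ ^ 7 * h (Real.cos θ)
      = ∫ x in (-1 : ℝ)..1, (1 - x ^ 2) ^ 3 * h x := by
  have e := intervalIntegral.integral_comp_mul_deriv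
    (f := Real.cos) (f' := fun θ => -Real.sin θ) (g := fun x => (1 - x ^ 2) ^ 3 * h x)
    (a := 0) (b := Real.pi) (fun θ _ => Real.hasDerivAt_cos θ)
    Real.continuous_sin.neg.continuousOn (by fun_prop)
  rw [Real.cos_zero, Real.cos_pi, intervalIntegral.integral_symm (-1 : ℝ) 1] at e
  have e' : (∫ θ in (0 : ℝ)..Real.pi,
      ((fun x => (1 - x ^ 2) ^ 3 * h x) ∘ Real.cos) θ * -Real.sin θ)
        = -∫ θ in (0 : ℝ)..Real.pi, Real.sin θ ^ 7 * h (Real.cos θ) := by
    rw [← intervalIntegral.integral_neg]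
    refine intervalIntegral.integral_congr fun θ _ => ?_
    simp only [Function.comp_apply, ← Real.sin_sq θ]
    ring
  linarith

def clampMul (η x : ℝ) : ℝ := clamp x * φ η (clamp x)

theorem continuous_clampMul (η : ℝ) : Continuous (clampMul η) := by
  have hc : Continuous clamp := by unfold clamp; fun_prop
  exact hc.mul ((continuous_phi_clamp.comp hc).add continuous_const)

theorem ball_phi (η : ℝ) :
    ballMoment 9 (fun c => c * φ η c) = (34 / 875 + η / 8) / (32 / 35) * omega 9 := by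
  have hcl : ∀ v : EE 9, max 0 (v 0 / ‖v‖) * φ η (max 0 (v 0 / ‖v‖))
      = clampMul η (v 0 / ‖v‖) := fun v => by
    have := abs_le.1 (abs_coord_div_le v 0)
    rw [clampMul, clamp, min_eq_left this.2]
  simp only [ballMoment, hcl]
  obtain ⟨B, hB⟩ := (isCompact_Icc (a := (0 : ℝ)) (b := 1)).exists_bound_of_continuousOn
    (continuous_id.mul (continuous_phi_clamp.add (continuous_const (y := η)))).continuousOn
  have h1 := integral_ball_marginal 8 (ψ := fun _ => (1 : ℝ)) measurable_const (B := 1)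
    fun c => by simp
  have h2 := integral_ball_marginal 8 (continuous_clampMul η).measurable (B := B)
    fun c => hB _ (clamp_mem c)
  rw [show (8 : ℕ) - 1 = 7 from rfl, integral_sin_pow_seven continuous_const] at h1
  rw [show (8 : ℕ) - 1 = 7 from rfl, integral_sin_pow_seven (continuous_clampMul η)] at h2
  have hw : ∫ x in (-1 : ℝ)..1, (1 - x ^ 2) ^ 3 * (1 : ℝ) = 32 / 35 := by
    have hd : ∀ x ∈ uIcc (-1 : ℝ) 1, HasDerivAt
        (fun x : ℝ => x - x ^ 3 + 3 / 5 * x ^ 5 - 1 / 7 * x ^ 7) ((1 - x ^ 2) ^ 3 * 1) x := by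
      intro x _
      refine ((((hasDerivAt_id' x).sub (hasDerivAt_pow 3 x)).add
        ((hasDerivAt_pow 5 x).const_mul (3 / 5))).sub
        ((hasDerivAt_pow 7 x).const_mul (1 / 7))).congr_deriv ?_
      push_cast
      ring
    rw [intervalIntegral.integral_eq_sub_of_hasDerivAt hd
      ((by fun_prop : Continuous fun x : ℝ => (1 - x ^ 2) ^ 3 * 1).intervalIntegrable _ _)]
    norm_num
  have hc : Continuous fun x : ℝ => (1 - x ^ 2) ^ 3 * clampMul η x :=
    (by fun_prop : Continuous fun x : ℝ => (1 - x ^ 2) ^ 3).mul (continuous_clampMul η)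
  have hM : ∫ x in (-1 : ℝ)..1, (1 - x ^ 2) ^ 3 * clampMul η x = 34 / 875 + η / 8 := by
    rw [← intervalIntegral.integral_add_adjacent_intervals (b := (0 : ℝ))
      (hc.intervalIntegrable _ _) (hc.intervalIntegrable _ _)]
    have e0 : ∫ x in (-1 : ℝ)..0, (1 - x ^ 2) ^ 3 * clampMul η x = 0 := by
      refine (intervalIntegral.integral_congr (g := fun _ : ℝ => (0 : ℝ)) fun x hx => ?_).trans
        intervalIntegral.integral_zero
      rw [uIcc_of_le (by norm_num : (-1 : ℝ) ≤ 0)] at hx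
      simp [clampMul, clamp, max_eq_left ((min_le_left x 1).trans hx.2)]
    rw [e0, zero_add, ← moment_phi η]
    refine intervalIntegral.integral_congr fun x hx => ?_
    rw [uIcc_of_le zero_le_one] at hx
    simp [clampMul, clamp_eq hx.1 hx.2]
  have hvol : ∫ _v in Metric.closedBall (0 : EE 9) 1, (1 : ℝ) = omega 9 := by
    simp [omega, measureReal_def]
  rw [hw, hvol] at h1
  rw [hM] at h2
  rw [h2, h1]
  push_cast
  ring

theorem cost_le (hη : 0 < η) (h1 : η ≤ 1) : (calib η hη h1).cost ≤ 1 + 3 * η := by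
  have hω : omega 9 ≠ 0 := (omega_pos).ne'
  show ((9 : ℕ) : ℝ) * (47 / 1800)
    + 2 * ((9 : ℕ) : ℝ) * (ballMoment 9 (fun c => c * φ η c) / omega 9) ≤ _
  rw [ball_phi, mul_div_assoc, div_self hω]
  push_cast
  linarith

end

end Nine

theorem exists_acalib_nine (δ : ℝ) (hδ : 0 < δ) : ∃ C : ACalib 9, C.cost ≤ 1 + δ := by
  have hη : 0 < min (δ / 3) 1 := lt_min (by positivity) one_pos
  refine ⟨Nine.calib _ hη (min_le_right _ _), (Nine.cost_le hη (min_le_right _ _)).trans ?_⟩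
  linarith [min_le_left (δ / 3) 1]

end Vale.Agent.P219
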