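import Vale.Agent.P219.Defs

/-!
# P219: shared notions of the proof (not used in the statement)

See `DESIGN.md`. The analysis works in every dimension `n ≥ 2`; the calibration
is a parameter.
-/

open scoped ContDiff
open MeasureTheory Set Filter Topology

namespace Vale.Agent.P219

variable {n : ℕ} {G : EE n → Form n}

/-- The length of a tangent vector. -/
noncomputable def gnorm (G : EE n → Form n) (x v : EE n) : ℝ := Real.sqrt (G x v v)

/-- The geodesic flow on `ℝ^n × ℝ^n`. -/
noncomputable def flowG (hG : IsCH G) (s : ℝ) (q : EE n × EE n) : EE n × EE n :=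
  (hG.complete q).choose s

/-- The base point of the geodesic with initial state `q`. -/
noncomputable def geoPt (hG : IsCH G) (q : EE n × EE n) (s : ℝ) : EE n := (flowG hG s q).1

/-- The exponential map. -/
noncomputable def expG (hG : IsCH G) (x v : EE n) : EE n := (flowG hG 1 (x, v)).1

/-- The inverse of the exponential map. -/
noncomputable def logG (hG : IsCH G) (x y : EE n) : EE n := Function.invFun (expG hG x) y

/-- The distance. -/
noncomputable def gdist (hG : IsCH G) (x y : EE n) : ℝ := gnorm G x (logG hG x y)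

/-- The closed geodesic ball. -/
def gball (hG : IsCH G) (o : EE n) (R : ℝ) : Set (EE n) := {x | gdist hG o x ≤ R}

/-- The metric pulled back by the exponential map at `x`. -/
noncomputable def pullG (hG : IsCH G) (x v : EE n) (w w' : EE n) : ℝ :=
  G (expG hG x v) (fderiv ℝ (expG hG x) v w) (fderiv ℝ (expG hG x) v w')

/-- The Jacobian of the exponential map for the Riemannian measures. -/
noncomputable def jac (hG : IsCH G) (x v : EE n) : ℝ :=
  |(fderiv ℝ (expG hG x) v).det| * dens G (expG hG x v) / dens G x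

/-- The Liouville measure on the tangent bundle. -/
noncomputable def phase (G : EE n → Form n) : Measure (EE n × EE n) :=
  volume.withDensity fun q => ENNReal.ofReal (dens G q.1 ^ 2)

/-- For a decreasing function `u`, the outward cosine at `x` of the geodesic coming from `y`. -/
noncomputable def ucos (hG : IsCH G) (u : EE n → ℝ) (y x : EE n) : ℝ :=
  fderiv ℝ u x (logG hG x y) / (gdist hG x y * conorm G x (fderiv ℝ u x))

/-- A transversal level: almost every geodesic crosses it with nonzero speed. -/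
def Transversal (hG : IsCH G) (u : EE n → ℝ) (s : ℝ) : Prop :=
  ∀ᵐ q ∂phase G, ∀ t : ℝ, u (geoPt hG q t) = s → deriv (fun r => u (geoPt hG q r)) t ≠ 0

/-- The smooth step from `0` to `1` on `[0,1]`. -/
noncomputable def stepFun (t : ℝ) : ℝ :=
  if t ≤ 0 then 0 else if 1 ≤ t then 1 else 3 * t ^ 2 - 2 * t ^ 3

/-- A cut-off of `{u > s}` whose transition happens in `s + 1/κ ≤ u ≤ s + 2/κ`. -/
noncomputable def band (κ s : ℝ) (u : EE n → ℝ) (x : EE n) : ℝ := stepFun (κ * (u x - s) - 1)

/-- The competitors: `C¹`, values in `[0,1]`, supported in a geodesic ball. -/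
structure Adm (hG : IsCH G) (o : EE n) (R₀ : ℝ) (u : EE n → ℝ) : Prop where
  smooth : ContDiff ℝ 1 u
  supp : tsupport u ⊆ gball hG o R₀
  nonneg : ∀ x, 0 ≤ u x
  le_one : ∀ x, u x ≤ 1

/-- The volume of the unit ball of `ℝⁿ`. -/
noncomputable def omega (n : ℕ) : ℝ := (volume (Metric.closedBall (0 : EE n) 1)).toReal

/-- The Sobolev exponent `n/(n-1)`. -/
noncomputable def sobExp (n : ℕ) : ℝ := (n : ℝ) / ((n : ℝ) - 1)

/-- The model profile. -/
noncomputable def gI (n : ℕ) (V : ℝ) : ℝ :=
  (n : ℝ) * omega n ^ (1 / n : ℝ) * V ^ (((n : ℝ) - 1) / n)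

/-- `∫ |u|^(n/(n-1)) dvol`. -/
noncomputable def pMass (G : EE n → Form n) (u : EE n → ℝ) : ℝ :=
  ∫ x, |u x| ^ sobExp n ∂rVol G

/-- The isoperimetric deficit of a function. -/
noncomputable def deficit (G : EE n → Form n) (u : EE n → ℝ) : ℝ := TV G u - gI n (pMass G u)

/-- A radial weight `F` with its derivative and `f = F/t`. -/
structure Radial where
  F : ℝ → ℝ
  dF : ℝ → ℝ
  f : ℝ → ℝ
  hasDeriv : ∀ t, HasDerivAt F (dF t) t
  cont_dF : Continuous dF
  cont_f : Continuous f
  F_eq : ∀ t, F t = t * f t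
  f_nonneg : ∀ t, 0 ≤ t → 0 ≤ f t
  bdd : ∃ C, ∀ t, 0 ≤ t → |F t| ≤ C ∧ |dF t| ≤ C ∧ |f t| ≤ C

/-- The first variation kernel at unit radius of a radial weight. -/
noncomputable def Radial.K (A : Radial) (n : ℕ) (t c : ℝ) : ℝ :=
  A.dF t * (1 - c ^ 2) + ((n : ℝ) - 2 + c ^ 2) * A.f t - ((n : ℝ) - 1) * A.F t * c

/-- A calibration: a weight for centres on the boundary with its constant `α`, a weight for
centres inside with its constant `β`, and a boundary multiplier `φ`. -/
structure Calib (n : ℕ) where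
  α : ℝ
  β : ℝ
  bdry : Radial
  inner : Radial
  φ : ℝ → ℝ
  cont_φ : Continuous φ
  α_nonneg : 0 ≤ α
  β_nonneg : 0 ≤ β
  φ_nonneg : ∀ c, 0 ≤ c → 0 ≤ φ c
  bdry_nonneg : ∀ t a b, 0 ≤ t → a ∈ Icc (-1 : ℝ) 1 → b ∈ Icc (-1 : ℝ) 1 →
    0 ≤ α + (bdry.K n t a + bdry.K n t b) / 2
  inner_nonneg : ∀ t c, 0 ≤ t → c ∈ Icc (-1 : ℝ) 1 → 0 ≤ β + inner.K n t c
  cert : ∀ t a b, 0 < t → a ∈ Ioc (0 : ℝ) 1 → b ∈ Ioc (0 : ℝ) 1 →
    t ≤ t ^ (n - 1) / (a * b) * (α + (bdry.K n t a + bdry.K n t b) / 2)
      + (∫ r in (0 : ℝ)..t, r ^ (n - 1) * (β + inner.K n r a)) / a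
      + (∫ r in (0 : ℝ)..t, r ^ (n - 1) * (β + inner.K n r b)) / b
      + φ a + φ b

/-- The pair kernel of a calibration. -/
noncomputable def Calib.Q (C : Calib n) (t a b : ℝ) : ℝ :=
  C.α + (C.bdry.K n t a + C.bdry.K n t b) / 2

/-- The interior kernel of a calibration. -/
noncomputable def Calib.E (C : Calib n) (t c : ℝ) : ℝ := C.β + C.inner.K n t c

/-- The integral over the unit ball of a function of the positive part of the first direction
cosine. -/
noncomputable def ballMoment (n : ℕ) [NeZero n] (ψ : ℝ → ℝ) : ℝ :=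
  ∫ v in Metric.closedBall (0 : EE n) 1, ψ (max 0 (v 0 / ‖v‖))

/-- The boundary constant of a calibration. -/
noncomputable def Calib.mu [NeZero n] (C : Calib n) : ℝ :=
  ballMoment n (fun c => c * C.φ c) / omega n

/-- The cost: `1` means that the ball is an equality case. -/
noncomputable def Calib.cost [NeZero n] (C : Calib n) : ℝ :=
  n * C.α + 2 * C.β + 2 * n * C.mu

/-- The integral over pairs of boundary points. -/
noncomputable def PI (hG : IsCH G) (C : Calib n) (u : EE n → ℝ) (R : ℝ) : ℝ :=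
  ∫ x, ∫ y, conorm G x (fderiv ℝ u x) * conorm G y (fderiv ℝ u y) *
      C.Q (gdist hG x y / R) (ucos hG u y x) (ucos hG u x y) ∂rVol G ∂rVol G

/-- The integral over pairs of a boundary point and an interior point. -/
noncomputable def IPI (hG : IsCH G) (C : Calib n) (u : EE n → ℝ) (R : ℝ) : ℝ :=
  ∫ x, ∫ y, conorm G x (fderiv ℝ u x) * u y *
      C.E (gdist hG x y / R) (ucos hG u y x) ∂rVol G ∂rVol G

end Vale.Agent.P219
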