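import Mathlib

/-!
# P219: statement-level definitions

A Cartan-Hadamard manifold is presented in a global coordinate system: a smooth field `G` of inner
products on `ℝ^n`, with complete geodesic equation and nonpositive sectional curvature.
-/

open scoped ContDiff
open MeasureTheory

namespace Vale.Agent.P219

/-- `ℝ^n`. -/
abbrev EE (n : ℕ) := EuclideanSpace ℝ (Fin n)

/-- A bilinear form on `ℝ^n`. -/
abbrev Form (n : ℕ) := EE n →L[ℝ] EE n →L[ℝ] ℝ

variable {n : ℕ}

/-- Christoffel symbols `Γ(u,v)` of the Levi-Civita connection of `G` at `y`: the vector whose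
`G y`-pairing with `w` is `(∂_u G(v,w) + ∂_v G(u,w) - ∂_w G(u,v)) / 2`. -/
noncomputable def christoffel (G : EE n → Form n) (y u v : EE n) : EE n :=
  (G y).inverse ((1 / 2 : ℝ) •
    (fderiv ℝ G y u v + fderiv ℝ G y v u - ((fderiv ℝ G y).flip u).flip v))

/-- The curvature endomorphism `R(u,v)w = ∇_u∇_v w - ∇_v∇_u w` for constant fields. -/
noncomputable def curv (G : EE n → Form n) (y u v w : EE n) : EE n :=
  fderiv ℝ (fun z => christoffel G z v w) y u - fderiv ℝ (fun z => christoffel G z u w) y v
    + christoffel G y u (christoffel G y v w) - christoffel G y v (christoffel G y u w)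

/-- The geodesic equation `x' = v`, `v' = -Γ(v,v)` as a vector field on `ℝ^n × ℝ^n`. -/
noncomputable def spray (G : EE n → Form n) (q : EE n × EE n) : EE n × EE n :=
  (q.2, -christoffel G q.1 q.2 q.2)

/-- A Cartan-Hadamard metric on `ℝ^n`: smooth, symmetric, positive definite, geodesically complete
and of nonpositive sectional curvature. -/
structure IsCH (G : EE n → Form n) : Prop where
  smooth : ContDiff ℝ ∞ G
  symm : ∀ x a b, G x a b = G x b a
  pos : ∀ x a, a ≠ 0 → 0 < G x a a
  complete : ∀ q : EE n × EE n,
    ∃ α : ℝ → EE n × EE n, α 0 = q ∧ ∀ t, HasDerivAt α (spray G (α t)) t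
  sec : ∀ x a b, G x (curv G x a b b) a ≤ 0

/-- The density `√det G` of the Riemannian measure. -/
noncomputable def dens (G : EE n → Form n) (x : EE n) : ℝ :=
  Real.sqrt (Matrix.det (Matrix.of fun i j : Fin n =>
    G x (EuclideanSpace.single i (1 : ℝ)) (EuclideanSpace.single j (1 : ℝ))))

/-- The Riemannian measure. -/
noncomputable def rVol (G : EE n → Form n) : Measure (EE n) :=
  volume.withDensity fun x => ENNReal.ofReal (dens G x)

/-- The length of a covector. -/
noncomputable def conorm (G : EE n → Form n) (x : EE n) (p : EE n →L[ℝ] ℝ) : ℝ :=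
  Real.sqrt (p ((G x).inverse p))

/-- The total variation `∫ |∇u| dvol`. -/
noncomputable def TV (G : EE n → Form n) (u : EE n → ℝ) : ℝ :=
  ∫ x, conorm G x (fderiv ℝ u x) ∂rVol G

end Vale.Agent.P219
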