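import Vale.Agent.P219.Var.Averaged
import Vale.Agent.P219.Var.Bands
import Vale.Agent.P219.Lines.ChordBound
import Vale.Agent.P219.Cert

/-!
# P219 module Main: assembly

A negative infimum `m` of the deficit among competitors in a ball is impossible: a near-minimiser
has a good level, whose bands satisfy the averaged variation inequalities, and the chord bound
turns these into `ω² R^n ≤ (1 - κ²) ω² R^n + o(1)`.
-/

open MeasureTheory Set Filter Topology

namespace Vale.Agent.P219

variable {n : ℕ} {G : EE n → Form n}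

section Aux

theorem exp_pos_sob (hn : 2 ≤ n) : (0 : ℝ) < ((n : ℝ) - 1) / n := by
  have : (2 : ℝ) ≤ n := by exact_mod_cast hn
  exact div_pos (by linarith) (by linarith)

theorem sobExp_pos (hn : 2 ≤ n) : 0 < sobExp n := by
  have : (2 : ℝ) ≤ n := by exact_mod_cast hn
  exact div_pos (by linarith) (by linarith)

theorem sobExp_mul (hn : 2 ≤ n) : sobExp n * (((n : ℝ) - 1) / n) = 1 := by
  have : (2 : ℝ) ≤ n := by exact_mod_cast hn
  unfold sobExp
  field_simp [show (n : ℝ) - 1 ≠ 0 by linarith, show (n : ℝ) ≠ 0 by linarith]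

theorem gI_mono [NeZero n] (hn : 2 ≤ n) {V W : ℝ} (hV : 0 ≤ V) (h : V ≤ W) : gI n V ≤ gI n W :=
  mul_le_mul_of_nonneg_left (Real.rpow_le_rpow hV h (exp_pos_sob hn).le)
    (mul_nonneg (Nat.cast_nonneg n) (Real.rpow_nonneg omega_pos.le _))

/-- the radius of the model ball of volume `V` -/
noncomputable def modelRad (n : ℕ) (V : ℝ) : ℝ := (V / omega n) ^ (1 / n : ℝ)

theorem omega_modelRad [NeZero n] {V : ℝ} (hV : 0 ≤ V) :
    omega n * modelRad n V ^ n = V := by
  have h0 : 0 ≤ V / omega n := div_nonneg hV omega_pos.le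
  rw [modelRad, one_div, Real.rpow_inv_natCast_pow h0 (NeZero.ne n),
    mul_div_cancel₀ _ (omega_pos (n := n)).ne']

theorem gI_eq [NeZero n] (hn : 2 ≤ n) {V : ℝ} (hV : 0 ≤ V) :
    gI n V = n * omega n * modelRad n V ^ (n - 1) := by
  have hw : 0 < omega n := omega_pos
  have hn0 : (n : ℝ) ≠ 0 := Nat.cast_ne_zero.2 (NeZero.ne n)
  have h1 : ((n - 1 : ℕ) : ℝ) = (n : ℝ) - 1 := by
    rw [Nat.cast_sub (by omega)]; simp
  rw [modelRad, ← Real.rpow_natCast ((V / omega n) ^ (1 / n : ℝ)) (n - 1),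
    ← Real.rpow_mul (div_nonneg hV hw.le), h1, Real.div_rpow hV hw.le, gI]
  have e : omega n = omega n ^ (1 / n : ℝ) * omega n ^ (1 / n * ((n : ℝ) - 1)) := by
    rw [← Real.rpow_add hw]
    conv_lhs => rw [← Real.rpow_one (omega n)]
    congr 1
    field_simp
    ring
  rw [show 1 / (n : ℝ) * ((n : ℝ) - 1) = ((n : ℝ) - 1) / n by ring] at e ⊢
  have hp := Real.rpow_pos_of_pos hw (((n : ℝ) - 1) / n)
  conv_rhs => arg 1; rw [e]
  field_simp

theorem Calib.cost_parts [NeZero n] (C : Calib n) :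
    0 ≤ C.α + 2 * C.β / n + 2 * C.mu ∧
      C.cost = n * (C.α + 2 * C.β / n + 2 * C.mu) := by
  have hmu : 0 ≤ C.mu := by
    refine div_nonneg (integral_nonneg fun v => ?_) omega_pos.le
    exact mul_nonneg (le_max_left _ _) (C.φ_nonneg _ (le_max_left _ _))
  have hn0 : (0 : ℝ) < n := Nat.cast_pos.2 (NeZero.pos n)
  refine ⟨by have := C.α_nonneg; have := C.β_nonneg; positivity, ?_⟩
  unfold Calib.cost
  field_simp

/-- the ball is the worst case of the chord bound -/
theorem model_algebra [NeZero n] (hn : 2 ≤ n) (C : Calib n) {A V R k : ℝ} (hA : 0 ≤ A)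
    (hR : 0 < R) (hk0 : 0 ≤ k) (_hk1 : k ≤ 1) (hV : V = omega n * R ^ n)
    (hA' : A ≤ n * omega n * R ^ (n - 1) * (1 - k)) :
    C.α * A ^ 2 / (n * R ^ (n - 2)) + 2 * (C.β * A * V) / (n * R ^ (n - 1))
        + 2 * C.mu * omega n * R * A ≤ omega n ^ 2 * R ^ n * ((1 - k) * C.cost) := by
  obtain ⟨hc, hcost⟩ := C.cost_parts
  have hw : 0 < omega n := omega_pos
  have hn0 : (0 : ℝ) < n := Nat.cast_pos.2 (NeZero.pos n)
  have hR1 : R ^ n = R ^ (n - 1) * R := by rw [← pow_succ]; congr 1; omega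
  have hR2 : R ^ (n - 1) = R ^ (n - 2) * R := by rw [← pow_succ]; congr 1; omega
  have hA0 : A ≤ n * omega n * R ^ (n - 1) :=
    hA'.trans (mul_le_of_le_one_right (by positivity) (by linarith))
  have h1 : C.α * A ^ 2 / (n * R ^ (n - 2)) ≤ omega n * R * A * C.α := by
    rw [div_le_iff₀ (by positivity), sq]
    calc C.α * (A * A) = C.α * A * A := by ring
      _ ≤ C.α * A * (n * omega n * R ^ (n - 1)) :=
          mul_le_mul_of_nonneg_left hA0 (mul_nonneg C.α_nonneg hA)
      _ = _ := by rw [hR2]; ring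
  have h2 : 2 * (C.β * A * V) / (n * R ^ (n - 1)) = omega n * R * A * (2 * C.β / n) := by
    rw [hV, hR1]
    field_simp
  calc _ ≤ omega n * R * A * (C.α + 2 * C.β / n + 2 * C.mu) := by rw [h2]; nlinarith [h1]
    _ ≤ omega n * R * (n * omega n * R ^ (n - 1) * (1 - k))
          * (C.α + 2 * C.β / n + 2 * C.mu) :=
        mul_le_mul_of_nonneg_right (mul_le_mul_of_nonneg_left hA' (by positivity)) hc
    _ = _ := by rw [hR1, hcost]; ring

/-- the estimate for one band -/
theorem band_algebra [NeZero n] (hn : 2 ≤ n) (C : Calib n)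
    {P I A Amax VB J D r lo hi d κ₀ err e : ℝ}
    (hA0 : 0 ≤ A) (hAm : A ≤ Amax) (hlo0 : 0 < lo) (hrlo : lo ≤ r) (hrhi : r ≤ hi) (hd0 : 0 < d)
    (hκ₀ : κ₀ = d / (n * omega n * hi ^ (n - 1) + d)) (hCc : C.cost ≤ 1 + κ₀)
    (hA : A ≤ n * omega n * r ^ (n - 1) - d) (hVk : omega n * r ^ n ≤ VB) (hD0 : 0 ≤ D)
    (he0 : 0 ≤ e) (hJ0 : 0 ≤ J) (hJ : J ≤ omega n * r ^ n + D) (herr : err ≤ e)
    (hP : P ≤ C.α * A ^ 2 + err * A) (hI : I ≤ C.β * A * J + err * J) :
    P / (n * r ^ (n - 2)) + 2 * I / (n * r ^ (n - 1)) + 2 * C.mu * omega n * r * A ≤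
      omega n ^ 2 * r ^ n * (1 - κ₀ ^ 2)
        + e * (Amax / (n * lo ^ (n - 2)) + 2 * (VB + D) / (n * lo ^ (n - 1)))
        + 2 * (C.β * Amax * D) / (n * lo ^ (n - 1)) := by
  have hw : 0 < omega n := omega_pos
  have hnR : (0 : ℝ) < n := Nat.cast_pos.2 (NeZero.pos n)
  have hr0 : 0 < r := hlo0.trans_le hrlo
  have hhi0 : 0 < hi := hr0.trans_le hrhi
  have hAmax0 : 0 ≤ Amax := hA0.trans hAm
  have hVB0 : 0 ≤ VB := le_trans (by positivity) hVk
  have hβ := C.β_nonneg
  have hκ0 : 0 < κ₀ := by rw [hκ₀]; positivity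
  have hκ1 : κ₀ ≤ 1 := by
    rw [hκ₀]
    refine (div_le_one (by positivity)).2 ?_
    have : 0 ≤ n * omega n * hi ^ (n - 1) := by positivity
    linarith
  have hpow : ∀ j, lo ^ j ≤ r ^ j := fun j => pow_le_pow_left₀ hlo0.le hrlo j
  have hP' : P ≤ C.α * A ^ 2 + e * Amax :=
    hP.trans (add_le_add le_rfl ((mul_le_mul_of_nonneg_right herr hA0).trans
      (mul_le_mul_of_nonneg_left hAm he0)))
  have hI' : I ≤ C.β * A * (omega n * r ^ n) + C.β * Amax * D + e * (VB + D) := by
    refine hI.trans (add_le_add ?_ ((mul_le_mul_of_nonneg_right herr hJ0).trans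
      (mul_le_mul_of_nonneg_left (by linarith) he0)))
    calc C.β * A * J ≤ C.β * A * (omega n * r ^ n + D) :=
          mul_le_mul_of_nonneg_left hJ (mul_nonneg hβ hA0)
      _ ≤ _ := by
          rw [mul_add]
          exact add_le_add le_rfl (mul_le_mul_of_nonneg_right
            (mul_le_mul_of_nonneg_left hAm hβ) hD0)
  have hA' : A ≤ n * omega n * r ^ (n - 1) * (1 - κ₀) := by
    have h1 : n * omega n * r ^ (n - 1) * κ₀ ≤ d := by
      rw [hκ₀, mul_div_assoc', div_le_iff₀ (by positivity), mul_comm]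
      refine mul_le_mul_of_nonneg_left ?_ hd0.le
      have : n * omega n * r ^ (n - 1) ≤ n * omega n * hi ^ (n - 1) :=
        mul_le_mul_of_nonneg_left (pow_le_pow_left₀ hr0.le hrhi _) (by positivity)
      linarith
    linarith
  have hk := model_algebra hn C hA0 hr0 hκ0.le hκ1 rfl hA'
  have hk' : omega n ^ 2 * r ^ n * ((1 - κ₀) * C.cost) ≤ omega n ^ 2 * r ^ n * (1 - κ₀ ^ 2) := by
    refine mul_le_mul_of_nonneg_left ?_ (by positivity)
    nlinarith [mul_le_mul_of_nonneg_left hCc (sub_nonneg.2 hκ1)]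
  have q1 : P / (n * r ^ (n - 2)) ≤
      C.α * A ^ 2 / (n * r ^ (n - 2)) + e * (Amax / (n * lo ^ (n - 2))) := by
    refine (div_le_div_of_nonneg_right hP' (by positivity)).trans ?_
    rw [add_div, mul_div_assoc e]
    refine add_le_add le_rfl (mul_le_mul_of_nonneg_left ?_ he0)
    exact div_le_div_of_nonneg_left hAmax0 (by positivity)
      (mul_le_mul_of_nonneg_left (hpow _) hnR.le)
  have q2 : 2 * I / (n * r ^ (n - 1)) ≤
      2 * (C.β * A * (omega n * r ^ n)) / (n * r ^ (n - 1))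
        + (2 * (C.β * Amax * D) + 2 * (e * (VB + D))) / (n * lo ^ (n - 1)) := by
    refine (div_le_div_of_nonneg_right (mul_le_mul_of_nonneg_left hI' zero_le_two)
      (by positivity)).trans ?_
    rw [mul_add, mul_add, add_assoc, add_div]
    exact add_le_add le_rfl (div_le_div_of_nonneg_left (by positivity) (by positivity)
      (mul_le_mul_of_nonneg_left (hpow _) hnR.le))
  refine (add_le_add (add_le_add q1 q2) le_rfl).trans ?_
  rw [add_div]
  have e1 : e * (Amax / (n * lo ^ (n - 2)) + 2 * (VB + D) / (n * lo ^ (n - 1)))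
      = e * (Amax / (n * lo ^ (n - 2))) + 2 * (e * (VB + D)) / (n * lo ^ (n - 1)) := by ring
  rw [e1]
  linarith

theorem pMass_nonneg (u : EE n → ℝ) : 0 ≤ pMass G u :=
  integral_nonneg fun x => Real.rpow_nonneg (abs_nonneg _) _

theorem integrable_rVol (hG : IsCH G) {f : EE n → ℝ} (hf : Continuous f)
    (hc : HasCompactSupport f) : Integrable f (rVol G) := by
  have := isFiniteMeasureOnCompacts_rVol hG
  exact hf.integrable_of_hasCompactSupport hc

theorem integrable_conorm_fderiv (hG : IsCH G) {u : EE n → ℝ} (hu : ContDiff ℝ 1 u)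
    (hc : HasCompactSupport u) :
    Integrable (fun x => conorm G x (fderiv ℝ u x)) (rVol G) :=
  integrable_rVol hG ((continuous_conorm hG).comp
    (continuous_id.prodMk (hu.continuous_fderiv one_ne_zero)))
    ((hc.fderiv ℝ).mono' fun x hx => subset_tsupport _ (fun h0 => hx (by
      simp only [Function.mem_support, ne_eq] at *
      rw [h0, conorm_eq_zero hG |>.2 rfl])))

theorem integrable_rpow_abs (hn : 2 ≤ n) (hG : IsCH G) {u : EE n → ℝ} (hu : Continuous u)
    (hc : HasCompactSupport u) : Integrable (fun x => |u x| ^ sobExp n) (rVol G) :=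
  integrable_rVol hG
    (Continuous.rpow_const (continuous_abs.comp hu) fun x => Or.inr (sobExp_pos hn).le)
    (hc.comp_left (g := fun t : ℝ => |t| ^ sobExp n)
      (by simp [Real.zero_rpow (sobExp_pos hn).ne']))

theorem pMass_le_ball (hn : 2 ≤ n) (hG : IsCH G) {o : EE n} {R₀ : ℝ} {u : EE n → ℝ}
    (hu : Adm hG o R₀ u) : pMass G u ≤ (rVol G (gball hG o R₀)).toReal := by
  have hb := isCompact_gball hG o R₀
  have := isFiniteMeasureOnCompacts_rVol hG
  calc pMass G u ≤ ∫ x, (gball hG o R₀).indicator (fun _ => (1 : ℝ)) x ∂rVol G := by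
        refine integral_mono (integrable_rpow_abs hn hG hu.smooth.continuous
          hu.hasCompactSupport) ?_ fun x => ?_
        · exact (integrableOn_const hb.measure_lt_top.ne).integrable_indicator hb.measurableSet
        · by_cases hx : x ∈ gball hG o R₀
          · simp only [indicator_of_mem hx]
            exact Real.rpow_le_one (abs_nonneg _) (by rw [abs_of_nonneg (hu.nonneg x)]; exact hu.le_one x)
              (sobExp_pos hn).le
          · have : u x = 0 := image_eq_zero_of_notMem_tsupport fun h => hx (hu.supp h)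
            simp [indicator_of_notMem hx, this, Real.zero_rpow (sobExp_pos hn).ne']
    _ = _ := by simp [integral_indicator hb.measurableSet, Measure.real]

/-- a violation gives a competitor with negative deficit -/
theorem exists_adm_neg (hn : 2 ≤ n) (hG : IsCH G) {u : EE n → ℝ} (hu : ContDiff ℝ 1 u)
    (hc : HasCompactSupport u) (h : TV G u < gI n (pMass G u)) :
    ∃ o R₀ v, Adm hG o R₀ v ∧ deficit G v < 0 := by
  obtain ⟨M, hM⟩ := hc.exists_bound_of_continuous hu.continuous
  set L := max M 1 with hL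
  have hL0 : 0 < L := lt_max_of_lt_right one_pos
  set w : ℕ → EE n → ℝ :=
    fun k x => Real.sqrt (u x ^ 2 + (1 / ((k : ℝ) + 1)) ^ 2) - 1 / ((k : ℝ) + 1) with hw
  have hd : ∀ k : ℕ, (0 : ℝ) < 1 / ((k : ℝ) + 1) := fun k => by positivity
  have hw0 : ∀ k x, 0 ≤ w k x ∧ w k x ≤ |u x| := fun k x => by
    constructor
    · rw [hw, sub_nonneg]; exact Real.le_sqrt_of_sq_le (by nlinarith)
    · rw [hw, sub_le_iff_le_add, Real.sqrt_le_left (by have := hd k; positivity)]
      nlinarith [sq_abs (u x), abs_nonneg (u x), hd k]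
  have hws : ∀ k, ContDiff ℝ 1 (w k) := fun k =>
    (((hu.pow 2).add contDiff_const).sqrt fun x => by have := hd k; positivity).sub contDiff_const
  have hsupp : ∀ k, tsupport (w k) ⊆ tsupport u := fun k =>
    closure_mono fun x hx h0 => hx (by
      have := hw0 k x
      rw [h0, abs_zero] at this
      linarith [this.1, this.2])
  have hwc : ∀ k, HasCompactSupport (w k) := fun k =>
    hc.of_isClosed_subset (isClosed_tsupport _) (hsupp k)
  have hlim : Tendsto (fun k => pMass G (w k)) atTop (𝓝 (pMass G u)) := by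
    refine tendsto_integral_of_dominated_convergence (fun x => |u x| ^ sobExp n)
      (fun k => (integrable_rpow_abs hn hG (hws k).continuous (hwc k)).1)
      (integrable_rpow_abs hn hG hu.continuous hc)
      (fun k => Eventually.of_forall fun x => ?_) (Eventually.of_forall fun x => ?_)
    · rw [Real.norm_eq_abs, abs_of_nonneg (Real.rpow_nonneg (abs_nonneg _) _)]
      exact Real.rpow_le_rpow (abs_nonneg _) (by rw [abs_of_nonneg (hw0 k x).1]; exact (hw0 k x).2)
        (sobExp_pos hn).le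
    · have h0 : Tendsto (fun k : ℕ => 1 / ((k : ℝ) + 1)) atTop (𝓝 0) :=
        tendsto_one_div_add_atTop_nhds_zero_nat
      have h1 : Tendsto (fun k => w k x) atTop (𝓝 |u x|) := by
        have hcd : Continuous fun d : ℝ => Real.sqrt (u x ^ 2 + d ^ 2) := by fun_prop
        have := (hcd.tendsto 0).comp h0
        simpa [hw, Real.sqrt_sq_eq_abs, Function.comp_def] using this.sub h0
      have h2 := (h1.abs).rpow_const (p := sobExp n) (Or.inr (sobExp_pos hn).le)
      simpa using h2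
  have hTV : ∀ k, TV G (w k) ≤ TV G u := fun k => by
    refine integral_mono (integrable_conorm_fderiv hG (hws k) (hwc k))
      (integrable_conorm_fderiv hG hu hc) fun x => ?_
    have hp : 0 < u x ^ 2 + (1 / ((k : ℝ) + 1)) ^ 2 := by have := hd k; positivity
    have hdu := (hu.differentiable one_ne_zero x).hasFDerivAt
    have hdw := (((hdu.pow 2).add_const _).sqrt hp.ne').sub_const (1 / ((k : ℝ) + 1))
    rw [hdw.fderiv, smul_smul, conorm_smul hG]
    refine mul_le_of_le_one_left (conorm_nonneg _ _) ?_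
    have hs := Real.sqrt_pos.2 hp
    simp only [nsmul_eq_mul, smul_eq_mul]
    rw [abs_le]
    have hle : |u x| ≤ Real.sqrt (u x ^ 2 + (1 / ((k : ℝ) + 1)) ^ 2) :=
      Real.abs_le_sqrt (by nlinarith)
    have := abs_le.1 hle
    constructor
    · rw [div_mul_eq_mul_div, le_div_iff₀ (by positivity)]; push_cast; nlinarith
    · rw [div_mul_eq_mul_div, div_le_iff₀ (by positivity)]; push_cast; nlinarith
  have hgc : Continuous (gI n) :=
    continuous_const.mul (Real.continuous_rpow_const (exp_pos_sob hn).le)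
  obtain ⟨k, hk⟩ := (((hgc.tendsto _).comp hlim).eventually (lt_mem_nhds h)).exists
  obtain ⟨R₀, hR₀⟩ : ∃ R₀, tsupport u ⊆ gball hG 0 R₀ := by
    obtain ⟨R₀, h⟩ := (hc.image ((continuous_gdist hG).comp
      (continuous_const.prodMk continuous_id))).bddAbove
    exact ⟨R₀, fun x hx => h ⟨x, hx, rfl⟩⟩
  refine ⟨0, R₀, fun x => L⁻¹ * w k x, ⟨contDiff_const.mul (hws k),
    ((tsupport_mul_subset_right).trans (hsupp k)).trans hR₀,
    fun x => mul_nonneg (inv_nonneg.2 hL0.le) (hw0 k x).1, fun x => ?_⟩, ?_⟩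
  · rw [inv_mul_le_iff₀ hL0, mul_one]
    exact ((hw0 k x).2.trans (hM x)).trans (le_max_left _ _)
  have e1 : TV G (fun x => L⁻¹ * w k x) = L⁻¹ * TV G (w k) := by
    rw [TV, TV, ← integral_const_mul]
    congr 1 with x
    rw [fderiv_const_mul ((hws k).differentiable one_ne_zero x), conorm_smul hG,
      abs_of_pos (inv_pos.2 hL0)]
  have e2 : pMass G (fun x => L⁻¹ * w k x) = L⁻¹ ^ sobExp n * pMass G (w k) := by
    rw [pMass, pMass, ← integral_const_mul]
    congr 1 with x
    rw [abs_mul, abs_of_pos (inv_pos.2 hL0), Real.mul_rpow (by positivity) (abs_nonneg _)]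
  have e3 : gI n (L⁻¹ ^ sobExp n * pMass G (w k)) = L⁻¹ * gI n (pMass G (w k)) := by
    rw [gI, gI, Real.mul_rpow (by positivity) (pMass_nonneg _), ← Real.rpow_mul (by positivity),
      sobExp_mul hn, Real.rpow_one]
    ring
  rw [deficit, e1, e2, e3, ← mul_sub]
  refine mul_neg_of_pos_of_neg (inv_pos.2 hL0) ?_
  have := hTV k
  simp only [Function.comp_apply] at hk
  linarith

theorem radius_bound [NeZero n] (hn : 2 ≤ n) (hG : IsCH G) {o : EE n} {R₀ d : ℝ} (hd0 : 0 < d)
    {w : EE n → ℝ} (hw' : Adm hG o R₀ w) (hwd : deficit G w ≤ -d) :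
    modelRad n (pMass G w) ∈ Icc
        (min 1 (d / (n * omega n * (modelRad n (rVol G (gball hG o R₀)).toReal ^ (n - 2) + 1))))
        (modelRad n (rVol G (gball hG o R₀)).toReal) ∧
      TV G w ≤ n * omega n * modelRad n (pMass G w) ^ (n - 1) - d ∧
      TV G w ≤ gI n (rVol G (gball hG o R₀)).toReal := by
  have hw : 0 < omega n := omega_pos
  have hnR : (0 : ℝ) < n := Nat.cast_pos.2 (NeZero.pos n)
  set hi := modelRad n (rVol G (gball hG o R₀)).toReal with hhi
  have hhi0 : 0 ≤ hi := Real.rpow_nonneg (div_nonneg ENNReal.toReal_nonneg hw.le) _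
  have hle : modelRad n (pMass G w) ≤ hi := Real.rpow_le_rpow
    (div_nonneg (pMass_nonneg w) hw.le)
    (div_le_div_of_nonneg_right (pMass_le_ball hn hG hw') hw.le) (by positivity)
  have hr0 : 0 ≤ modelRad n (pMass G w) := Real.rpow_nonneg (div_nonneg (pMass_nonneg w) hw.le) _
  have ht := TV_nonneg (G := G) w
  have hg := gI_mono hn (pMass_nonneg (G := G) w) (pMass_le_ball hn hG hw')
  rw [deficit] at hwd
  rw [gI_eq hn (pMass_nonneg w)] at hwd
  refine ⟨⟨?_, hle⟩, by linarith, by rw [← gI_eq hn (pMass_nonneg w)] at hwd; linarith⟩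
  refine (min_le_right _ _).trans ((div_le_iff₀ (by positivity)).2 ?_)
  calc d ≤ n * omega n * modelRad n (pMass G w) ^ (n - 1) := by linarith
    _ = modelRad n (pMass G w) * (n * omega n * modelRad n (pMass G w) ^ (n - 2)) := by
        rw [show n - 1 = n - 2 + 1 by omega, pow_succ]; ring
    _ ≤ _ := by
        refine mul_le_mul_of_nonneg_left (mul_le_mul_of_nonneg_left ?_ (by positivity)) hr0
        linarith [pow_le_pow_left₀ hr0 hle (n - 2)]

/-- letting `k → ∞` in the band estimate -/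
theorem limit_absurd [NeZero n] (hn : 2 ≤ n) {lo R κ₀ e₀ Amax VB c₁ c₂ : ℝ} {Rs D X : ℕ → ℝ}
    (hlo0 : 0 < lo) (hR : lo ≤ R) (hκ0 : 0 < κ₀) (hRlim : Tendsto Rs atTop (𝓝 R))
    (hD : Tendsto D atTop (𝓝 0))
    (hbound : ∀ k, X k ≤ omega n ^ 2 * Rs k ^ n * (1 - κ₀ ^ 2)
      + (e₀ + c₁ * D k) * (Amax / (n * lo ^ (n - 2)) + 2 * (VB + D k) / (n * lo ^ (n - 1)))
      + 2 * (c₂ * D k) / (n * lo ^ (n - 1)))
    (hfin : ∀ M : ℝ, (∀ᶠ k in atTop, X k ≤ M) → omega n * (omega n * R ^ n) ≤ M)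
    (hsmall : e₀ * (Amax / (n * lo ^ (n - 2)) + 2 * VB / (n * lo ^ (n - 1))) ≤
      omega n ^ 2 * lo ^ n * κ₀ ^ 2 / 4) : False := by
  have hw : 0 < omega n := omega_pos
  set E₀ := omega n ^ 2 * lo ^ n * κ₀ ^ 2 / 4 with hE
  have hE0 : 0 < E₀ := by positivity
  have h1 := ((hRlim.pow n).const_mul (omega n ^ 2)).mul_const (1 - κ₀ ^ 2)
  have h2 := (tendsto_const_nhds (x := e₀)).add (hD.const_mul c₁)
  have h3 := (tendsto_const_nhds (x := Amax / (n * lo ^ (n - 2)))).add
    ((((tendsto_const_nhds (x := VB)).add hD).const_mul 2).div_const (n * lo ^ (n - 1)))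
  have h4 := ((hD.const_mul c₂).const_mul 2).div_const (n * lo ^ (n - 1))
  have hl := (h1.add (h2.mul h3)).add h4
  simp only [mul_zero, add_zero, zero_div] at hl
  have hM := hfin _ (((hl.eventually (ge_mem_nhds (lt_add_of_pos_right _ hE0)))).mono
    fun k hk => (hbound k).trans hk)
  have hlow : omega n ^ 2 * lo ^ n * κ₀ ^ 2 ≤ omega n ^ 2 * R ^ n * κ₀ ^ 2 :=
    mul_le_mul_of_nonneg_right (mul_le_mul_of_nonneg_left
      (pow_le_pow_left₀ hlo0.le hR n) (sq_nonneg _)) (sq_nonneg _)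
  nlinarith

end Aux

/-- calibrations of cost arbitrarily close to one give the sharp Sobolev inequality -/
theorem sharp_sobolev [NeZero n] (hn : 2 ≤ n)
    (hC : ∀ δ > (0 : ℝ), ∃ C : Calib n, C.cost ≤ 1 + δ)
    (hG : IsCH G) {u : EE n → ℝ} (hu : ContDiff ℝ 1 u) (hc : HasCompactSupport u) :
    gI n (pMass G u) ≤ TV G u := by
  by_contra hcon
  obtain ⟨o, R₀, v, hv, hv0⟩ := exists_adm_neg hn hG hu hc (not_le.1 hcon)
  have hw : 0 < omega n := omega_pos
  have hnR : (0 : ℝ) < n := Nat.cast_pos.2 (NeZero.pos n)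
  set VB := (rVol G (gball hG o R₀)).toReal with hVB
  have hVB0 : 0 ≤ VB := ENNReal.toReal_nonneg
  -- the infimum
  set S := deficit G '' {w | Adm hG o R₀ w} with hS
  have hSb : BddBelow S := ⟨-gI n VB, by
    rintro _ ⟨w, hw', rfl⟩
    have := gI_mono hn (pMass_nonneg (G := G) w) (pMass_le_ball hn hG hw')
    have := TV_nonneg (G := G) w
    rw [deficit]; linarith⟩
  set m := sInf S with hmdef
  have hm : ∀ w, Adm hG o R₀ w → m ≤ deficit G w := fun w hw' => csInf_le hSb ⟨w, hw', rfl⟩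
  have hm0 : m < 0 := (hm v hv).trans_lt hv0
  set d := -m / 2 with hd
  have hd0 : 0 < d := by rw [hd]; linarith
  -- radii
  set hi := modelRad n VB with hhi
  set Amax := gI n VB with hAmax
  set lo := min 1 (d / (n * omega n * (hi ^ (n - 2) + 1))) with hlo
  have hhi0 : 0 ≤ hi := Real.rpow_nonneg (div_nonneg hVB0 hw.le) _
  have hlo0 : 0 < lo := lt_min one_pos (by positivity)
  have radius : ∀ w, Adm hG o R₀ w → deficit G w ≤ -d →
      modelRad n (pMass G w) ∈ Icc lo hi ∧
        TV G w ≤ n * omega n * modelRad n (pMass G w) ^ (n - 1) - d ∧ TV G w ≤ Amax :=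
    fun w hw' hwd => radius_bound hn hG hd0 hw' hwd
  -- the calibration
  set κ₀ := d / (n * omega n * hi ^ (n - 1) + d) with hκ₀
  have hκ0 : 0 < κ₀ := by positivity
  have hκ1 : κ₀ ≤ 1 := (div_le_one (by positivity)).2 (by
    have : 0 ≤ n * omega n * hi ^ (n - 1) := by positivity
    linarith)
  obtain ⟨C, hCc⟩ := hC κ₀ hκ0
  obtain ⟨C₁, hC₁⟩ := exists_averaged_bound hn hG C o R₀ lo hi hlo0
  -- small parameters
  set E₀ := omega n ^ 2 * lo ^ n * κ₀ ^ 2 / 4 with hE₀
  have hE0 : 0 < E₀ := by positivity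
  set B := Amax / (n * lo ^ (n - 2)) + 2 * (VB + 1) / (n * lo ^ (n - 1)) + 1 with hB
  have hAmax0 : 0 ≤ Amax := mul_nonneg (mul_nonneg hnR.le (Real.rpow_nonneg hw.le _))
    (Real.rpow_nonneg hVB0 _)
  have hB0 : 0 < B := by positivity
  set θ := E₀ / (4 * B * (1 + Amax)) with hθ
  obtain ⟨τ, hτ0, hτ⟩ := hC₁ θ (by positivity)
  set ε := min (d / 3) (τ * E₀ / (12 * B)) with hε
  have hε0 : 0 < ε := lt_min (by positivity) (by positivity)
  obtain ⟨-, ⟨u₀, hu₀, rfl⟩, hu₀m⟩ := Real.lt_sInf_add_pos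
    (show S.Nonempty from ⟨_, v, hv, rfl⟩) hε0
  obtain ⟨s, hs, htr, κ, hκ, hκd⟩ := exists_good_level hn hG hu₀ hm hε0 hu₀m.le
  set b := fun k => band (κ k) s u₀ with hbdef
  have hb : ∀ k, Adm hG o R₀ (b k) := fun k => band_adm hG hu₀ hs.1 (hκd k).1
  have hbd : ∀ k, deficit G (b k) ≤ -d := fun k => by
    have := (hκd k).2
    have := min_le_left (d / 3) (τ * E₀ / (12 * B))
    rw [hd] at *; linarith
  obtain ⟨hlimV, hlimD⟩ := tendsto_pMass_band hn hG hu₀ hs.1 hκ
  set V := (rVol G {x | s < u₀ x}).toReal with hV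
  set R := modelRad n V with hR
  set Rs := fun k => modelRad n (pMass G (b k)) with hRs
  have hRlim : Tendsto Rs atTop (𝓝 R) :=
    ((Real.continuous_rpow_const (by positivity)).tendsto _).comp (hlimV.div_const _)
  have hRmem : R ∈ Icc lo hi :=
    isClosed_Icc.mem_of_tendsto hRlim (Eventually.of_forall fun k => (radius _ (hb k) (hbd k)).1)
  have hR0 : 0 < R := hlo0.trans_le hRmem.1
  -- the bound for the bands
  set D := fun k => ∫ x, |b k x ^ sobExp n - b k x| ∂rVol G with hD
  have hbound : ∀ k, PI hG C (b k) (Rs k) / (n * Rs k ^ (n - 2))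
      + 2 * IPI hG C (b k) (Rs k) / (n * Rs k ^ (n - 1))
      + 2 * C.mu * omega n * Rs k * TV G (b k) ≤
        omega n ^ 2 * Rs k ^ n * (1 - κ₀ ^ 2) + (3 * ε / τ + θ * (1 + Amax) + |C₁| * D k)
          * (Amax / (n * lo ^ (n - 2)) + 2 * (VB + D k) / (n * lo ^ (n - 1)))
          + 2 * (C.β * Amax * D k) / (n * lo ^ (n - 1)) := by
    intro k
    obtain ⟨⟨hrlo, hrhi⟩, hA, hAm⟩ := radius _ (hb k) (hbd k)
    set A := TV G (b k)
    set r := Rs k with hrdef
    have hA0 : 0 ≤ A := TV_nonneg _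
    have hr0 : 0 < r := hlo0.trans_le hrlo
    have hmass : pMass G (b k) = omega n * r ^ n := (omega_modelRad (pMass_nonneg _)).symm
    obtain ⟨hP, hI⟩ := hτ τ hτ0 le_rfl m hm (b k) (hb k) r ⟨hrlo, hrhi⟩ hmass _ rfl
    set err := (deficit G (b k) - m) / τ + θ * (1 + A) + C₁ * D k
    have hD0 : 0 ≤ D k := integral_nonneg fun x => abs_nonneg _
    set e := 3 * ε / τ + θ * (1 + Amax) + |C₁| * D k with he
    have hθ0 : 0 ≤ θ := by positivity
    have he0 : 0 ≤ e := by positivity
    have herr : err ≤ e := by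
      refine add_le_add (add_le_add ((div_le_div_iff_of_pos_right hτ0).2 ?_)
        (mul_le_mul_of_nonneg_left (by linarith) hθ0))
        (mul_le_mul_of_nonneg_right (le_abs_self _) hD0)
      linarith [(hκd k).2]
    have hint : ∫ x, b k x ∂rVol G ≤ omega n * r ^ n + D k := by
      have hcs := (hb k).hasCompactSupport
      have i1 : Integrable (fun x => b k x ^ sobExp n) (rVol G) :=
        (integrable_rpow_abs hn hG (hb k).smooth.continuous hcs).congr
          (Eventually.of_forall fun x => by simp [abs_of_nonneg ((hb k).nonneg x)])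
      have i0 := integrable_rVol hG (hb k).smooth.continuous hcs
      rw [← hmass, pMass, hD]
      simp only [abs_of_nonneg ((hb k).nonneg _)]
      have i2 : Integrable (fun x => |b k x ^ sobExp n - b k x|) (rVol G) := (i1.sub i0).abs
      rw [← integral_add i1 i2]
      refine integral_mono i0 (i1.add i2) fun x => ?_
      have := neg_abs_le (b k x ^ sobExp n - b k x)
      simp only [Pi.add_apply]
      linarith
    have hint0 : 0 ≤ ∫ x, b k x ∂rVol G := integral_nonneg fun x => (hb k).nonneg x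
    have hVk : omega n * r ^ n ≤ VB := hmass ▸ pMass_le_ball hn hG (hb k)
    exact band_algebra hn C hA0 hAm hlo0 hrlo hrhi hd0 hκ₀ hCc hA hVk hD0 he0 hint0 hint herr hP hI
  have hsmall : (3 * ε / τ + θ * (1 + Amax))
      * (Amax / (n * lo ^ (n - 2)) + 2 * VB / (n * lo ^ (n - 1))) ≤ E₀ := by
    have h1 : 3 * ε / τ ≤ E₀ / (4 * B) := by
      rw [div_le_iff₀ hτ0]
      calc 3 * ε ≤ 3 * (τ * E₀ / (12 * B)) := by
            linarith [min_le_right (d / 3) (τ * E₀ / (12 * B))]
        _ = _ := by ring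
    have h2 : θ * (1 + Amax) = E₀ / (4 * B) := by rw [hθ]; field_simp
    have h3 : Amax / (n * lo ^ (n - 2)) + 2 * VB / (n * lo ^ (n - 1)) ≤ B := by
      rw [hB]
      have : 2 * VB / (n * lo ^ (n - 1)) ≤ 2 * (VB + 1) / (n * lo ^ (n - 1)) :=
        div_le_div_of_nonneg_right (by linarith) (by positivity)
      linarith
    calc _ ≤ (E₀ / (4 * B) + E₀ / (4 * B)) * B :=
          mul_le_mul (by linarith) h3 (by positivity) (by positivity)
      _ = E₀ / 2 := by field_simp; ring
      _ ≤ E₀ := by linarith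
  exact limit_absurd hn hlo0 hRmem.1 hκ0 hRlim hlimD hbound (fun M hM => by
    rw [hR, omega_modelRad (n := n) (V := V) ENNReal.toReal_nonneg]
    exact chord_bound hn hG C hu₀ hs.1 htr hκ (fun k => (hκd k).1) hR0 hRlim hM) hsmall

end Vale.Agent.P219
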