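import Mathlib

/-!
# P219: the definitions used by the statement of the hand-in

They are stated over an abstract inner product space, which keeps the printed statement short; they
agree by definition with the working definitions of `Defs` and `StmtDefs` at `EuclideanSpace`.
-/

open scoped ContDiff
open MeasureTheory

namespace Vale.Agent.P219.Statement

variable {E : Type} [NormedAddCommGroup E] [InnerProductSpace ℝ E]

/-- Christoffel symbols `Γ(u,v)` of the Levi-Civita connection of `G` at `y`: the vector whose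
`G y`-pairing with `w` is `(∂_u G(v,w) + ∂_v G(u,w) - ∂_w G(u,v)) / 2`. -/
noncomputable def christoffel (G : E → E →L[ℝ] E →L[ℝ] ℝ) (y u v : E) : E :=
  (G y).inverse ((1 / 2 : ℝ) •
    (fderiv ℝ G y u v + fderiv ℝ G y v u - ((fderiv ℝ G y).flip u).flip v))

/-- The curvature endomorphism `R(u,v)w = ∇_u∇_v w - ∇_v∇_u w` for constant fields. -/
noncomputable def curvature (G : E → E →L[ℝ] E →L[ℝ] ℝ) (y u v w : E) : E :=
  fderiv ℝ (fun z => christoffel G z v w) y u - fderiv ℝ (fun z => christoffel G z u w) y v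
    + christoffel G y u (christoffel G y v w) - christoffel G y v (christoffel G y u w)

/-- The geodesic equation `x' = v`, `v' = -Γ(v,v)` as a vector field on `E × E`. -/
noncomputable def geodesicSpray (G : E → E →L[ℝ] E →L[ℝ] ℝ) (q : E × E) : E × E :=
  (q.2, -christoffel G q.1 q.2 q.2)

/-- A Cartan-Hadamard metric on `E`: smooth, symmetric, positive definite, geodesically complete
and of nonpositive sectional curvature. -/
structure IsCartanHadamard (G : E → E →L[ℝ] E →L[ℝ] ℝ) : Prop where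
  smooth : ContDiff ℝ ∞ G
  symm : ∀ x a b, G x a b = G x b a
  pos : ∀ x a, a ≠ 0 → 0 < G x a a
  complete : ∀ q : E × E,
    ∃ α : ℝ → E × E, α 0 = q ∧ ∀ t, HasDerivAt α (geodesicSpray G (α t)) t
  sec : ∀ x a b, G x (curvature G x a b b) a ≤ 0

/-- The length of a covector. -/
noncomputable def conorm (G : E → E →L[ℝ] E →L[ℝ] ℝ) (x : E) (p : E →L[ℝ] ℝ) : ℝ :=
  Real.sqrt (p ((G x).inverse p))

/-- The points outside `S` joined to a point of `S` by a `C¹` curve of length at most `δ`. -/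
def collar (G : E → E →L[ℝ] E →L[ℝ] ℝ) (S : Set E) (δ : ℝ) : Set E :=
  {x | x ∉ S ∧ ∃ γ : ℝ → E, ContDiff ℝ 1 γ ∧ γ 0 = x ∧ γ 1 ∈ S ∧
    (∫ t in (0 : ℝ)..1, Real.sqrt (G (γ t) (deriv γ t) (deriv γ t))) ≤ δ}

/-- The two inequalities with constant `c` and dimension `d` for the measure `μ` and the metric
`G`: in Sobolev form, and for bounded measurable sets with the collar in place of the boundary. -/
def IsoIneq [MeasurableSpace E] (d : ℕ) (c : ℝ) (μ : Measure E)
    (G : E → E →L[ℝ] E →L[ℝ] ℝ) : Prop :=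
  (∀ u : E → ℝ, ContDiff ℝ 1 u → HasCompactSupport u →
      c * (∫ x, |u x| ^ ((d : ℝ) / ((d : ℝ) - 1)) ∂μ) ^ (((d : ℝ) - 1) / d)
        ≤ ∫ x, conorm G x (fderiv ℝ u x) ∂μ) ∧
  ∀ S : Set E, Bornology.IsBounded S → MeasurableSet S → ∀ δ : ℝ, 0 < δ →
    ENNReal.ofReal (c * (μ S).toReal ^ (((d : ℝ) - 1) / d) * δ) ≤ μ (collar G S δ)

/-- The Riemannian measure `√det G dx` on `ℝ^n`. -/
noncomputable def riemVolume {n : ℕ}
    (G : EuclideanSpace ℝ (Fin n) →
      EuclideanSpace ℝ (Fin n) →L[ℝ] EuclideanSpace ℝ (Fin n) →L[ℝ] ℝ) :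
    Measure (EuclideanSpace ℝ (Fin n)) :=
  volume.withDensity fun x => ENNReal.ofReal (Real.sqrt (Matrix.det (Matrix.of fun i j : Fin n =>
    G x (EuclideanSpace.single i (1 : ℝ)) (EuclideanSpace.single j (1 : ℝ)))))

/-- The isoperimetric constant `n ωₙ^(1/n)` of `ℝ^n`. -/
noncomputable def isoConst (n : ℕ) : ℝ :=
  (n : ℝ) * (volume (Metric.closedBall (0 : EuclideanSpace ℝ (Fin n)) 1)).toReal ^ (1 / n : ℝ)

end Vale.Agent.P219.Statement
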